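import Crest.Agent.LCS.Defs

/-! JOB B0: generic calculus of temperate functions. -/

set_option autoImplicit false
set_option linter.unusedSectionVars false
open MeasureTheory Function

namespace Crest.Agent.LCS

section Gen
variable {Y F : Type} [NormedAddCommGroup Y] [NormedSpace ℝ Y] [NormedAddCommGroup F]
  [NormedSpace ℝ F]

theorem tg_fderiv {f : Y → F} (hf : f.HasTemperateGrowth) : (fderiv ℝ f).HasTemperateGrowth := by
  refine ⟨(contDiff_infty_iff_fderiv.1 hf.1).2, fun n => ?_⟩
  obtain ⟨k, C, h⟩ := hf.2 (n + 1)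
  exact ⟨k, C, fun x => by rw [norm_iteratedFDeriv_fderiv]; exact h x⟩

theorem tg_pg {f : Y → F} (hf : f.HasTemperateGrowth) : PG f := by
  obtain ⟨k, C, h⟩ := hf.2 0
  exact ⟨C, k, fun y => by simpa using h y⟩

theorem tg_diff {f : Y → F} (hf : f.HasTemperateGrowth) : Differentiable ℝ f :=
  hf.1.differentiable (by simp)

theorem tg_cont {f : Y → F} (hf : f.HasTemperateGrowth) : Continuous f := hf.1.continuous

theorem tg_act {b : Y → Y} {f : Y → F} (hb : b.HasTemperateGrowth) (hf : f.HasTemperateGrowth) :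
    (act b f).HasTemperateGrowth :=
  (ContinuousLinearMap.id ℝ (Y →L[ℝ] F)).bilinear_hasTemperateGrowth (tg_fderiv hf) hb

theorem tg_pd (e : Y) {f : Y → F} (hf : f.HasTemperateGrowth) : (pd e f).HasTemperateGrowth :=
  tg_act (b := fun _ => e) (HasTemperateGrowth.const e) hf

theorem fderiv_pd {f : Y → F} (hf : f.HasTemperateGrowth) (e e' x : Y) :
    fderiv ℝ (pd e' f) x e = fderiv ℝ (fderiv ℝ f) x e e' := by
  have h : DifferentiableAt ℝ (fderiv ℝ f) x := tg_diff (tg_fderiv hf) x
  have : pd e' f = fun z => (fderiv ℝ f z) e' := rfl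
  rw [this, fderiv_clm_apply h (differentiableAt_const e')]
  simp

theorem pd_comm {f : Y → F} (hf : f.HasTemperateGrowth) (e e' : Y) :
    pd e (pd e' f) = pd e' (pd e f) := by
  funext x
  show fderiv ℝ (pd e' f) x e = fderiv ℝ (pd e f) x e'
  rw [fderiv_pd hf, fderiv_pd hf]
  exact (hf.1.contDiffAt.isSymmSndFDerivAt (by simp; exact WithTop.coe_le_coe.2 le_top)).eq e e'

theorem act_add (b : Y → Y) {f g : Y → F} (hf : Differentiable ℝ f) (hg : Differentiable ℝ g) :
    act b (fun z => f z + g z) = fun z => act b f z + act b g z := by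
  funext z; simp only [act]; rw [fderiv_fun_add (hf z) (hg z)]; simp

theorem act_sub (b : Y → Y) {f g : Y → F} (hf : Differentiable ℝ f) (hg : Differentiable ℝ g) :
    act b (fun z => f z - g z) = fun z => act b f z - act b g z := by
  funext z; simp only [act]; rw [fderiv_fun_sub (hf z) (hg z)]; simp

theorem act_neg (b : Y → Y) (f : Y → F) : act b (fun z => -f z) = fun z => -act b f z := by
  funext z; simp only [act]; rw [fderiv_fun_neg]; simp

theorem act_const (b : Y → Y) (c : F) : act b (fun _ => c) = fun _ => 0 := by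
  funext z; simp [act]

theorem act_csmul (b : Y → Y) (c : ℝ) {f : Y → F} (hf : Differentiable ℝ f) :
    act b (fun z => c • f z) = fun z => c • act b f z := by
  funext z; simp only [act]; rw [fderiv_fun_const_smul (hf z)]; simp

theorem act_smul (b : Y → Y) {c : Y → ℝ} {f : Y → F} (hc : Differentiable ℝ c)
    (hf : Differentiable ℝ f) :
    act b (fun z => c z • f z) = fun z => c z • act b f z + act b c z • f z := by
  funext z; simp only [act]; rw [fderiv_fun_smul (hc z) (hf z)]; simp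

theorem act_mul (b : Y → Y) {f g : Y → ℝ} (hf : Differentiable ℝ f) (hg : Differentiable ℝ g) :
    act b (fun z => f z * g z) = fun z => f z * act b g z + act b f z * g z := by
  have := act_smul b hf hg
  simpa using this

theorem act_sum {ι : Type*} (b : Y → Y) (s : Finset ι) {f : ι → Y → F}
    (hf : ∀ i ∈ s, Differentiable ℝ (f i)) :
    act b (fun z => ∑ i ∈ s, f i z) = fun z => ∑ i ∈ s, act b (f i) z := by
  funext z; simp only [act]; rw [fderiv_fun_sum (fun i hi => hf i hi z)]; simp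

theorem pd_eq_act (e : Y) (f : Y → F) : pd e f = act (fun _ => e) f := rfl

theorem pd_add (e : Y) {f g : Y → F} (hf : Differentiable ℝ f) (hg : Differentiable ℝ g) :
    pd e (fun z => f z + g z) = fun z => pd e f z + pd e g z := act_add _ hf hg

theorem pd_sub (e : Y) {f g : Y → F} (hf : Differentiable ℝ f) (hg : Differentiable ℝ g) :
    pd e (fun z => f z - g z) = fun z => pd e f z - pd e g z := act_sub _ hf hg

theorem pd_mul (e : Y) {f g : Y → ℝ} (hf : Differentiable ℝ f) (hg : Differentiable ℝ g) :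
    pd e (fun z => f z * g z) = fun z => f z * pd e g z + pd e f z * g z := act_mul _ hf hg

theorem pd_const (e : Y) (c : F) : pd e (fun _ => c) = fun _ => 0 := act_const _ c

theorem pd_csmul (e : Y) (c : ℝ) {f : Y → F} (hf : Differentiable ℝ f) :
    pd e (fun z => c • f z) = fun z => c • pd e f z := act_csmul _ c hf

theorem pd_sum {ι : Type*} (e : Y) (s : Finset ι) {f : ι → Y → F}
    (hf : ∀ i ∈ s, Differentiable ℝ (f i)) :
    pd e (fun z => ∑ i ∈ s, f i z) = fun z => ∑ i ∈ s, pd e (f i) z := act_sum _ s hf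

theorem tg_sum {ι : Type*} (s : Finset ι) {f : ι → Y → F}
    (hf : ∀ i ∈ s, (f i).HasTemperateGrowth) : (fun z => ∑ i ∈ s, f i z).HasTemperateGrowth :=
  HasTemperateGrowth.sum hf

theorem tg_prodMk {G : Type} [NormedAddCommGroup G] [NormedSpace ℝ G] {f : Y → F} {g : Y → G}
    (hf : f.HasTemperateGrowth) (hg : g.HasTemperateGrowth) :
    (fun z => (f z, g z)).HasTemperateGrowth := by
  have h1 := (ContinuousLinearMap.inl ℝ F G).hasTemperateGrowth.comp hf
  have h2 := (ContinuousLinearMap.inr ℝ F G).hasTemperateGrowth.comp hg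
  convert h1.add h2 using 1
  funext z; simp

theorem tg_clm {G : Type} [NormedAddCommGroup G] [NormedSpace ℝ G] (L : F →L[ℝ] G) {f : Y → F}
    (hf : f.HasTemperateGrowth) : (fun z => L (f z)).HasTemperateGrowth :=
  L.hasTemperateGrowth.comp hf

theorem act_clm {G : Type} [NormedAddCommGroup G] [NormedSpace ℝ G] (L : F →L[ℝ] G) (b : Y → Y)
    {f : Y → F} (hf : Differentiable ℝ f) :
    act b (fun z => L (f z)) = fun z => L (act b f z) := by
  funext z; simp only [act]
  rw [show (fun z => L (f z)) = L ∘ f from rfl, fderiv_comp z L.differentiableAt (hf z)]; simp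

theorem PG.add {f g : Y → F} (hf : PG f) (hg : PG g) : PG (fun y => f y + g y) := by
  obtain ⟨C, n, h⟩ := hf; obtain ⟨C', n', h'⟩ := hg
  refine ⟨|C| + |C'|, n + n', fun y => ?_⟩
  have h1 : (1 : ℝ) ≤ 1 + ‖y‖ := by linarith [norm_nonneg y]
  have a1 : (1 + ‖y‖) ^ n ≤ (1 + ‖y‖) ^ (n + n') := pow_le_pow_right₀ h1 (by omega)
  have a2 : (1 + ‖y‖) ^ n' ≤ (1 + ‖y‖) ^ (n + n') := pow_le_pow_right₀ h1 (by omega)
  have p1 : 0 ≤ (1 + ‖y‖) ^ n := by positivity
  have p2 : 0 ≤ (1 + ‖y‖) ^ n' := by positivity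
  calc ‖f y + g y‖ ≤ ‖f y‖ + ‖g y‖ := norm_add_le _ _
    _ ≤ |C| * (1 + ‖y‖) ^ n + |C'| * (1 + ‖y‖) ^ n' := by
        have := h y; have := h' y
        nlinarith [le_abs_self C, le_abs_self C', mul_le_mul_of_nonneg_right (le_abs_self C) p1,
          mul_le_mul_of_nonneg_right (le_abs_self C') p2]
    _ ≤ _ := by nlinarith [abs_nonneg C, abs_nonneg C']

theorem PG.mul {f g : Y → ℝ} (hf : PG f) (hg : PG g) : PG (fun y => f y * g y) := by
  obtain ⟨C, n, h⟩ := hf; obtain ⟨C', n', h'⟩ := hg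
  refine ⟨C * C', n + n', fun y => ?_⟩
  rw [norm_mul, pow_add]
  calc ‖f y‖ * ‖g y‖ ≤ (C * (1 + ‖y‖) ^ n) * (C' * (1 + ‖y‖) ^ n') :=
        mul_le_mul (h y) (h' y) (norm_nonneg _) ((norm_nonneg _).trans (h y))
    _ = _ := by ring

theorem PG.const (c : F) : PG (fun _ : Y => c) := ⟨‖c‖, 0, fun y => by simp⟩

theorem PG.of_le {G : Type} [NormedAddCommGroup G] {f : Y → F} {g : Y → G} (hf : PG f) (c : ℝ)
    (h : ∀ y, ‖g y‖ ≤ c * ‖f y‖) : PG g := by
  obtain ⟨C, n, hC⟩ := hf
  refine ⟨|c| * C, n, fun y => (h y).trans ?_⟩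
  calc c * ‖f y‖ ≤ |c| * ‖f y‖ := mul_le_mul_of_nonneg_right (le_abs_self c) (norm_nonneg _)
    _ ≤ |c| * (C * (1 + ‖y‖) ^ n) := mul_le_mul_of_nonneg_left (hC y) (abs_nonneg c)
    _ = _ := by ring

theorem PG.id : PG (fun y : Y => y) := ⟨1, 1, fun y => by simp⟩

end Gen

section Pdm
variable {Y κ : Type} [NormedAddCommGroup Y] [NormedSpace ℝ Y] (dir : κ → Y)

theorem tg_foldr (L : List κ) {f : Y → ℝ} (hf : f.HasTemperateGrowth) :
    (L.foldr (fun k g => pd (dir k) g) f).HasTemperateGrowth := by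
  induction L with
  | nil => exact hf
  | cons k L ih => exact tg_pd _ ih

theorem foldr_perm {L L' : List κ} (h : L.Perm L') {f : Y → ℝ} (hf : f.HasTemperateGrowth) :
    L.foldr (fun k g => pd (dir k) g) f = L'.foldr (fun k g => pd (dir k) g) f := by
  induction h with
  | nil => rfl
  | cons k _ ih => simp only [List.foldr_cons, ih]
  | swap a b l => simp only [List.foldr_cons]; exact pd_comm (tg_foldr dir l hf) _ _
  | trans _ _ ih1 ih2 => exact ih1.trans ih2

theorem tg_pdm (μ : Multiset κ) {f : Y → ℝ} (hf : f.HasTemperateGrowth) :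
    (pdm dir μ f).HasTemperateGrowth := tg_foldr dir _ hf

@[simp] theorem pdm_zero (f : Y → ℝ) : pdm dir 0 f = f := by simp [pdm]

theorem pdm_cons (k : κ) (μ : Multiset κ) {f : Y → ℝ} (hf : f.HasTemperateGrowth) :
    pdm dir (k ::ₘ μ) f = pd (dir k) (pdm dir μ f) := by
  have : (k ::ₘ μ).toList.Perm (k :: μ.toList) := by
    rw [← Multiset.coe_eq_coe]; simp [← Multiset.cons_coe]
  unfold pdm
  rw [foldr_perm dir this hf]; rfl

theorem pdm_add_ms (μ ν : Multiset κ) {f : Y → ℝ} (hf : f.HasTemperateGrowth) :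
    pdm dir (μ + ν) f = pdm dir μ (pdm dir ν f) := by
  induction μ using Multiset.induction_on with
  | empty => simp
  | cons k μ ih => rw [Multiset.cons_add, pdm_cons dir _ _ hf, ih, pdm_cons dir _ _ (tg_pdm dir ν hf)]

theorem pdm_pd (μ : Multiset κ) (e : Y) {f : Y → ℝ} (hf : f.HasTemperateGrowth) :
    pdm dir μ (pd e f) = pd e (pdm dir μ f) := by
  induction μ using Multiset.induction_on with
  | empty => simp
  | cons k μ ih =>
    rw [pdm_cons dir _ _ hf, pdm_cons dir _ _ (tg_pd e hf), ih, pd_comm (tg_pdm dir μ hf)]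

theorem pdm_add (μ : Multiset κ) {f g : Y → ℝ} (hf : f.HasTemperateGrowth)
    (hg : g.HasTemperateGrowth) : pdm dir μ (f + g) = pdm dir μ f + pdm dir μ g := by
  induction μ using Multiset.induction_on with
  | empty => simp
  | cons k μ ih =>
    rw [pdm_cons dir _ _ hf, pdm_cons dir _ _ hg, pdm_cons dir _ _ (hf.add hg), ih]
    exact pd_add _ (tg_diff (tg_pdm dir μ hf)) (tg_diff (tg_pdm dir μ hg))

theorem pdm_sum {ι : Type*} (μ : Multiset κ) (s : Finset ι) {f : ι → Y → ℝ}
    (hf : ∀ i ∈ s, (f i).HasTemperateGrowth) :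
    pdm dir μ (fun z => ∑ i ∈ s, f i z) = fun z => ∑ i ∈ s, pdm dir μ (f i) z := by
  induction μ using Multiset.induction_on with
  | empty => simp
  | cons k μ ih =>
    rw [pdm_cons dir _ _ (tg_sum s hf), ih, pd_sum _ s (fun i hi => tg_diff (tg_pdm dir μ (hf i hi)))]
    funext z
    exact Finset.sum_congr rfl fun i hi => by rw [pdm_cons dir _ _ (hf i hi)]

/-- a factor killed by all directions comes out -/
theorem pdm_mul_left (μ : Multiset κ) {c f : Y → ℝ} (hc : c.HasTemperateGrowth)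
    (h0 : ∀ k z, pd (dir k) c z = 0) (hf : f.HasTemperateGrowth) :
    pdm dir μ (fun z => c z * f z) = fun z => c z * pdm dir μ f z := by
  induction μ using Multiset.induction_on with
  | empty => simp
  | cons k μ ih =>
    rw [pdm_cons dir _ _ (hc.fun_mul hf), ih, pd_mul _ (tg_diff hc) (tg_diff (tg_pdm dir μ hf)),
      pdm_cons dir _ _ hf]
    funext z; simp [h0]

theorem pdm_leibniz (s : Finset ℕ) (I : ℕ → κ) {f g : Y → ℝ} (hf : f.HasTemperateGrowth)
    (hg : g.HasTemperateGrowth) : pdm dir (s.val.map I) (f * g) =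
      ∑ A ∈ s.powerset, pdm dir (A.val.map I) f * pdm dir ((s \ A).val.map I) g := by
  induction s using Finset.induction_on with
  | empty => simp
  | insert t s ht ih =>
    rw [Finset.insert_val_of_notMem ht, Multiset.map_cons, pdm_cons dir _ _ (hf.mul hg), ih,
      Finset.sum_powerset_insert ht]
    have e1 : (∑ A ∈ s.powerset, pdm dir (A.val.map I) f * pdm dir ((s \ A).val.map I) g) =
        fun z => ∑ A ∈ s.powerset, pdm dir (A.val.map I) f z * pdm dir ((s \ A).val.map I) g z := by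
      funext z; simp [Finset.sum_apply]
    rw [e1, pd_sum _ _ (fun A _ => (tg_diff (tg_pdm dir _ hf)).fun_mul (tg_diff (tg_pdm dir _ hg)))]
    funext z
    simp only [Pi.add_apply, Finset.sum_apply, Pi.mul_apply, ← Finset.sum_add_distrib]
    refine Finset.sum_congr rfl fun A hA => ?_
    have hA' : A ⊆ s := Finset.mem_powerset.1 hA
    have htA : t ∉ A := fun h => ht (hA' h)
    have e2 : insert t s \ A = insert t (s \ A) := Finset.insert_sdiff_of_notMem _ htA
    have e3 : insert t s \ insert t A = s \ A := by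
      ext x; simp only [Finset.mem_sdiff, Finset.mem_insert]
      constructor
      · rintro ⟨h1 | h1, h2⟩
        · exact absurd (Or.inl h1) h2
        · exact ⟨h1, fun h => h2 (Or.inr h)⟩
      · rintro ⟨h1, h2⟩
        exact ⟨Or.inr h1, fun h => h.elim (fun h => ht (h ▸ h1)) h2⟩
    have htsA : t ∉ s \ A := fun h => ht (Finset.mem_sdiff.1 h).1
    rw [e2, e3, Finset.insert_val_of_notMem htsA, Finset.insert_val_of_notMem htA,
      Multiset.map_cons, Multiset.map_cons, pdm_cons dir _ _ hf, pdm_cons dir _ _ hg,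
      pd_mul _ (tg_diff (tg_pdm dir _ hf)) (tg_diff (tg_pdm dir _ hg))]

end Pdm

section Cls
variable {Y : Type} [NormedAddCommGroup Y] [NormedSpace ℝ Y]

theorem adjoin_closed (𝒮 : Set (Y → ℝ)) (h : ∀ f ∈ 𝒮, Differentiable ℝ f ∧ PG f ∧
      ∀ e, pd e f ∈ Algebra.adjoin ℝ 𝒮) :
    ∀ f ∈ Algebra.adjoin ℝ 𝒮, Differentiable ℝ f ∧ PG f ∧ ∀ e, pd e f ∈ Algebra.adjoin ℝ 𝒮 := by
  intro f hf
  induction hf using Algebra.adjoin_induction with
  | mem f hf => exact h f hf
  | algebraMap c =>
    refine ⟨differentiable_const c, PG.const c, fun e => ?_⟩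
    have : pd e (algebraMap ℝ (Y → ℝ) c) = 0 := pd_const e c
    rw [this]; exact zero_mem _
  | add f g _ _ hf hg =>
    refine ⟨hf.1.add hg.1, hf.2.1.add hg.2.1, fun e => ?_⟩
    have : pd e (f + g) = pd e f + pd e g := pd_add e hf.1 hg.1
    rw [this]; exact add_mem (hf.2.2 e) (hg.2.2 e)
  | mul f g hf' hg' hf hg =>
    refine ⟨hf.1.mul hg.1, hf.2.1.mul hg.2.1, fun e => ?_⟩
    have : pd e (f * g) = f * pd e g + pd e f * g := pd_mul e hf.1 hg.1
    rw [this]; exact add_mem (mul_mem hf' (hg.2.2 e)) (mul_mem (hf.2.2 e) hg')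

theorem tg_of_class [FiniteDimensional ℝ Y] (𝒮 : Set (Y → ℝ))
    (h : ∀ f ∈ 𝒮, Differentiable ℝ f ∧ PG f ∧ ∀ e, pd e f ∈ Algebra.adjoin ℝ 𝒮) :
    ∀ f ∈ Algebra.adjoin ℝ 𝒮, f.HasTemperateGrowth := by
  have H := adjoin_closed 𝒮 h
  set b := Module.finBasis ℝ Y
  let c : Fin (Module.finrank ℝ Y) → Y →L[ℝ] ℝ := fun i => LinearMap.toContinuousLinearMap (b.coord i)
  have hd : ∀ f : Y → ℝ, fderiv ℝ f =
      fun x => ∑ i, (ContinuousLinearMap.toSpanSingleton ℝ (c i)) (pd (b i) f x) := by
    intro f; funext x; ext e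
    conv_lhs => rw [← b.sum_repr e, map_sum]
    simp [pd, c, mul_comm]
  have key : ∀ n : ℕ, ∀ f ∈ Algebra.adjoin ℝ 𝒮, ContDiff ℝ n f ∧
      ∃ (k : ℕ) (C : ℝ), ∀ x, ‖iteratedFDeriv ℝ n f x‖ ≤ C * (1 + ‖x‖) ^ k := by
    intro n
    induction n with
    | zero =>
      intro f hf
      obtain ⟨C, k, hC⟩ := (H f hf).2.1
      exact ⟨by simpa using (H f hf).1.continuous, k, C, fun x => by simpa using hC x⟩
    | succ n ih =>
      intro f hf
      have hi := fun i => ih _ ((H f hf).2.2 (b i))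
      have hc : ∀ i, ContDiff ℝ n
          (fun x => (ContinuousLinearMap.toSpanSingleton ℝ (c i)) (pd (b i) f x)) :=
        fun i => (ContinuousLinearMap.toSpanSingleton ℝ (c i)).contDiff.comp (hi i).1
      refine ⟨?_, ?_⟩
      · push_cast
        refine contDiff_succ_iff_fderiv.2 ⟨(H f hf).1, by simp, ?_⟩
        rw [hd]; exact ContDiff.sum fun i _ => hc i
      · have : PG (fun x => iteratedFDeriv ℝ n (fderiv ℝ f) x) := by
          rw [hd]
          have e : (fun x => iteratedFDeriv ℝ n (fun x => ∑ i,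
              (ContinuousLinearMap.toSpanSingleton ℝ (c i)) (pd (b i) f x)) x) =
              fun x => ∑ i, iteratedFDeriv ℝ n
                (fun x => (ContinuousLinearMap.toSpanSingleton ℝ (c i)) (pd (b i) f x)) x := by
            funext x
            rw [iteratedFDeriv_fun_sum_apply (fun i _ => (hc i).contDiffAt)]
          rw [e]
          refine Finset.induction_on (motive := fun s : Finset (Fin (Module.finrank ℝ Y)) =>
            PG (fun x => ∑ i ∈ s, iteratedFDeriv ℝ n
              (fun x => (ContinuousLinearMap.toSpanSingleton ℝ (c i)) (pd (b i) f x)) x))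
            Finset.univ ?_ ?_
          · simpa using PG.const (Y := Y) (0 : Y [×n]→L[ℝ] (Y →L[ℝ] ℝ))
          · intro i s his ihs
            simp only [Finset.sum_insert his]
            refine PG.add ?_ ihs
            obtain ⟨k, C, hC⟩ := (hi i).2
            refine PG.of_le (f := fun x => iteratedFDeriv ℝ n (pd (b i) f) x) ⟨C, k, hC⟩
              ‖ContinuousLinearMap.toSpanSingleton ℝ (c i)‖ fun y => ?_
            exact (ContinuousLinearMap.toSpanSingleton ℝ (c i)).norm_iteratedFDeriv_comp_left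
              (hi i).1.contDiffAt le_rfl
        obtain ⟨C, k, hC⟩ := this
        exact ⟨k, C, fun x => by rw [← norm_iteratedFDeriv_fderiv]; exact hC x⟩
  intro f hf
  exact ⟨contDiff_infty.2 fun n => (key n f hf).1, fun n => (key n f hf).2⟩

end Cls

theorem pdAPI : PdAPI := by
  intro Y _ _ _
  refine ⟨fun F _ _ f hf => ⟨tg_fderiv hf, tg_pg hf, fun e => tg_pd e hf, fun b hb => tg_act hb hf,
    fun e e' => pd_comm hf e e'⟩, fun κ dir f hf => ⟨fun μ => tg_pdm dir μ hf, pdm_zero dir f,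
    fun k μ => pdm_cons dir k μ hf, fun μ ν => pdm_add_ms dir μ ν hf, fun μ e => pdm_pd dir μ e hf,
    fun g hg => ⟨fun μ => pdm_add dir μ hf hg, fun s I => pdm_leibniz dir s I hf hg⟩⟩,
    fun 𝒮 h => tg_of_class 𝒮 h⟩

end Crest.Agent.LCS
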