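import Crest.Agent.LCS.Defs

/-! API for slot sums `so`. -/

set_option autoImplicit false
set_option linter.unusedSectionVars false
open Function

namespace Crest.Agent.LCS

variable {d : ℕ} {M : Type} [AddCommMonoid M]

/-- `F` depends only on the slots in `s` -/
def Dep {N : Type} (s : Finset ℕ) (F : (ℕ → Fin d) → N) : Prop :=
  ∀ I I', (∀ i ∈ s, I i = I' i) → F I = F I'

theorem Dep.mono {N : Type} {s t : Finset ℕ} {F : (ℕ → Fin d) → N} (h : Dep s F) (hst : s ⊆ t) :
    Dep t F := fun I I' hI => h I I' fun i hi => hI i (hst hi)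

theorem upF_of_mem {s : Finset ℕ} (I : ℕ → Fin d) (y : ∀ _ : s, Fin d) {i : ℕ} (hi : i ∈ s) :
    updateFinset I s y i = y ⟨i, hi⟩ := by simp [updateFinset, hi]

theorem upF_of_notMem {s : Finset ℕ} (I : ℕ → Fin d) (y : ∀ _ : s, Fin d) {i : ℕ} (hi : i ∉ s) :
    updateFinset I s y i = I i := by simp [updateFinset, hi]

theorem Dep.upF {N : Type} {s t : Finset ℕ} {F : (ℕ → Fin d) → N} (h : Dep s F)
    (hst : Disjoint s t) (I : ℕ → Fin d) (y : ∀ _ : t, Fin d) : F (updateFinset I t y) = F I :=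
  h _ _ fun _ hi => upF_of_notMem I y (Finset.disjoint_left.1 hst hi)

theorem Dep.update {N : Type} {s : Finset ℕ} {F : (ℕ → Fin d) → N} (h : Dep s F) {t : ℕ}
    (ht : t ∉ s) (I : ℕ → Fin d) (k : Fin d) : F (update I t k) = F I :=
  h _ _ fun i hi => update_of_ne (fun e : i = t => ht (e ▸ hi)) _ _

theorem dep_map (s : Finset ℕ) : Dep s (fun I : ℕ → Fin d => s.val.map I) :=
  fun _ _ h => Multiset.map_congr rfl fun i hi => h i hi

theorem map_insert {s : Finset ℕ} {t : ℕ} (ht : t ∉ s) (I : ℕ → Fin d) :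
    (insert t s).val.map I = I t ::ₘ s.val.map I := by
  rw [Finset.insert_val_of_notMem ht, Multiset.map_cons]

theorem map_insert_update {s : Finset ℕ} {t : ℕ} (ht : t ∉ s) (I : ℕ → Fin d) (k : Fin d) :
    (insert t s).val.map (update I t k) = k ::ₘ s.val.map I := by
  rw [map_insert ht, update_self, (dep_map s).update ht]

theorem map_union {s t : Finset ℕ} (h : Disjoint s t) (I : ℕ → Fin d) :
    (s ∪ t).val.map I = s.val.map I + t.val.map I := by
  rw [← Finset.disjUnion_eq_union s t h, Finset.disjUnion_val, Multiset.map_add]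

@[simp] theorem so_empty (F : (ℕ → Fin d) → M) (I : ℕ → Fin d) : so ∅ F I = F I := by
  simp [so]

theorem so_union {s t : Finset ℕ} (h : Disjoint s t) (F : (ℕ → Fin d) → M) (I : ℕ → Fin d) :
    so (s ∪ t) F I = so s (so t F) I := by
  unfold so
  rw [← Finset.sum_product', Finset.univ_product_univ]
  symm
  refine Fintype.sum_equiv (Equiv.piFinsetUnion (fun _ => Fin d) h) _ _ fun y => ?_
  rw [updateFinset_updateFinset h]

theorem so_comm {s t : Finset ℕ} (h : Disjoint s t) (F : (ℕ → Fin d) → M) (I : ℕ → Fin d) :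
    so s (so t F) I = so t (so s F) I := by
  rw [← so_union h, ← so_union h.symm, Finset.union_comm]

theorem so_singleton (t : ℕ) (F : (ℕ → Fin d) → M) (I : ℕ → Fin d) :
    so {t} F I = ∑ k, F (update I t k) := by
  unfold so
  refine Fintype.sum_equiv (Equiv.funUnique ({t} : Finset ℕ) (Fin d)) _ _ fun y => ?_
  rw [updateFinset_singleton]; rfl

theorem so_insert {s : Finset ℕ} {t : ℕ} (ht : t ∉ s) (F : (ℕ → Fin d) → M) (I : ℕ → Fin d) :
    so (insert t s) F I = ∑ k, so s F (update I t k) := by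
  rw [Finset.insert_eq, so_union (Finset.disjoint_singleton_left.2 ht), so_singleton]

theorem so_insert' {s : Finset ℕ} {t : ℕ} (ht : t ∉ s) (F : (ℕ → Fin d) → M) (I : ℕ → Fin d) :
    so (insert t s) F I = so s (fun I' => ∑ k, F (update I' t k)) I := by
  rw [Finset.insert_eq, Finset.union_comm, so_union (Finset.disjoint_singleton_right.2 ht)]
  congr 1; funext I'; exact so_singleton t F I'

theorem so_congr {s : Finset ℕ} {F G : (ℕ → Fin d) → M} {I : ℕ → Fin d}
    (h : ∀ y, F (updateFinset I s y) = G (updateFinset I s y)) : so s F I = so s G I :=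
  Finset.sum_congr rfl fun y _ => h y

theorem so_add (s : Finset ℕ) (F G : (ℕ → Fin d) → M) (I : ℕ → Fin d) :
    so s (fun I' => F I' + G I') I = so s F I + so s G I := Finset.sum_add_distrib

@[simp] theorem so_zero (s : Finset ℕ) (I : ℕ → Fin d) : so s (fun _ => (0 : M)) I = 0 := by
  simp [so]

theorem so_sum {ι : Type*} (s : Finset ℕ) (A : Finset ι) (F : ι → (ℕ → Fin d) → M) (I : ℕ → Fin d) :
    so s (fun I' => ∑ i ∈ A, F i I') I = ∑ i ∈ A, so s (F i) I := Finset.sum_comm

theorem so_apply {Y : Type} (s : Finset ℕ) (F : (ℕ → Fin d) → Y → M) (I : ℕ → Fin d) (z : Y) :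
    so s F I z = so s (fun I' => F I' z) I := by
  simp [so, Finset.sum_apply]

theorem so_map {N : Type} [AddCommMonoid N] (f : M →+ N) (s : Finset ℕ) (F : (ℕ → Fin d) → M)
    (I : ℕ → Fin d) : f (so s F I) = so s (fun I' => f (F I')) I := map_sum f _ _

theorem so_const_mul (s : Finset ℕ) (c : ℝ) (F : (ℕ → Fin d) → ℝ) (I : ℕ → Fin d) :
    so s (fun I' => c * F I') I = c * so s F I := (Finset.mul_sum _ _ _).symm

theorem so_mul_const (s : Finset ℕ) (c : ℝ) (F : (ℕ → Fin d) → ℝ) (I : ℕ → Fin d) :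
    so s (fun I' => F I' * c) I = so s F I * c := (Finset.sum_mul _ _ _).symm

theorem so_mul_left {s : Finset ℕ} {c : (ℕ → Fin d) → ℝ} {I : ℕ → Fin d}
    (hc : ∀ y, c (updateFinset I s y) = c I) (F : (ℕ → Fin d) → ℝ) :
    so s (fun I' => c I' * F I') I = c I * so s F I := by
  rw [← so_const_mul]; exact so_congr fun y => by rw [hc]

theorem so_mul_right {s : Finset ℕ} {c : (ℕ → Fin d) → ℝ} {I : ℕ → Fin d}
    (hc : ∀ y, c (updateFinset I s y) = c I) (F : (ℕ → Fin d) → ℝ) :
    so s (fun I' => F I' * c I') I = so s F I * c I := by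
  rw [← so_mul_const]; exact so_congr fun y => by rw [hc]

theorem so_sub (s : Finset ℕ) (F G : (ℕ → Fin d) → ℝ) (I : ℕ → Fin d) :
    so s (fun I' => F I' - G I') I = so s F I - so s G I := Finset.sum_sub_distrib _ _

theorem so_mono {s : Finset ℕ} {F G : (ℕ → Fin d) → ℝ} {I : ℕ → Fin d}
    (h : ∀ y, F (updateFinset I s y) ≤ G (updateFinset I s y)) : so s F I ≤ so s G I :=
  Finset.sum_le_sum fun y _ => h y

theorem so_nonneg {s : Finset ℕ} {F : (ℕ → Fin d) → ℝ} (h : ∀ I, 0 ≤ F I) (I : ℕ → Fin d) :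
    0 ≤ so s F I := Finset.sum_nonneg fun _ _ => h _

theorem so_cs (s : Finset ℕ) (F G : (ℕ → Fin d) → ℝ) (I : ℕ → Fin d) :
    so s (fun I' => F I' * G I') I ^ 2 ≤ so s (fun I' => F I' ^ 2) I * so s (fun I' => G I' ^ 2) I :=
  Finset.sum_mul_sq_le_sq_mul_sq _ _ _

/-- `so s F` depends on `t` if `F` depends on `s ∪ t` -/
theorem Dep.so {s t : Finset ℕ} {F : (ℕ → Fin d) → M} (h : Dep (s ∪ t) F) : Dep t (so s F) := by
  intro I I' hI
  refine Finset.sum_congr rfl fun y _ => h _ _ fun i hi => ?_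
  by_cases his : i ∈ s
  · rw [upF_of_mem _ _ his, upF_of_mem _ _ his]
  · rw [upF_of_notMem _ _ his, upF_of_notMem _ _ his]
    exact hI i ((Finset.mem_union.1 hi).resolve_left his)

theorem so_upF (s : Finset ℕ) (F : (ℕ → Fin d) → M) (I : ℕ → Fin d) (y : ∀ _ : s, Fin d) :
    so s F (updateFinset I s y) = so s F I := by
  refine Finset.sum_congr rfl fun z _ => ?_
  congr 1; funext i
  by_cases his : i ∈ s
  · rw [upF_of_mem _ _ his, upF_of_mem _ _ his]
  · rw [upF_of_notMem _ _ his, upF_of_notMem _ _ his, upF_of_notMem _ _ his]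

theorem upF_update_comm {s : Finset ℕ} {t : ℕ} (ht : t ∉ s) (I : ℕ → Fin d) (k : Fin d)
    (y : ∀ _ : s, Fin d) : updateFinset (update I t k) s y = update (updateFinset I s y) t k := by
  funext i
  by_cases hi : i = t
  · subst hi; rw [upF_of_notMem _ _ ht, update_self, update_self]
  · rw [update_of_ne hi]
    by_cases his : i ∈ s
    · rw [upF_of_mem _ _ his, upF_of_mem _ _ his]
    · rw [upF_of_notMem _ _ his, upF_of_notMem _ _ his, update_of_ne hi]

theorem so_update {s : Finset ℕ} {t : ℕ} (ht : t ∉ s) (F : (ℕ → Fin d) → M) (I : ℕ → Fin d)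
    (k : Fin d) : so s F (update I t k) = so s (fun I' => F (update I' t k)) I :=
  Finset.sum_congr rfl fun y _ => by rw [upF_update_comm ht]

/-- renaming of slots -/
theorem so_rename (π : Equiv.Perm ℕ) (s : Finset ℕ) (F : (ℕ → Fin d) → M) (I : ℕ → Fin d) :
    so (s.map π.toEmbedding) (fun I' => F (I' ∘ π)) I = so s F (I ∘ π) := by
  induction s using Finset.induction_on generalizing I with
  | empty => simp
  | insert t s ht ih =>
    have ht' : π t ∉ s.map π.toEmbedding := by simpa using ht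
    rw [Finset.map_insert, show π.toEmbedding t = π t from rfl, so_insert ht', so_insert ht]
    refine Finset.sum_congr rfl fun k _ => ?_
    rw [ih]; congr 1
    funext i
    by_cases hi : i = t
    · subst hi; simp
    · simp [update_of_ne hi, update_of_ne (π.injective.ne hi)]

theorem map_rename (π : Equiv.Perm ℕ) (s : Finset ℕ) (I : ℕ → Fin d) :
    (s.map π.toEmbedding).val.map I = s.val.map (I ∘ π) := by
  simp [Finset.map_val, Multiset.map_map]

theorem so_const (s : Finset ℕ) (c : ℝ) (I : ℕ → Fin d) :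
    so s (fun _ => c) I = (d : ℝ) ^ s.card * c := by
  simp [so, Finset.sum_const]

end Crest.Agent.LCS
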