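import Mathlib
import Crest.Agent.LCS.So

/-! Subset-convolution algebra and operator bounds for slot kernels (job B2, algebraic part). -/

set_option autoImplicit false
open Finset Function

namespace Crest.Agent.LCS

/-- functions on finite slot sets, with subset convolution -/
def SA : Type := Finset ℕ → ℝ

namespace SA

instance : AddCommGroup SA := Pi.addCommGroup
instance : Mul SA := ⟨fun f g A => ∑ B ∈ A.powerset, f B * g (A \ B)⟩
instance : One SA := ⟨fun A => if A = ∅ then 1 else 0⟩

theorem mul_apply (f g : SA) (A : Finset ℕ) : (f * g) A = ∑ B ∈ A.powerset, f B * g (A \ B) := rfl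
theorem one_apply (A : Finset ℕ) : (1 : SA) A = if A = ∅ then 1 else 0 := rfl
theorem add_apply (f g : SA) (A : Finset ℕ) : (f + g) A = f A + g A := rfl
theorem sub_apply (f g : SA) (A : Finset ℕ) : (f - g) A = f A - g A := rfl
theorem zero_apply (A : Finset ℕ) : (0 : SA) A = 0 := rfl

theorem mul_empty (f g : SA) : (f * g) ∅ = f ∅ * g ∅ := by simp [mul_apply]

theorem mul_congr {f f' g g' : SA} {A : Finset ℕ} (hf : ∀ B ⊆ A, f B = f' B)
    (hg : ∀ B ⊆ A, g B = g' B) : (f * g) A = (f' * g') A :=
  Finset.sum_congr rfl fun B hB => by rw [hf B (mem_powerset.1 hB), hg _ sdiff_subset]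

/-- shift -/
def sft (s : ℕ) (f : SA) : SA := fun B => f (insert s B)

theorem mul_insert (f g : SA) {s : ℕ} {A : Finset ℕ} (hs : s ∉ A) :
    (f * g) (insert s A) = (f * sft s g) A + (sft s f * g) A := by
  rw [mul_apply, sum_powerset_insert hs, mul_apply, mul_apply]
  congr 1 <;> refine Finset.sum_congr rfl fun B hB => ?_
  · rw [insert_sdiff_of_notMem _ (fun h => hs (mem_powerset.1 hB h))]; rfl
  · rw [insert_sdiff_insert, sdiff_insert_of_notMem hs]; rfl

theorem mul_comm' (f g : SA) : f * g = g * f := by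
  funext A
  induction A using Finset.induction_on generalizing f g with
  | empty => rw [mul_empty, mul_empty, mul_comm]
  | insert s A hs ih => rw [mul_insert _ _ hs, mul_insert _ _ hs, ih f, ih (sft s f), add_comm]

theorem left_distrib' (f g h : SA) : f * (g + h) = f * g + f * h := by
  funext A; simp only [mul_apply, add_apply, mul_add, sum_add_distrib]

theorem mul_assoc' (f g h : SA) : f * g * h = f * (g * h) := by
  funext A
  induction A using Finset.induction_on generalizing f g h with
  | empty => simp only [mul_empty, mul_assoc]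
  | insert s A hs ih =>
    rw [mul_insert _ _ hs, mul_insert _ _ hs]
    have e1 : (sft s (f * g) * h) A = ((f * sft s g + sft s f * g) * h) A :=
      mul_congr (fun B hB => mul_insert _ _ fun h => hs (hB h)) fun _ _ => rfl
    have e2 : (f * sft s (g * h)) A = (f * (g * sft s h + sft s g * h)) A :=
      mul_congr (fun _ _ => rfl) fun B hB => mul_insert _ _ fun h => hs (hB h)
    rw [e1, e2, mul_comm' (_ + _), left_distrib', left_distrib', add_apply, add_apply,
      mul_comm' h, mul_comm' h, ih, ih, ih, add_assoc]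

theorem one_mul' (f : SA) : 1 * f = f := by
  funext A; simp [mul_apply, one_apply]

instance : CommRing SA where
  left_distrib := left_distrib'
  right_distrib f g h := by rw [mul_comm', left_distrib', mul_comm' h, mul_comm' h]
  zero_mul f := by funext A; simp [mul_apply, zero_apply]
  mul_zero f := by funext A; simp [mul_apply, zero_apply]
  mul_assoc := mul_assoc'
  one_mul := one_mul'
  mul_one f := by rw [mul_comm', one_mul']
  mul_comm := mul_comm'

/-- scalar multiple -/
def sm (c : ℝ) (f : SA) : SA := fun A => c * f A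

theorem sm_mul (c : ℝ) (f g : SA) : sm c f * g = sm c (f * g) := by
  funext A; simp only [mul_apply, sm, mul_sum, mul_assoc]

/-- restriction to the slots satisfying `p` -/
def res (p : ℕ → Prop) [DecidablePred p] (f : SA) : SA := fun D => if ∀ s ∈ D, p s then f D else 0

theorem res_mul (p : ℕ → Prop) [DecidablePred p] (f g : SA) : res p (f * g) = res p f * res p g := by
  funext D
  by_cases h : ∀ s ∈ D, p s
  · rw [res, if_pos h]
    exact mul_congr (fun B hB => (if_pos fun s hs => h s (hB hs)).symm)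
      fun B hB => (if_pos fun s hs => h s (hB hs)).symm
  · rw [res, if_neg h, mul_apply]
    refine (Finset.sum_eq_zero fun B _ => ?_).symm
    by_cases h1 : ∀ s ∈ B, p s
    · have : ¬ ∀ s ∈ D \ B, p s := fun h2 => h fun s hs => by
        by_cases hb : s ∈ B
        exacts [h1 s hb, h2 s (mem_sdiff.2 ⟨hs, hb⟩)]
      rw [res, res, if_neg this, mul_zero]
    · rw [res, if_neg h1, zero_mul]

theorem res_sub (p : ℕ → Prop) [DecidablePred p] (f g : SA) : res p (f - g) = res p f - res p g := by
  funext D; simp only [res, sub_apply]; split_ifs <;> simp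

theorem res_sm (p : ℕ → Prop) [DecidablePred p] (c : ℝ) (f : SA) : res p (sm c f) = sm c (res p f) := by
  funext D; simp only [res, sm]; split_ifs <;> simp

theorem res_mul_res (p : ℕ → Prop) [DecidablePred p] (f g : SA) (D : Finset ℕ) :
    (res p f * res (fun s => ¬ p s) g) D = f (D.filter p) * g (D.filter fun s => ¬ p s) := by
  rw [mul_apply, Finset.sum_eq_single (D.filter p)]
  · have : D \ D.filter p = D.filter fun s => ¬ p s := by
      ext s; simp only [mem_sdiff, mem_filter]; tauto
    rw [this, res, res, if_pos fun s hs => (mem_filter.1 hs).2, if_pos fun s hs => (mem_filter.1 hs).2]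
  · intro B hB hne
    by_cases h1 : ∀ s ∈ B, p s
    · have : ¬ ∀ s ∈ D \ B, ¬ p s := fun h2 => hne (by
        ext s; rw [mem_filter]
        refine ⟨fun hs => ⟨mem_powerset.1 hB hs, h1 s hs⟩, fun hs => ?_⟩
        by_contra hb
        exact h2 s (mem_sdiff.2 ⟨hs.1, hb⟩) hs.2)
      rw [res, res, if_neg this, mul_zero]
    · rw [res, if_neg h1, zero_mul]
  · intro h; exact absurd (mem_powerset.2 (filter_subset _ _)) h

/-- degree-one elements -/
def lin (w : ℕ → ℝ) : SA := fun B => if B.card = 1 then ∑ s ∈ B, w s else 0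

theorem lin_mul (w : ℕ → ℝ) (f : SA) (A : Finset ℕ) :
    (lin w * f) A = ∑ s ∈ A, w s * f (A.erase s) := by
  simp only [mul_apply, lin, ite_mul, zero_mul]
  rw [← sum_filter, ← powersetCard_eq_filter, powersetCard_one, sum_map]
  refine Finset.sum_congr rfl fun s _ => ?_
  simp [sdiff_singleton_eq_erase]

/-- inverse of an element with constant term one -/
noncomputable def inv (f : SA) (A : Finset ℕ) : ℝ :=
  if A = ∅ then 1 else -∑ B ∈ (A.powerset.erase A).attach, f (A \ B.1) * inv f B.1
termination_by A.card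
decreasing_by
  have := B.2
  rw [mem_erase, mem_powerset] at this
  exact card_lt_card (lt_of_le_of_ne this.2 this.1)

theorem inv_eq (f : SA) (A : Finset ℕ) :
    inv f A = if A = ∅ then 1 else -∑ B ∈ A.powerset.erase A, f (A \ B) * inv f B := by
  rw [inv, Finset.sum_attach (A.powerset.erase A) fun B => f (A \ B) * inv f B]

theorem inv_mul (f : SA) (h : f ∅ = 1) : (show SA from inv f) * f = 1 := by
  funext A
  rw [mul_apply, one_apply, ← Finset.add_sum_erase _ _ (mem_powerset_self A), sdiff_self,
    bot_eq_empty, h, mul_one, inv_eq]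
  split_ifs with hA
  · subst hA; simp
  · simp [mul_comm]

theorem inv_congr {f g : SA} (A : Finset ℕ) (h : ∀ B ⊆ A, f B = g B) : inv f A = inv g A := by
  induction A using Finset.strongInduction with
  | H A ih =>
    rw [inv_eq, inv_eq]
    congr 2
    refine Finset.sum_congr rfl fun B hB => ?_
    rw [mem_erase, mem_powerset] at hB
    rw [h _ sdiff_subset, ih B (lt_of_le_of_ne hB.2 hB.1) fun C hC => h C (hC.trans hB.2)]

end SA

section OB
variable {d : ℕ}

/-- operator bound for the kernel `K` from the slots `α` to the slots `β` -/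
def OB (α β : Finset ℕ) (K : (ℕ → Fin d) → ℝ) (C : ℝ) : Prop :=
  ∀ a : (ℕ → Fin d) → ℝ, (∀ I y, a (updateFinset I β y) = a I) →
    ∀ I, so β (fun I' => so α (fun I'' => K I'' * a I'') I' ^ 2) I ≤ C * so α (fun I' => a I' ^ 2) I

theorem OB.zero (α β : Finset ℕ) : OB (d := d) α β (fun _ => 0) 0 := by
  intro a _ I; simp

theorem OB.add {α β : Finset ℕ} {K L : (ℕ → Fin d) → ℝ} {C C' : ℝ} (h : OB α β K C)
    (h' : OB α β L C') : OB α β (fun I => K I + L I) (2 * C + 2 * C') := by
  intro a ha I
  have h1 := h a ha I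
  have h2 := h' a ha I
  calc _ ≤ so β (fun I' => 2 * so α (fun I'' => K I'' * a I'') I' ^ 2 +
        2 * so α (fun I'' => L I'' * a I'') I' ^ 2) I := by
        refine so_mono fun y => ?_
        simp only [add_mul, so_add]
        nlinarith [sq_nonneg (so α (fun I'' => K I'' * a I'') (updateFinset I β y) -
          so α (fun I'' => L I'' * a I'') (updateFinset I β y))]
    _ ≤ _ := by rw [so_add, so_const_mul, so_const_mul]; linarith

theorem OB.neg {α β : Finset ℕ} {K : (ℕ → Fin d) → ℝ} {C : ℝ} (h : OB α β K C) :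
    OB α β (fun I => -K I) C := by
  intro a ha I
  have := h (fun I => -a I) (fun I y => by rw [ha]) I
  simpa using this

theorem upF_union_left {s t : Finset ℕ} {N : Type} {a : (ℕ → Fin d) → N}
    (ha : ∀ I y, a (updateFinset I (s ∪ t) y) = a I) (I : ℕ → Fin d) (y : ∀ _ : s, Fin d) :
    a (updateFinset I s y) = a I := by
  rw [← ha I fun i => updateFinset I s y i]
  congr 1; funext i
  by_cases h : i ∈ s ∪ t
  · rw [upF_of_mem _ _ h]
  · rw [upF_of_notMem _ _ h, upF_of_notMem _ _ fun h' => h (mem_union_left _ h')]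

theorem upF_comm {s t : Finset ℕ} (h : Disjoint s t) (I : ℕ → Fin d) (y : ∀ _ : s, Fin d)
    (z : ∀ _ : t, Fin d) :
    updateFinset (updateFinset I s y) t z = updateFinset (updateFinset I t z) s y := by
  funext i
  by_cases hs : i ∈ s
  · rw [upF_of_notMem _ _ (disjoint_left.1 h hs), upF_of_mem _ _ hs, upF_of_mem _ _ hs]
  · rw [upF_of_notMem _ _ hs]
    by_cases ht : i ∈ t
    · rw [upF_of_mem _ _ ht, upF_of_mem _ _ ht]
    · rw [upF_of_notMem _ _ ht, upF_of_notMem _ _ ht, upF_of_notMem _ _ hs]

theorem so_upF_inv {s t : Finset ℕ} (h : Disjoint s t) {F : (ℕ → Fin d) → ℝ}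
    (hF : ∀ I y, F (updateFinset I t y) = F I) (I : ℕ → Fin d) (y : ∀ _ : t, Fin d) :
    so s F (updateFinset I t y) = so s F I :=
  Finset.sum_congr rfl fun z _ => by rw [upF_comm h.symm, hF]

theorem OB.mul {α₁ β₁ α₂ β₂ : Finset ℕ} {K L : (ℕ → Fin d) → ℝ} {C C' : ℝ} (hC : 0 ≤ C)
    (h : OB α₁ β₁ K C) (h' : OB α₂ β₂ L C') (hK : Dep (α₁ ∪ β₁) K) (hL : Dep (α₂ ∪ β₂) L)
    (hd : Disjoint (α₁ ∪ β₁) (α₂ ∪ β₂)) :
    OB (α₁ ∪ α₂) (β₁ ∪ β₂) (fun I => K I * L I) (C * C') := by
  intro a ha I
  rw [disjoint_union_left, disjoint_union_right, disjoint_union_right] at hd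
  obtain ⟨⟨h1, h2⟩, h3, h4⟩ := hd
  have hK2 : Disjoint (α₁ ∪ β₁) α₂ := disjoint_union_left.2 ⟨h1, h3⟩
  have hL1 : Disjoint (α₂ ∪ β₂) β₁ := disjoint_union_left.2 ⟨h3.symm, h4.symm⟩
  let a' := so α₂ fun I'' => L I'' * a I''
  have e1 : ∀ I', so (α₁ ∪ α₂) (fun I'' => K I'' * L I'' * a I'') I' =
      so α₁ (fun I'' => K I'' * a' I'') I' := by
    intro I'
    rw [so_union h1]
    refine so_congr fun y => ?_
    simp only [mul_assoc]
    exact so_mul_left (fun z => hK.upF hK2 _ z) _
  have ha' : ∀ I y, a' (updateFinset I β₁ y) = a' I := fun I y =>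
    so_upF_inv h3.symm (fun I y => by rw [hL.upF hL1, upF_union_left ha]) I y
  have ha2 : ∀ I y, a (updateFinset I β₂ y) = a I :=
    upF_union_left (t := β₁) (by rw [union_comm]; exact ha)
  simp only [e1]
  rw [union_comm β₁, so_union h4.symm, so_union h1]
  calc _ ≤ so β₂ (fun I' => C * so α₁ (fun I'' => a' I'' ^ 2) I') I := so_mono fun y => h a' ha' _
    _ = C * so α₁ (so β₂ fun I'' => a' I'' ^ 2) I := by rw [so_const_mul, so_comm h2]
    _ ≤ C * so α₁ (fun I' => C' * so α₂ (fun I'' => a I'' ^ 2) I') I :=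
        mul_le_mul_of_nonneg_left (so_mono fun y => h' a ha2 _) hC
    _ = _ := by rw [so_const_mul, mul_assoc]

end OB
end Crest.Agent.LCS
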