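import Mathlib
import Crest.Agent.LCS.SA
import Crest.Agent.LCS.Pd

/-! Job B2, part 1: `C¹` functions of polynomial growth, `SA`-valued functions, moments. -/

set_option autoImplicit false
open Finset Function MeasureTheory

namespace Crest.Agent.LCS
namespace AFx
variable {d : ℕ}

theorem pg_smul {F : Type} [NormedAddCommGroup F] [NormedSpace ℝ F] {c : E d → ℝ} {f : E d → F}
    (hc : PG c) (hf : PG f) : PG (fun y => c y • f y) :=
  (hc.mul (hf.of_le (g := fun y => ‖f y‖) 1 fun y => by simp)).of_le 1 fun y => by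
    simp [norm_smul]

def Cl (f : E d → ℝ) : Prop := ContDiff ℝ 1 f ∧ PG f ∧ PG (fderiv ℝ f)

theorem Cl.diff {f : E d → ℝ} (h : Cl f) : Differentiable ℝ f := h.1.differentiable (by simp)

theorem Cl.const (c : ℝ) : Cl (fun _ : E d => c) :=
  ⟨contDiff_const, PG.const c, by
    rw [fderiv_fun_const]; exact PG.const (Y := E d) (0 : E d →L[ℝ] ℝ)⟩

theorem Cl.add {f g : E d → ℝ} (hf : Cl f) (hg : Cl g) : Cl (fun y => f y + g y) := by
  refine ⟨hf.1.add hg.1, hf.2.1.add hg.2.1, ?_⟩
  have : fderiv ℝ (fun y => f y + g y) = fun y => fderiv ℝ f y + fderiv ℝ g y :=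
    funext fun y => fderiv_fun_add (hf.diff y) (hg.diff y)
  rw [this]; exact hf.2.2.add hg.2.2

theorem Cl.mul {f g : E d → ℝ} (hf : Cl f) (hg : Cl g) : Cl (fun y => f y * g y) := by
  refine ⟨hf.1.mul hg.1, hf.2.1.mul hg.2.1, ?_⟩
  have : fderiv ℝ (fun y => f y * g y) = fun y => f y • fderiv ℝ g y + g y • fderiv ℝ f y :=
    funext fun y => fderiv_fun_mul (hf.diff y) (hg.diff y)
  rw [this]; exact (pg_smul hf.2.1 hg.2.2).add (pg_smul hg.2.1 hf.2.2)

theorem Cl.sub {f g : E d → ℝ} (hf : Cl f) (hg : Cl g) : Cl (fun y => f y - g y) := by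
  simpa [sub_eq_add_neg] using hf.add ((Cl.const (-1)).mul hg)

theorem Cl.sq {f : E d → ℝ} (hf : Cl f) : Cl (fun y => f y ^ 2) := by
  simpa [pow_two] using hf.mul hf

theorem Cl.sum {ι : Type*} (s : Finset ι) {f : ι → E d → ℝ} (hf : ∀ i ∈ s, Cl (f i)) :
    Cl (fun y => ∑ i ∈ s, f i y) := by
  classical
  induction s using Finset.induction_on with
  | empty => simpa using Cl.const 0
  | insert i s hi ih =>
    simp only [sum_insert hi]
    exact (hf i (mem_insert_self _ _)).add (ih fun j hj => hf j (mem_insert_of_mem hj))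

theorem Cl.prod {ι : Type*} (s : Finset ι) {f : ι → E d → ℝ} (hf : ∀ i ∈ s, Cl (f i)) :
    Cl (fun y => ∏ i ∈ s, f i y) := by
  classical
  induction s using Finset.induction_on with
  | empty => simpa using Cl.const 1
  | insert i s hi ih =>
    simp only [prod_insert hi]
    exact (hf i (mem_insert_self _ _)).mul (ih fun j hj => hf j (mem_insert_of_mem hj))

theorem Cl.so (s : Finset ℕ) {F : (ℕ → Fin d) → E d → ℝ} (hF : ∀ I, Cl (F I)) (I : ℕ → Fin d) :
    Cl (fun y => so s (fun I' => F I' y) I) := Cl.sum _ fun _ _ => hF _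

theorem cl_clm_comp {g : E d → E d} (hg : ContDiff ℝ 1 g) (h1 : PG g) (h2 : PG (fderiv ℝ g))
    (k : Fin d) : Cl (fun y => g y k) := by
  have e : (fun y => g y k) = (EuclideanSpace.proj k : E d →L[ℝ] ℝ) ∘ g := rfl
  refine ⟨e ▸ (EuclideanSpace.proj k : E d →L[ℝ] ℝ).contDiff.comp hg,
    h1.of_le 1 fun y => by simpa using PiLp.norm_apply_le (g y) k, ?_⟩
  refine h2.of_le ‖(EuclideanSpace.proj k : E d →L[ℝ] ℝ)‖ fun y => ?_
  rw [e, fderiv_comp y (ContinuousLinearMap.differentiableAt _) (hg.differentiable (by simp) y),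
    ContinuousLinearMap.fderiv]
  exact ContinuousLinearMap.opNorm_comp_le _ _

theorem Cl.coord (k : Fin d) : Cl (fun y : E d => y k) :=
  cl_clm_comp (g := fun y => y) contDiff_id PG.id
    (by rw [show fderiv ℝ (fun y : E d => y) = fun _ => ContinuousLinearMap.id ℝ (E d) from
      funext fun _ => fderiv_id']; exact PG.const _) k

theorem norm_sq_eq_sum (L : E d →L[ℝ] ℝ) :
    ‖L‖ ^ 2 = ∑ i, L (EuclideanSpace.single i 1) ^ 2 := by
  obtain ⟨w, rfl⟩ := (InnerProductSpace.toDual ℝ (E d)).surjective L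
  rw [LinearIsometryEquiv.norm_map, EuclideanSpace.real_norm_sq_eq]
  simp [EuclideanSpace.inner_single_right]

/-! ### `SA`-valued functions -/

def ClS (F : E d → SA) : Prop := ∀ A, Cl (fun y => F y A)

theorem ClS.const (g : SA) : ClS (fun _ : E d => g) := fun _ => Cl.const _

theorem ClS.mul {F G : E d → SA} (hF : ClS F) (hG : ClS G) : ClS (fun y => F y * G y) :=
  fun _ => Cl.sum _ fun _ _ => (hF _).mul (hG _)

theorem ClS.sub {F G : E d → SA} (hF : ClS F) (hG : ClS G) : ClS (fun y => F y - G y) :=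
  fun _ => (hF _).sub (hG _)

theorem ClS.sm {c : E d → ℝ} {F : E d → SA} (hc : Cl c) (hF : ClS F) :
    ClS (fun y => SA.sm (c y) (F y)) := fun _ => hc.mul (hF _)

noncomputable def EX (ν : Measure (E d)) (F : E d → SA) : SA := fun A => ∫ y, F y A ∂ν

theorem EX_mul {ν : Measure (E d)} (hI : ∀ f, Cl f → Integrable f ν) {F : E d → SA} (hF : ClS F)
    (g : SA) : EX ν (fun y => F y * g) = EX ν F * g := by
  funext A
  simp only [EX, SA.mul_apply]
  rw [integral_finsetSum _ fun B _ => hI _ ((hF B).mul (Cl.const _))]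
  simp only [integral_mul_const]

theorem EX_sub {ν : Measure (E d)} (hI : ∀ f, Cl f → Integrable f ν) {F G : E d → SA} (hF : ClS F)
    (hG : ClS G) : EX ν (fun y => F y - G y) = EX ν F - EX ν G := by
  funext A
  exact integral_sub (hI _ (hF A)) (hI _ (hG A))

noncomputable def dS (i : Fin d) (F : E d → SA) (y : E d) : SA :=
  fun A => fderiv ℝ (fun y => F y A) y (EuclideanSpace.single i 1)

theorem dS_mul (i : Fin d) {F : E d → SA} (hF : ClS F) (g : SA) (y : E d) :
    dS i (fun y => F y * g) y = dS i F y * g := by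
  funext A
  simp only [dS, SA.mul_apply]
  rw [fderiv_fun_sum fun B _ => ((hF B).mul (Cl.const _)).diff y]
  simp only [ContinuousLinearMap.sum_apply]
  refine Finset.sum_congr rfl fun B _ => ?_
  rw [fderiv_mul_const ((hF B).diff y)]; simp [mul_comm]

theorem dS_sub (i : Fin d) {F G : E d → SA} (hF : ClS F) (hG : ClS G) (y : E d) :
    dS i (fun y => F y - G y) y = dS i F y - dS i G y := by
  funext A
  simp only [dS, SA.sub_apply]
  rw [fderiv_fun_sub ((hF A).diff y) ((hG A).diff y)]; rfl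

theorem dS_sm (i : Fin d) {c : E d → ℝ} {F : E d → SA} (hc : Cl c) (hF : ClS F) (y : E d) :
    dS i (fun y => SA.sm (c y) (F y)) y =
      SA.sm (c y) (dS i F y) + SA.sm (fderiv ℝ c y (EuclideanSpace.single i 1)) (F y) := by
  funext A
  simp only [dS, SA.sm, SA.add_apply]
  rw [fderiv_fun_mul (hc.diff y) ((hF A).diff y)]; simp [mul_comm]

noncomputable def eS (a : ℝ) (I : ℕ → Fin d) (y : E d) : SA := fun B => ∏ s ∈ B, a⁻¹ * y (I s)

theorem eS_cl (a : ℝ) (I : ℕ → Fin d) : ClS (eS a I) :=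
  fun _ => Cl.prod _ fun _ _ => (Cl.const _).mul (Cl.coord _)

noncomputable def lw (a : ℝ) (i : Fin d) (I : ℕ → Fin d) : SA :=
  SA.lin fun s => if I s = i then a⁻¹ else 0

theorem dS_eS (a : ℝ) (I : ℕ → Fin d) (i : Fin d) (y : E d) :
    dS i (eS a I) y = lw a i I * eS a I y := by
  funext A
  rw [lw, SA.lin_mul]
  simp only [dS, eS]
  have h : ∀ s ∈ A, HasFDerivAt (fun y : E d => a⁻¹ * y (I s))
      (a⁻¹ • (EuclideanSpace.proj (I s) : E d →L[ℝ] ℝ)) y := fun s _ =>
    (EuclideanSpace.proj (I s) : E d →L[ℝ] ℝ).hasFDerivAt.const_mul a⁻¹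
  rw [(HasFDerivAt.finsetProd h).fderiv]
  simp only [ContinuousLinearMap.sum_apply]
  refine Finset.sum_congr rfl fun s _ => ?_
  by_cases hs : I s = i <;> simp [hs, mul_comm]

theorem eS_res (a : ℝ) (I : ℕ → Fin d) (y : E d) (p : ℕ → Prop) [DecidablePred p] :
    SA.res p (eS a I y) * SA.res (fun s => ¬ p s) (eS a I y) = eS a I y := by
  funext D
  rw [SA.res_mul_res]; exact prod_filter_mul_prod_filter_not _ _ _

/-- locality in the index function -/
def Loc (F : (ℕ → Fin d) → SA) : Prop := ∀ A, Dep A fun I => F I A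

theorem Loc.mul {F G : (ℕ → Fin d) → SA} (hF : Loc F) (hG : Loc G) : Loc fun I => F I * G I :=
  fun _ I I' h => SA.mul_congr (fun B hB => hF B I I' fun i hi => h i (hB hi))
    fun B hB => hG B I I' fun i hi => h i (hB hi)

theorem Loc.inv {F : (ℕ → Fin d) → SA} (hF : Loc F) : Loc fun I => SA.inv (F I) :=
  fun A I I' h => SA.inv_congr A fun B hB => hF B I I' fun i hi => h i (hB hi)

theorem Loc.EX (ν : Measure (E d)) {F : (ℕ → Fin d) → E d → SA} (hF : ∀ y, Loc fun I => F I y) :
    Loc fun I => EX ν (F I) := fun A I I' h => by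
  simp only [AFx.EX]; congr 1; funext y; exact hF y A I I' h

theorem loc_eS (a : ℝ) (y : E d) : Loc fun I => eS a I y :=
  fun _ I I' h => Finset.prod_congr rfl fun s hs => by rw [h s hs]

/-! ### the `L²` lemmas -/

theorem lin_bound {ν : Measure (E d)} (hI : ∀ f, Cl f → Integrable f ν) (a : ℝ) {α A : Finset ℕ}
    (hA : A ⊆ α) (G : (ℕ → Fin d) → E d → SA) (hcl : ∀ I, ClS (G I))
    (hG : ∀ s ∈ A, ∀ I k y, G (update I s k) y (A.erase s) = G I y (A.erase s)) (C : ℕ → ℝ)
    (hC : ∀ s ∈ A, ∀ (T : (ℕ → Fin d) → ℝ) I,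
      ∫ y, so (α.erase s) (fun I' => T I' * G I' y (A.erase s)) I ^ 2 ∂ν ≤
        C s * so (α.erase s) (fun I' => T I' ^ 2) I) (T : (ℕ → Fin d) → ℝ) (I : ℕ → Fin d) :
    ∫ y, ∑ i, so α (fun I' => T I' * (lw a i I' * G I' y) A) I ^ 2 ∂ν ≤
      (A.card * a⁻¹ ^ 2 * ∑ s ∈ A, C s) * so α (fun I' => T I' ^ 2) I := by
  have e1 : ∀ i y, so α (fun I' => T I' * (lw a i I' * G I' y) A) I = ∑ s ∈ A,
      a⁻¹ * so (α.erase s) (fun I' => T (update I' s i) * G I' y (A.erase s)) I := by
    intro i y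
    simp only [lw, SA.lin_mul, mul_sum, so_sum]
    refine Finset.sum_congr rfl fun s hs => ?_
    conv_lhs => rw [← insert_erase (hA hs), so_insert' (notMem_erase s α)]
    rw [← so_const_mul]
    congr 1; funext I'
    simp only [update_self, hG s hs]
    rw [Finset.sum_eq_single i] <;> simp +contextual [mul_left_comm]
  have hcl' : ∀ s i, Cl fun y =>
      so (α.erase s) (fun I' => T (update I' s i) * G I' y (A.erase s)) I ^ 2 :=
    fun s i => (Cl.so _ (fun I' => (Cl.const _).mul (hcl I' _)) I).sq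
  calc _ ≤ ∫ y, ∑ s ∈ A, ∑ i, (A.card * a⁻¹ ^ 2) *
        so (α.erase s) (fun I' => T (update I' s i) * G I' y (A.erase s)) I ^ 2 ∂ν := by
        refine integral_mono_of_nonneg (ae_of_all _ fun y => by positivity)
          (hI _ (Cl.sum _ fun s _ => Cl.sum _ fun i _ => (Cl.const _).mul (hcl' s i)))
          (ae_of_all _ fun y => ?_)
        simp only [e1]
        rw [Finset.sum_comm]
        refine Finset.sum_le_sum fun i _ => sq_sum_le_card_mul_sum_sq.trans (le_of_eq ?_)
        rw [mul_sum]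
        exact Finset.sum_congr rfl fun s _ => by ring
    _ = ∑ s ∈ A, ∑ i, (A.card * a⁻¹ ^ 2) * ∫ y,
        so (α.erase s) (fun I' => T (update I' s i) * G I' y (A.erase s)) I ^ 2 ∂ν := by
        rw [integral_finsetSum _ fun s _ => hI _ (Cl.sum _ fun i _ => (Cl.const _).mul (hcl' s i))]
        refine Finset.sum_congr rfl fun s _ => ?_
        rw [integral_finsetSum _ fun i _ => hI _ ((Cl.const _).mul (hcl' s i))]
        simp only [integral_const_mul]
    _ ≤ ∑ s ∈ A, ∑ i, (A.card * a⁻¹ ^ 2) *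
        (C s * so (α.erase s) (fun I' => T (update I' s i) ^ 2) I) :=
        Finset.sum_le_sum fun s hs => Finset.sum_le_sum fun i _ =>
          mul_le_mul_of_nonneg_left (hC s hs _ I) (by positivity)
    _ = _ := by
        rw [mul_sum, sum_mul]
        refine Finset.sum_congr rfl fun s hs => ?_
        conv_rhs => rw [← insert_erase (hA hs), so_insert' (notMem_erase s α), so_sum]
        simp only [mul_sum, mul_assoc]

theorem ob_of_bilin {ν : Measure (E d)} (hI : ∀ f, Cl f → Integrable f ν) {α β : Finset ℕ}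
    (hd : Disjoint α β) (F G : (ℕ → Fin d) → E d → ℝ) (hF : ∀ I, Cl (F I)) (hG : ∀ I, Cl (G I))
    (dF : ∀ y, Dep α fun I => F I y) (dG : ∀ y, Dep β fun I => G I y) {C C' : ℝ} (hC : 0 ≤ C)
    (hC' : 0 ≤ C')
    (bF : ∀ (T : (ℕ → Fin d) → ℝ) I, ∫ y, so α (fun I' => T I' * F I' y) I ^ 2 ∂ν ≤
      C * so α (fun I' => T I' ^ 2) I)
    (bG : ∀ (T : (ℕ → Fin d) → ℝ) I, ∫ y, so β (fun I' => T I' * G I' y) I ^ 2 ∂ν ≤
      C' * so β (fun I' => T I' ^ 2) I) :
    OB α β (fun I => ∫ y, F I y * G I y ∂ν) (C * C') := by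
  intro a ha I
  set b := so α fun I'' => (∫ y, F I'' y * G I'' y ∂ν) * a I'' with hb
  set X := so β (fun I' => b I' ^ 2) I with hX
  set f := fun y => so α (fun I' => a I' * F I' y) I with hf
  set g := fun y => so β (fun I' => b I' * G I' y) I with hg
  have cf : Cl f := Cl.so _ (fun I' => (Cl.const _).mul (hF I')) I
  have cg : Cl g := Cl.so _ (fun I' => (Cl.const _).mul (hG I')) I
  have e1 : ∀ I', b I' = ∫ y, so α (fun I'' => a I'' * F I'' y) I' * G I' y ∂ν := by
    intro I'
    have : ∀ y, so α (fun I'' => a I'' * F I'' y) I' * G I' y =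
        so α (fun I'' => F I'' y * G I'' y * a I'') I' := by
      intro y
      rw [← so_mul_right (c := fun I => G I y) fun z => (dG y).upF hd.symm _ z]
      congr 1; funext I''; ring
    simp only [this]
    unfold so
    rw [integral_finsetSum _ fun z _ => hI _ (((hF _).mul (hG _)).mul (Cl.const _))]
    simp only [integral_mul_const, hb, so]
  have e2 : X = ∫ y, f y * g y ∂ν := by
    have : ∀ y, f y * g y =
        so β (fun I' => b I' * (so α (fun I'' => a I'' * F I'' y) I' * G I' y)) I := by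
      intro y
      rw [hf, hg]
      simp only
      rw [← so_mul_left (c := so α fun I'' => a I'' * F I'' y) fun z =>
        so_upF_inv hd (fun I z => by rw [ha, (dF y).upF hd]) I z]
      congr 1; funext I'; ring
    simp only [this]
    rw [hX]
    conv_rhs => unfold so
    rw [integral_finsetSum _ fun z _ => hI _ ((Cl.const _).mul
      ((Cl.sum _ fun _ _ => (Cl.const _).mul (hF _)).mul (hG _)))]
    refine Finset.sum_congr rfl fun z _ => ?_
    rw [integral_const_mul]
    simp only [pow_two]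
    congr 1
    exact e1 _
  have hX0 : 0 ≤ X := so_nonneg (fun _ => sq_nonneg _) _
  have hY0 : 0 ≤ C * so α (fun I' => a I' ^ 2) I := mul_nonneg hC (so_nonneg (fun _ => sq_nonneg _) _)
  have h1 := bF a I
  have h2 := bG b I
  -- `2 C' f g ≤ C'² f² + g²`
  rcases hC'.eq_or_lt with h0 | h0
  · have h3 : ∀ t : ℝ, 0 < t → 2 * X ≤ t * (C * so α (fun I' => a I' ^ 2) I) := by
      intro t ht
      have : ∫ y, 2 * (f y * g y) ∂ν ≤ ∫ y, (t * f y ^ 2 + t⁻¹ * g y ^ 2) ∂ν :=
        integral_mono (hI _ ((Cl.const _).mul (cf.mul cg)))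
          (hI _ (((Cl.const _).mul cf.sq).add ((Cl.const _).mul cg.sq))) fun y => by
            have := mul_nonneg (inv_pos.2 ht).le (sq_nonneg (t * f y - g y))
            have e : t⁻¹ * (t * f y - g y) ^ 2 = t * f y ^ 2 + t⁻¹ * g y ^ 2 - 2 * (f y * g y) := by
              field_simp; ring
            simp only; linarith
      rw [integral_add (hI _ ((Cl.const _).mul cf.sq)) (hI _ ((Cl.const _).mul cg.sq)),
        integral_const_mul, integral_const_mul, integral_const_mul, ← e2] at this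
      rw [← h0, zero_mul] at h2
      nlinarith [mul_le_mul_of_nonneg_left h1 ht.le, mul_le_mul_of_nonneg_left h2 (inv_pos.2 ht).le]
    rw [← h0, mul_zero, zero_mul]
    by_contra hc
    push Not at hc
    have := h3 (X / (C * so α (fun I' => a I' ^ 2) I + 1)) (by positivity)
    rw [div_mul_eq_mul_div, le_div_iff₀ (by positivity)] at this
    nlinarith
  · have : ∫ y, (2 * C') * (f y * g y) ∂ν ≤ ∫ y, (C' ^ 2 * f y ^ 2 + g y ^ 2) ∂ν :=
      integral_mono (hI _ ((Cl.const _).mul (cf.mul cg)))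
        (hI _ (((Cl.const _).mul cf.sq).add cg.sq)) fun y => by
          simp only; nlinarith [sq_nonneg (C' * f y - g y)]
    rw [integral_add (hI _ ((Cl.const _).mul cf.sq)) (hI _ cg.sq),
      integral_const_mul, integral_const_mul, ← e2] at this
    have h4 : C' * X ≤ C' * (C * C' * so α (fun I' => a I' ^ 2) I) := by
      nlinarith [mul_le_mul_of_nonneg_left h1 (sq_nonneg C')]
    exact le_of_mul_le_mul_left h4 h0

end AFx
end Crest.Agent.LCS
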