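import Crest.Agent.LCS.Pd

/-! JOB A1: Hessian bounds, Gibbs measures, posterior derivative. -/

set_option autoImplicit false
set_option linter.unusedSectionVars false
open MeasureTheory Function

namespace Crest.Agent.LCS
variable {d : ℕ}

theorem fderiv_eq_inner (W : E d → ℝ) (x h : E d) : fderiv ℝ W x h = inner ℝ (gradient W x) h := by
  simp [gradient, InnerProductSpace.toDual_symm_apply]

theorem norm_gradient (W : E d → ℝ) (x : E d) : ‖gradient W x‖ = ‖fderiv ℝ W x‖ := by
  simp [gradient]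

theorem contDiff_gradient {W : E d → ℝ} (hW : ContDiff ℝ 2 W) : ContDiff ℝ 1 (gradient W) := by
  have h1 : ContDiff ℝ 1 (fderiv ℝ W) := hW.fderiv_right (m := 1) (by norm_num)
  exact (InnerProductSpace.toDual ℝ (E d)).symm.toContinuousLinearEquiv.contDiff.comp h1

theorem inner_fderiv_gradient {W : E d → ℝ} (hW : ContDiff ℝ 2 W) (x h k : E d) :
    inner ℝ (fderiv ℝ (gradient W) x h) k = fderiv ℝ (fderiv ℝ W) x h k := by
  have h1 : DifferentiableAt ℝ (fderiv ℝ W) x :=
    (hW.fderiv_right (m := 1) (by norm_num)).differentiable (by simp) x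
  have h2 : DifferentiableAt ℝ (gradient W) x := (contDiff_gradient hW).differentiable (by simp) x
  have e : (fun y => inner ℝ (gradient W y) k) = fun y => fderiv ℝ W y k := by
    funext y; rw [fderiv_eq_inner]
  have a := fderiv_inner_apply (𝕜 := ℝ) h2 (differentiableAt_const k) h
  rw [e, fderiv_clm_apply h1 (differentiableAt_const k)] at a
  simpa using a.symm

theorem HessB.quad {W : E d → ℝ} {lo hi : ℝ} (h : HessB W lo hi) (x k : E d) :
    lo * ‖k‖ ^ 2 ≤ inner ℝ (fderiv ℝ (gradient W) x k) k ∧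
      inner ℝ (fderiv ℝ (gradient W) x k) k ≤ hi * ‖k‖ ^ 2 := by
  have := h.2 x k
  rw [iteratedFDeriv_two_apply] at this
  rw [inner_fderiv_gradient h.1]
  simpa using this

theorem HessB.symm {W : E d → ℝ} {lo hi : ℝ} (h : HessB W lo hi) (x k l : E d) :
    inner ℝ (fderiv ℝ (gradient W) x k) l = inner ℝ (fderiv ℝ (gradient W) x l) k := by
  rw [inner_fderiv_gradient h.1, inner_fderiv_gradient h.1]
  exact (h.1.contDiffAt.isSymmSndFDerivAt (by simp)).eq k l

theorem HessB.norm_le {W : E d → ℝ} {lo hi : ℝ} (hlo : 0 ≤ lo) (h : HessB W lo hi) (x : E d) :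
    ‖fderiv ℝ (gradient W) x‖ ≤ |hi| := by
  set A := fderiv ℝ (gradient W) x
  refine ContinuousLinearMap.opNorm_le_bound _ (abs_nonneg _) fun k => ?_
  have hq : ∀ k, 0 ≤ inner ℝ (A k) k ∧ inner ℝ (A k) k ≤ |hi| * ‖k‖ ^ 2 := fun k =>
    ⟨le_trans (by positivity) (h.quad x k).1, (h.quad x k).2.trans
      (mul_le_mul_of_nonneg_right (le_abs_self _) (by positivity))⟩
  set l := A k
  have cs : (inner ℝ (A k) l) ^ 2 ≤ inner ℝ (A k) k * inner ℝ (A l) l := by
    have : ∀ t : ℝ, 0 ≤ inner ℝ (A l) l * (t * t) + 2 * inner ℝ (A k) l * t + inner ℝ (A k) k := by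
      intro t
      have h0 := (hq (k + t • l)).1
      rw [map_add, map_smul, inner_add_left, inner_add_right, inner_add_right, inner_smul_left,
        inner_smul_left, inner_smul_right, inner_smul_right, ← h.symm x k l] at h0
      simp only [conj_trivial] at h0
      nlinarith
    have := discrim_le_zero this
    unfold discrim at this; nlinarith
  have e1 : inner ℝ (A k) l = ‖l‖ ^ 2 := real_inner_self_eq_norm_sq _
  have h3 : (‖l‖ ^ 2) ^ 2 ≤ (|hi| * ‖k‖ ^ 2) * (|hi| * ‖l‖ ^ 2) := by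
    have cs' := cs
    rw [e1] at cs'
    exact cs'.trans (mul_le_mul (hq k).2 (hq l).2 (hq l).1 (by positivity))
  by_cases hl : ‖l‖ = 0
  · rw [hl]; positivity
  · have hl' : 0 < ‖l‖ ^ 2 := by positivity
    have : ‖l‖ ^ 2 ≤ (|hi| * ‖k‖) ^ 2 := by nlinarith
    exact (pow_le_pow_iff_left₀ (norm_nonneg _) (by positivity) two_ne_zero).1 this

theorem HessB.lip {W : E d → ℝ} {lo hi : ℝ} (hlo : 0 ≤ lo) (h : HessB W lo hi) (x y : E d) :
    ‖gradient W x - gradient W y‖ ≤ |hi| * ‖x - y‖ :=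
  Convex.norm_image_sub_le_of_norm_fderiv_le (𝕜 := ℝ) (s := Set.univ)
    (fun z _ => (contDiff_gradient h.1).differentiable (by simp) z)
    (fun z _ => h.norm_le hlo z) convex_univ (Set.mem_univ y) (Set.mem_univ x)

theorem hasDerivAt_line {F : Type} [NormedAddCommGroup F] [NormedSpace ℝ F] {f : E d → F}
    (hf : Differentiable ℝ f) (x h : E d) (s : ℝ) :
    HasDerivAt (fun s : ℝ => f (x + s • h)) (fderiv ℝ f (x + s • h) h) s := by
  have : HasDerivAt (fun s : ℝ => x + s • h) h s := by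
    simpa using ((hasDerivAt_id s).smul_const h).const_add x
  exact (hf _).hasFDerivAt.comp_hasDerivAt s this

theorem HessB.mono_grad {W : E d → ℝ} {lo hi : ℝ} (h : HessB W lo hi) (x y : E d) :
    lo * ‖x - y‖ ^ 2 ≤ inner ℝ (gradient W x - gradient W y) (x - y) := by
  set k := x - y
  have hd : ∀ s : ℝ, HasDerivAt (fun s : ℝ => inner ℝ (gradient W (y + s • k)) k - s * (lo * ‖k‖ ^ 2))
      (inner ℝ (fderiv ℝ (gradient W) (y + s • k) k) k - lo * ‖k‖ ^ 2) s := by
    intro s
    have h1 := (hasDerivAt_line ((contDiff_gradient h.1).differentiable (by simp)) y k s).inner ℝ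
      (hasDerivAt_const s k)
    refine (h1.fun_sub ((hasDerivAt_id s).mul_const (lo * ‖k‖ ^ 2))).congr_deriv ?_
    rw [inner_zero_right, zero_add, one_mul]
  have hm := monotone_of_deriv_nonneg (fun s => (hd s).differentiableAt)
    (fun s => by rw [(hd s).deriv]; linarith [(h.quad (y + s • k) k).1])
  have := hm (zero_le_one' ℝ)
  simp only [zero_smul, add_zero, zero_mul, sub_zero, one_smul, one_mul] at this
  rw [show y + k = x by simp [k]] at this
  rw [inner_sub_left]; linarith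

theorem HessB.lower {W : E d → ℝ} {lo hi : ℝ} (h : HessB W lo hi) (x y : E d) :
    W x + inner ℝ (gradient W x) (y - x) + lo / 2 * ‖y - x‖ ^ 2 ≤ W y := by
  set k := y - x
  have hW : Differentiable ℝ W := h.1.differentiable (by simp)
  have hd : ∀ s : ℝ, HasDerivAt (fun s : ℝ => W (x + s • k) - s * inner ℝ (gradient W x) k -
      s ^ 2 * (lo / 2 * ‖k‖ ^ 2))
      (inner ℝ (gradient W (x + s • k) - gradient W x) k - s * (lo * ‖k‖ ^ 2)) s := by
    intro s
    have h1 := ((hasDerivAt_line hW x k s).fun_sub ((hasDerivAt_id s).mul_const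
      (inner ℝ (gradient W x) k))).fun_sub ((hasDerivAt_pow 2 s).mul_const (lo / 2 * ‖k‖ ^ 2))
    refine h1.congr_deriv ?_
    rw [fderiv_eq_inner, inner_sub_left]
    generalize inner ℝ (gradient W (x + s • k)) k = A
    generalize inner ℝ (gradient W x) k = B
    simp; ring
  have hm := monotoneOn_of_deriv_nonneg (convex_Ici (0 : ℝ))
    (fun s _ => (hd s).continuousAt.continuousWithinAt)
    (fun s _ => (hd s).differentiableAt.differentiableWithinAt)
    (fun s hs => by
      rw [(hd s).deriv]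
      have hs' : 0 < s := by simpa using hs
      have := h.mono_grad (x + s • k) x
      rw [add_sub_cancel_left, inner_smul_right, norm_smul, Real.norm_of_nonneg hs'.le] at this
      have : s * (s * (lo * ‖k‖ ^ 2)) ≤ s * inner ℝ (gradient W (x + s • k) - gradient W x) k := by
        nlinarith
      linarith [le_of_mul_le_mul_left this hs'])
  have := hm (Set.mem_Ici.2 le_rfl) (Set.mem_Ici.2 zero_le_one) zero_le_one
  simp only [zero_smul, add_zero, zero_mul, sub_zero, one_smul, one_mul, one_pow] at this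
  rw [show x + k = y by simp [k]] at this
  generalize inner ℝ (gradient W x) k = B at this ⊢
  simp at this; linarith

theorem HessB.pg_grad {W : E d → ℝ} {lo hi : ℝ} (hlo : 0 ≤ lo) (h : HessB W lo hi) :
    PG (gradient W) := by
  refine ⟨‖gradient W 0‖ + |hi|, 1, fun y => ?_⟩
  have h1 := h.lip hlo y 0
  have h2 := norm_add_le (gradient W y - gradient W 0) (gradient W 0)
  simp only [sub_add_cancel, sub_zero] at h1 h2
  nlinarith [norm_nonneg y, norm_nonneg (gradient W 0), abs_nonneg hi]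

theorem HessB.pg_fderiv {W : E d → ℝ} {lo hi : ℝ} (hlo : 0 ≤ lo) (h : HessB W lo hi) :
    PG (fderiv ℝ W) := (h.pg_grad hlo).of_le 1 fun y => by rw [norm_gradient]; simp

theorem HessB.pg {W : E d → ℝ} {lo hi : ℝ} (hlo : 0 ≤ lo) (h : HessB W lo hi) : PG W := by
  have hW : Differentiable ℝ W := h.1.differentiable (by simp)
  refine ⟨|W 0| + ‖gradient W 0‖ + |hi|, 2, fun y => ?_⟩
  have h1 := Convex.norm_image_sub_le_of_norm_fderiv_le (𝕜 := ℝ) (f := W)
    (s := Metric.closedBall 0 ‖y‖) (C := ‖gradient W 0‖ + |hi| * ‖y‖) (fun z _ => hW z)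
    (fun z hz => by
      rw [← norm_gradient]
      have h1 := h.lip hlo z 0
      have h2 := norm_add_le (gradient W z - gradient W 0) (gradient W 0)
      have h3 : ‖z‖ ≤ ‖y‖ := by simpa using hz
      simp only [sub_add_cancel, sub_zero] at h1 h2
      nlinarith [abs_nonneg hi]) (convex_closedBall _ _)
    (Metric.mem_closedBall_self (norm_nonneg y)) (show y ∈ _ by simp)
  have h2 := norm_add_le (W y - W 0) (W 0)
  simp only [sub_add_cancel, sub_zero, Real.norm_eq_abs] at h1 h2 ⊢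
  have := norm_nonneg y
  nlinarith [norm_nonneg (gradient W 0), abs_nonneg hi, abs_nonneg (W 0), mul_nonneg this this,
    mul_nonneg this (norm_nonneg (gradient W 0)), mul_nonneg this (abs_nonneg hi),
    mul_nonneg this (abs_nonneg (W 0)), mul_nonneg (mul_nonneg this this) (abs_nonneg (W 0)),
    mul_nonneg (mul_nonneg this this) (norm_nonneg (gradient W 0))]

theorem hasFDerivAt_quad (x : E d) (a : ℝ) (y : E d) :
    HasFDerivAt (fun y : E d => ‖y - x‖ ^ 2 / (2 * a)) (a⁻¹ • innerSL ℝ (y - x)) y := by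
  have h := ((hasFDerivAt_id y).sub_const x).norm_sq
  have h2 := h.const_mul (2 * a)⁻¹
  have e : (fun y : E d => ‖y - x‖ ^ 2 / (2 * a)) = fun y => (2 * a)⁻¹ * ‖id y - x‖ ^ 2 := by
    funext y; simp [div_eq_mul_inv, mul_comm]
  rw [e]
  refine h2.congr_fderiv ?_
  ext k; simp; by_cases ha : a = 0
  · simp [ha]
  · field_simp

theorem HessB.add_quad {W : E d → ℝ} {lo hi : ℝ} (h : HessB W lo hi) (x : E d) (a : ℝ) :
    HessB (fun y => W y + ‖y - x‖ ^ 2 / (2 * a)) (lo + 1 / a) (hi + 1 / a) ∧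
    ∀ y, gradient (fun y => W y + ‖y - x‖ ^ 2 / (2 * a)) y = gradient W y + a⁻¹ • (y - x) := by
  have hq : ContDiff ℝ 2 (fun y : E d => ‖y - x‖ ^ 2 / (2 * a)) :=
    ((contDiff_norm_sq ℝ).comp (contDiff_id.sub contDiff_const)).div_const _
  have hW : Differentiable ℝ W := h.1.differentiable (by simp)
  have hg : ∀ y, gradient (fun y => W y + ‖y - x‖ ^ 2 / (2 * a)) y =
      gradient W y + a⁻¹ • (y - x) := by
    intro y
    refine ext_inner_right ℝ fun k => ?_
    rw [← fderiv_eq_inner, ((hW y).hasFDerivAt.fun_add (hasFDerivAt_quad x a y)).fderiv,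
      inner_add_left, ← fderiv_eq_inner, inner_smul_left]
    simp [inner_sub_left]
  refine ⟨⟨h.1.add hq, fun z k => ?_⟩, hg⟩
  rw [iteratedFDeriv_two_apply]
  simp only [Matrix.cons_val_zero, Matrix.cons_val_one, Matrix.cons_val_fin_one]
  rw [← inner_fderiv_gradient (h.1.add hq), funext hg]
  have h2 : DifferentiableAt ℝ (gradient W) z := (contDiff_gradient h.1).differentiable (by simp) z
  have h3 : HasFDerivAt (fun y : E d => a⁻¹ • (y - x)) (a⁻¹ • ContinuousLinearMap.id ℝ (E d)) z :=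
    ((hasFDerivAt_id z).sub_const x).const_smul a⁻¹
  rw [(h2.hasFDerivAt.fun_add h3).fderiv]
  simp only [ContinuousLinearMap.add_apply, ContinuousLinearMap.smul_apply,
    ContinuousLinearMap.id_apply, inner_add_left, inner_smul_left, conj_trivial,
    real_inner_self_eq_norm_sq, one_div]
  have := h.quad z k
  constructor <;> nlinarith [this.1, this.2]

theorem hessAPI : HessAPI := fun _ W _ _ hlo h =>
  ⟨h.lip hlo, h.lower, h.mono_grad, contDiff_gradient h.1, h.norm_le hlo, h.pg hlo, h.pg_grad hlo,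
    h.pg_fderiv hlo, fderiv_eq_inner W, fun x a _ => h.add_quad x a⟩

/-! ### integrability -/

theorem integrable_gauss {c : ℝ} (hc : 0 < c) :
    Integrable (fun y : E d => Real.exp (-c * ‖y‖ ^ 2)) := by
  have := (GaussianFourier.integrable_cexp_neg_mul_sq_norm_add (V := E d) (b := (c : ℂ))
    (by simpa using hc) 0 0).norm
  refine this.congr (Filter.Eventually.of_forall fun y => ?_)
  simp only [zero_mul, add_zero, Complex.norm_exp]
  congr 1
  rw [← Complex.ofReal_pow, ← Complex.ofReal_neg, ← Complex.ofReal_mul, Complex.ofReal_re]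

/-- core integrability lemma -/
theorem integrable_pg_gauss {F : Type} [NormedAddCommGroup F] [NormedSpace ℝ F] {f : E d → F}
    (hf : AEStronglyMeasurable f volume) (hp : PG f) {w : E d → ℝ} (hw : AEStronglyMeasurable w volume)
    {c : ℝ} (hc : 0 < c) (b K : ℝ) (hle : ∀ y, |w y| ≤ K * Real.exp (-c * ‖y‖ ^ 2 + b * ‖y‖)) :
    Integrable (fun y => w y • f y) := by
  obtain ⟨C, n, hC⟩ := hp
  refine ((integrable_gauss (half_pos hc)).const_mul
    (|K| * (|C| * (n.factorial * Real.exp (1 + (b + 1) ^ 2 / (2 * c)))))).mono' (hw.smul hf)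
    (Filter.Eventually.of_forall fun y => ?_)
  have h0 := norm_nonneg y
  have h1 : (1 + ‖y‖) ^ n ≤ n.factorial * Real.exp (1 + ‖y‖) := by
    have := Real.pow_div_factorial_le_exp (1 + ‖y‖) (by positivity) n
    rwa [div_le_iff₀ (by positivity), mul_comm] at this
  have h2 : -c * ‖y‖ ^ 2 + b * ‖y‖ + (1 + ‖y‖) ≤ (1 + (b + 1) ^ 2 / (2 * c)) + -(c / 2) * ‖y‖ ^ 2 := by
    have : (b + 1) * ‖y‖ ≤ (b + 1) ^ 2 / (2 * c) + c / 2 * ‖y‖ ^ 2 := by
      have : 0 ≤ (b + 1 - c * ‖y‖) ^ 2 / (2 * c) := by positivity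
      have e : (b + 1 - c * ‖y‖) ^ 2 / (2 * c) =
        (b + 1) ^ 2 / (2 * c) + c / 2 * ‖y‖ ^ 2 - (b + 1) * ‖y‖ := by field_simp; ring
      linarith
    nlinarith
  rw [norm_smul, Real.norm_eq_abs]
  have h3 : |w y| ≤ |K| * Real.exp (-c * ‖y‖ ^ 2 + b * ‖y‖) :=
    (hle y).trans (mul_le_mul_of_nonneg_right (le_abs_self K) (Real.exp_pos _).le)
  have h4 : ‖f y‖ ≤ |C| * (n.factorial * Real.exp (1 + ‖y‖)) :=
    (hC y).trans ((mul_le_mul_of_nonneg_right (le_abs_self C) (by positivity)).trans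
      (mul_le_mul_of_nonneg_left h1 (abs_nonneg C)))
  calc |w y| * ‖f y‖ ≤ (|K| * Real.exp (-c * ‖y‖ ^ 2 + b * ‖y‖)) *
        (|C| * (n.factorial * Real.exp (1 + ‖y‖))) := mul_le_mul h3 h4 (norm_nonneg _) (by positivity)
    _ = |K| * (|C| * (n.factorial * Real.exp (-c * ‖y‖ ^ 2 + b * ‖y‖ + (1 + ‖y‖)))) := by
        rw [Real.exp_add (-c * ‖y‖ ^ 2 + b * ‖y‖)]; ring
    _ ≤ |K| * (|C| * (n.factorial * Real.exp ((1 + (b + 1) ^ 2 / (2 * c)) + -(c / 2) * ‖y‖ ^ 2))) := by
        gcongr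
    _ = _ := by rw [Real.exp_add]; ring

theorem HessB.exp_le {W : E d → ℝ} {lo hi : ℝ} (h : HessB W lo hi) (y : E d) :
    Real.exp (-W y) ≤ Real.exp (-W 0) * Real.exp (-(lo / 2) * ‖y‖ ^ 2 + ‖gradient W 0‖ * ‖y‖) := by
  rw [← Real.exp_add]
  have h1 := h.lower 0 y
  have h2 := abs_real_inner_le_norm (gradient W 0) y
  simp only [sub_zero] at h1
  have := neg_abs_le (inner ℝ (gradient W 0) y)
  exact Real.exp_le_exp.2 (by linarith)

theorem HessB.integrable_exp {W : E d → ℝ} {lo hi : ℝ} (hlo : 0 < lo) (h : HessB W lo hi)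
    {F : Type} [NormedAddCommGroup F] [NormedSpace ℝ F] {f : E d → F} (hf : Continuous f)
    (hp : PG f) : Integrable (fun y => Real.exp (-W y) • f y) :=
  integrable_pg_gauss hf.aestronglyMeasurable hp
    (Real.continuous_exp.comp h.1.continuous.neg).aestronglyMeasurable (half_pos hlo) _ _
    fun y => by rw [abs_of_pos (Real.exp_pos _)]; exact h.exp_le y

theorem HessB.integrable_exp' {W : E d → ℝ} {lo hi : ℝ} (hlo : 0 < lo) (h : HessB W lo hi) :
    Integrable (fun y => Real.exp (-W y)) := by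
  simpa using h.integrable_exp hlo (f := fun _ => (1 : ℝ)) continuous_const (PG.const 1)

theorem HessB.Z_pos {W : E d → ℝ} {lo hi : ℝ} (hlo : 0 < lo) (h : HessB W lo hi) :
    0 < ∫ y, Real.exp (-W y) :=
  integral_exp_pos (h.integrable_exp' hlo)

theorem HessB.gibbs_eq {W : E d → ℝ} {lo hi : ℝ} (hlo : 0 < lo) (h : HessB W lo hi) :
    gibbs W = volume.withDensity
      (fun y => ENNReal.ofReal ((∫ y, Real.exp (-W y))⁻¹ * Real.exp (-W y))) := by
  have hm : Measurable fun y => ENNReal.ofReal (Real.exp (-W y)) :=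
    (Real.continuous_exp.comp h.1.continuous.neg).measurable.ennreal_ofReal
  unfold gibbs Crest.OracleSampling.target
  simp only
  rw [withDensity_apply _ MeasurableSet.univ, Measure.restrict_univ,
    ← ofReal_integral_eq_lintegral_ofReal (h.integrable_exp' hlo)
      (Filter.Eventually.of_forall fun y => (Real.exp_pos _).le), ← withDensity_smul _ hm]
  congr 1; funext y
  rw [ENNReal.ofReal_mul (inv_nonneg.2 (h.Z_pos hlo).le), ENNReal.ofReal_inv_of_pos (h.Z_pos hlo)]
  rfl

theorem HessB.dens_meas {W : E d → ℝ} {lo hi : ℝ} (h : HessB W lo hi) :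
    Measurable (fun y => ENNReal.ofReal ((∫ y, Real.exp (-W y))⁻¹ * Real.exp (-W y))) :=
  (continuous_const.mul (Real.continuous_exp.comp h.1.continuous.neg)).measurable.ennreal_ofReal

theorem HessB.integral_eq {W : E d → ℝ} {lo hi : ℝ} (hlo : 0 < lo) (h : HessB W lo hi)
    {F : Type} [NormedAddCommGroup F] [NormedSpace ℝ F] (f : E d → F) :
    ∫ y, f y ∂(gibbs W) = (∫ y, Real.exp (-W y))⁻¹ • ∫ y, Real.exp (-W y) • f y := by
  rw [h.gibbs_eq hlo, integral_withDensity_eq_integral_toReal_smul h.dens_meas (by simp),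
    ← integral_smul]
  congr 1; funext y
  rw [ENNReal.toReal_ofReal (mul_nonneg (inv_nonneg.2 (h.Z_pos hlo).le) (Real.exp_pos _).le), mul_smul]

theorem HessB.integrable {W : E d → ℝ} {lo hi : ℝ} (hlo : 0 < lo) (h : HessB W lo hi)
    {F : Type} [NormedAddCommGroup F] [NormedSpace ℝ F] {f : E d → F} (hf : Continuous f)
    (hp : PG f) : Integrable f (gibbs W) := by
  rw [h.gibbs_eq hlo, integrable_withDensity_iff_integrable_smul' h.dens_meas (by simp)]
  refine ((h.integrable_exp hlo hf hp).smul (∫ y, Real.exp (-W y))⁻¹).congr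
    (Filter.Eventually.of_forall fun y => ?_)
  simp only [Pi.smul_apply]
  rw [ENNReal.toReal_ofReal (mul_nonneg (inv_nonneg.2 (h.Z_pos hlo).le) (Real.exp_pos _).le), mul_smul]

theorem HessB.prob {W : E d → ℝ} {lo hi : ℝ} (hlo : 0 < lo) (h : HessB W lo hi) :
    IsProbabilityMeasure (gibbs W) := by
  constructor
  rw [h.gibbs_eq hlo, withDensity_apply _ MeasurableSet.univ, Measure.restrict_univ,
    ← ofReal_integral_eq_lintegral_ofReal ((h.integrable_exp' hlo).const_mul _)
      (Filter.Eventually.of_forall fun y =>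
        mul_nonneg (inv_nonneg.2 (h.Z_pos hlo).le) (Real.exp_pos _).le),
    integral_const_mul, inv_mul_cancel₀ (h.Z_pos hlo).ne']
  simp

theorem PG.apply {Y F : Type} [NormedAddCommGroup Y] [NormedSpace ℝ Y] [NormedAddCommGroup F]
    [NormedSpace ℝ F] {f : E d → Y →L[ℝ] F} (hf : PG f) (e : Y) : PG (fun y => f y e) :=
  hf.of_le ‖e‖ fun y => by rw [mul_comm]; exact (f y).le_opNorm e

theorem HessB.ibp {W : E d → ℝ} {lo hi : ℝ} (hlo : 0 < lo) (h : HessB W lo hi) {f : E d → ℝ}
    (hf : ContDiff ℝ 1 f) (hp : PG f) (hp' : PG (fderiv ℝ f)) (e : E d) :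
    ∫ y, fderiv ℝ f y e ∂(gibbs W) = ∫ y, f y * fderiv ℝ W y e ∂(gibbs W) := by
  rw [h.integral_eq hlo, h.integral_eq hlo]
  congr 1
  have hW : Differentiable ℝ W := h.1.differentiable (by simp)
  have hg : ∀ y, HasFDerivAt (fun y => Real.exp (-W y)) (Real.exp (-W y) • (-fderiv ℝ W y)) y :=
    fun y => (hW y).hasFDerivAt.neg.exp
  have c1 : Continuous fun y => fderiv ℝ f y e :=
    (hf.continuous_fderiv (by simp)).clm_apply continuous_const
  have c2 : Continuous fun y => f y * fderiv ℝ W y e :=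
    hf.continuous.mul ((h.1.continuous_fderiv (by simp)).clm_apply continuous_const)
  have i1 := h.integrable_exp hlo c1 (hp'.apply e)
  have i2 := h.integrable_exp hlo c2 (hp.mul ((h.pg_fderiv hlo.le).apply e))
  have i3 := h.integrable_exp hlo hf.continuous hp
  have := integral_mul_fderiv_eq_neg_fderiv_mul_of_integrable (μ := (volume : Measure (E d)))
    (f := fun y => Real.exp (-W y)) (g := f) (v := e)
    (i2.neg.congr (Filter.Eventually.of_forall fun y => by simp [(hg y).fderiv]; ring))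
    (by simpa using i1) (by simpa using i3) (fun y _ => (hg y).differentiableAt)
    (fun y _ => hf.differentiable (by simp) y)
  simp only [smul_eq_mul]
  rw [this, ← integral_neg]
  congr 1; funext y; simp [(hg y).fderiv]; ring

theorem gibbsAPI : GibbsAPI := fun _ _ _ _ hlo h =>
  ⟨h.prob hlo, h.Z_pos hlo, fun _ _ _ f hf hp => ⟨h.integrable hlo hf hp, h.integrable_exp hlo hf hp,
    h.integral_eq hlo f⟩, h.gibbs_eq hlo, fun _ hf hp hp' e => h.ibp hlo hf hp hp' e⟩

/-! ### posterior -/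

theorem HessB.post {U : E d → ℝ} {β a : ℝ} (h : HessB U 0 β) (x : E d) :
    HessB (fun y => U y + ‖y - x‖ ^ 2 / (2 * a)) (1 / a) (β + 1 / a) := by
  simpa using (h.add_quad x a).1

theorem HessB.post_prob {U : E d → ℝ} {β a : ℝ} (h : HessB U 0 β) (ha : 0 < a) (x : E d) :
    IsProbabilityMeasure (LCS.post U x a) := (h.post x).prob (by positivity)

theorem HessB.post_integrable {U : E d → ℝ} {β a : ℝ} (h : HessB U 0 β) (ha : 0 < a) (x : E d)
    {F : Type} [NormedAddCommGroup F] [NormedSpace ℝ F] {f : E d → F} (hf : Continuous f)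
    (hp : PG f) : Integrable f (LCS.post U x a) := (h.post x).integrable (by positivity) hf hp

/-- tilted integral -/
noncomputable def Jf (U : E d → ℝ) (a : ℝ) (f : E d → ℝ) (x : E d) : ℝ :=
  ∫ y, Real.exp (-(U y + ‖y‖ ^ 2 / (2 * a)) + a⁻¹ * inner ℝ x y) * f y

theorem exp_post_eq (U : E d → ℝ) {a : ℝ} (ha : 0 < a) (x y : E d) :
    Real.exp (-(U y + ‖y - x‖ ^ 2 / (2 * a))) = Real.exp (-(‖x‖ ^ 2 / (2 * a))) *
      Real.exp (-(U y + ‖y‖ ^ 2 / (2 * a)) + a⁻¹ * inner ℝ x y) := by
  rw [← Real.exp_add, norm_sub_sq_real, real_inner_comm]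
  congr 1; field_simp; ring

theorem post_integral_eq {U : E d → ℝ} {β a : ℝ} (h : HessB U 0 β) (ha : 0 < a) (f : E d → ℝ)
    (x : E d) : ∫ y, f y ∂(post U x a) = Jf U a f x / Jf U a (fun _ => 1) x := by
  unfold post
  rw [(h.post x).integral_eq (by positivity)]
  simp only [exp_post_eq U ha, smul_eq_mul, mul_assoc, integral_const_mul, Jf, mul_one]
  field_simp

theorem Jf_one_pos {U : E d → ℝ} {β a : ℝ} (h : HessB U 0 β) (ha : 0 < a) (x : E d) :
    0 < Jf U a (fun _ => 1) x := by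
  have := (h.post (a := a) x).Z_pos (by positivity)
  simp only [exp_post_eq U ha, integral_const_mul] at this
  simpa [Jf] using (mul_pos_iff_of_pos_left (Real.exp_pos _)).1 this

theorem hasFDerivAt_Jf {U : E d → ℝ} {β a : ℝ} (h : HessB U 0 β) (ha : 0 < a) {f : E d → ℝ}
    (hf : Continuous f) (hp : PG f) (x : E d) :
    ∃ L : E d →L[ℝ] ℝ, HasFDerivAt (Jf U a f) L x ∧
      ∀ k, L k = a⁻¹ * Jf U a (fun y => f y * inner ℝ k y) x := by
  have h0 : HessB (fun y => U y + ‖y‖ ^ 2 / (2 * a)) (1 / a) (β + 1 / a) := by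
    simpa using h.post (a := a) 0
  set W : E d → ℝ := fun y => U y + ‖y‖ ^ 2 / (2 * a)
  have hWc : Continuous W := h0.1.continuous
  have hw : ∀ x' : E d, Continuous fun y => Real.exp (-W y + a⁻¹ * inner ℝ x' y) := fun x' => by
    fun_prop
  have hb : ∀ (R : ℝ) (y : E d), |Real.exp (-W y + a⁻¹ * (R * ‖y‖))| ≤ Real.exp (-W 0) *
      Real.exp (-(1 / a / 2) * ‖y‖ ^ 2 + (‖gradient W 0‖ + a⁻¹ * R) * ‖y‖) := by
    intro R y
    rw [abs_of_pos (Real.exp_pos _), Real.exp_add]
    refine (mul_le_mul_of_nonneg_right (h0.exp_le y) (Real.exp_pos _).le).trans (le_of_eq ?_)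
    rw [mul_assoc, ← Real.exp_add]; congr 2; ring
  have hle : ∀ (x' : E d) (R : ℝ), ‖x'‖ ≤ R → ∀ y, Real.exp (-W y + a⁻¹ * inner ℝ x' y) ≤
      Real.exp (-W y + a⁻¹ * (R * ‖y‖)) := by
    intro x' R hR y
    have := (real_inner_le_norm x' y).trans (mul_le_mul_of_nonneg_right hR (norm_nonneg y))
    gcongr
  have hint : ∀ {F : Type} [NormedAddCommGroup F] [NormedSpace ℝ F] (g : E d → F), Continuous g →
      PG g → Integrable fun y => Real.exp (-W y + a⁻¹ * inner ℝ x y) • g y := by
    intro F _ _ g hg hpg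
    refine integrable_pg_gauss hg.aestronglyMeasurable hpg (hw x).aestronglyMeasurable
      (c := 1 / a / 2) (by positivity) _ _ fun y => le_trans ?_ (hb ‖x‖ y)
    rw [abs_of_pos (Real.exp_pos _), abs_of_pos (Real.exp_pos _)]
    exact hle x _ le_rfl y
  have hgc : Continuous fun y : E d => (a⁻¹ * f y) • innerSL ℝ y := by fun_prop
  have hgp : PG fun y : E d => (a⁻¹ * f y) • innerSL ℝ y :=
    (hp.mul (PG.id.of_le (g := fun y : E d => ‖y‖) 1 (by simp))).of_le a⁻¹ fun y => by
      rw [norm_smul, norm_mul, norm_mul, innerSL_apply_norm, Real.norm_of_nonneg (inv_nonneg.2 ha.le),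
        norm_norm, mul_assoc]
  refine ⟨∫ y, Real.exp (-W y + a⁻¹ * inner ℝ x y) • ((a⁻¹ * f y) • innerSL ℝ y), ?_, fun k => ?_⟩
  · refine hasFDerivAt_integral_of_dominated_of_fderiv_le (s := Metric.ball x 1)
      (F' := fun x' y => Real.exp (-W y + a⁻¹ * inner ℝ x' y) • ((a⁻¹ * f y) • innerSL ℝ y))
      (bound := fun y => Real.exp (-W y + a⁻¹ * ((‖x‖ + 1) * ‖y‖)) • ‖(a⁻¹ * f y) • innerSL ℝ y‖)
      (Metric.ball_mem_nhds x one_pos)
      (Filter.Eventually.of_forall fun x' => ((hw x').mul hf).aestronglyMeasurable)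
      (hint f hf hp) ((hw x).smul hgc).aestronglyMeasurable
      (Filter.Eventually.of_forall fun y x' hx' => ?_) ?_
      (Filter.Eventually.of_forall fun y x' _ => ?_)
    · rw [norm_smul, Real.norm_of_nonneg (Real.exp_pos _).le, smul_eq_mul]
      refine mul_le_mul_of_nonneg_right (hle x' _ ?_ y) (norm_nonneg _)
      have := norm_add_le x (x' - x)
      have h2 : ‖x' - x‖ < 1 := by simpa [dist_eq_norm] using hx'
      simp only [add_sub_cancel] at this; linarith
    · exact integrable_pg_gauss hgc.norm.aestronglyMeasurable (hgp.of_le 1 (by simp))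
        (by fun_prop) (c := 1 / a / 2) (by positivity) _ _ (hb _)
    · have h1 : HasFDerivAt (fun x' : E d => inner ℝ x' y) (innerSL ℝ y) x' := by
        have := (innerSL ℝ y).hasFDerivAt (x := x')
        convert this using 1; funext z; simp [real_inner_comm]
      have h2 := (((h1.const_mul a⁻¹).const_add (-W y)).exp).mul_const (f y)
      refine h2.congr_fderiv ?_
      ext k; simp; ring
  · rw [ContinuousLinearMap.integral_apply (hint _ hgc hgp), Jf, ← integral_const_mul]
    congr 1; funext y; simp [W, real_inner_comm]; ring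

theorem postAPI : PostAPI := by
  intro d U β a h ha f hf hp
  have key : ∀ x, ∃ L : E d →L[ℝ] ℝ, HasFDerivAt (fun x => ∫ y, f y ∂(post U x a)) L x ∧
      ∀ k, L k = a⁻¹ * (∫ y, f y * inner ℝ k y ∂(post U x a) -
        (∫ y, f y ∂(post U x a)) * ∫ y, inner ℝ k y ∂(post U x a)) := by
    intro x
    obtain ⟨L1, h1, e1⟩ := hasFDerivAt_Jf h ha hf hp x
    obtain ⟨L2, h2, e2⟩ := hasFDerivAt_Jf h ha (f := fun _ => 1) continuous_const (PG.const 1) x
    have hp0 := (Jf_one_pos h ha x).ne'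
    have h3 := h1.mul ((hasDerivAt_inv hp0).comp_hasFDerivAt x h2)
    refine ⟨_, by
      simp only [post_integral_eq h ha, div_eq_mul_inv]; exact h3, fun k => ?_⟩
    simp only [post_integral_eq h ha, ContinuousLinearMap.add_apply, ContinuousLinearMap.smul_apply,
      e1, e2, smul_eq_mul, one_mul, Function.comp]
    field_simp; ring
  refine ⟨fun x => (key x).choose_spec.1.differentiableAt, fun x k => ?_⟩
  obtain ⟨L, h1, h2⟩ := key x
  rw [h1.fderiv, h2]

end Crest.Agent.LCS
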