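import Mathlib
import Crest.Agent.LCS.AF1
import Crest.Agent.LCS.Gibbs

/-! Job B2: dimension-free bounds for all flattenings of the cumulant tensors. -/

set_option autoImplicit false
open Finset Function MeasureTheory

namespace Crest.Agent.LCS
namespace AFx

structure Par where
  d : ℕ
  U : E d → ℝ
  v : ℝ
  q : ℝ × E d
  hv : 0 < v
  hU : HessB U 0 (2 * v)

variable {d : ℕ}

theorem aa_bd (hP : PsiAPI) (t : ℝ) : 3 / 4 < aa t ∧ aa t ≤ 1 := by
  have := abs_lt.1 (hP.2.2.1 t)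
  unfold aa
  constructor <;> nlinarith [this.1, this.2, sq_nonneg (rr t)]

theorem post_int {U : E d → ℝ} {β a : ℝ} (hU : HessB U 0 β) (ha : 0 < a) (x : E d) :
    ∀ f, Cl f → Integrable f (post U x a) := fun f hf =>
  ((gibbsAPI d _ _ _ (by positivity) ((hessAPI d U 0 β le_rfl hU).2.2.2.2.2.2.2.2.2 x a ha).1).2.2.1
    ℝ f hf.1.continuous hf.2.1).1

theorem post_pr {U : E d → ℝ} {β a : ℝ} (hU : HessB U 0 β) (ha : 0 < a) (x : E d) :
    IsProbabilityMeasure (post U x a) :=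
  (gibbsAPI d _ _ _ (by positivity) ((hessAPI d U 0 β le_rfl hU).2.2.2.2.2.2.2.2.2 x a ha).1).1

theorem cl_grad {U : E d → ℝ} {β : ℝ} (hU : HessB U 0 β) (j : Fin d) :
    Cl fun y => gradient U y j := by
  obtain ⟨-, -, -, h1, h2, -, h3, -⟩ := hessAPI d U 0 β le_rfl hU
  exact cl_clm_comp h1 h3 ((PG.const |β|).of_le 1 fun y => by simpa using h2 y) j

theorem poinc (hPO : PO) {U : E d → ℝ} {β a : ℝ} (hU : HessB U 0 β) (ha : 0 < a) (x : E d)
    {f R : E d → ℝ} (hf : Cl f) (hR : Cl R) (h0 : ∫ y, f y ∂(post U x a) = 0)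
    (h : ∀ y, ∑ i, fderiv ℝ f y (EuclideanSpace.single i 1) ^ 2 ≤ R y) :
    ∫ y, f y ^ 2 ∂(post U x a) ≤ a * ∫ y, R y ∂(post U x a) := by
  have := hPO d _ _ _ (by positivity) ((hessAPI d U 0 β le_rfl hU).2.2.2.2.2.2.2.2.2 x a ha).1 f
    hf.1 hf.2.1 hf.2.2
  change ∫ y, f y ^ 2 ∂(post U x a) - (∫ y, f y ∂(post U x a)) ^ 2 ≤
    _ * ∫ y, ‖fderiv ℝ f y‖ ^ 2 ∂(post U x a) at this
  rw [h0] at this
  simp only [zero_add, one_div, inv_inv] at this
  refine le_trans (by simpa using this) (mul_le_mul_of_nonneg_left ?_ ha.le)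
  exact integral_mono_of_nonneg (ae_of_all _ fun y => by positivity) (post_int hU ha x R hR)
    (ae_of_all _ fun y => by simpa only [norm_sq_eq_sum] using h y)

theorem post_deriv {U : E d → ℝ} {β a : ℝ} (hU : HessB U 0 β) (ha : 0 < a) {f : E d → ℝ}
    (hf : Cl f) (x : E d) (k : Fin d) :
    HasLineDerivAt ℝ (fun x => ∫ y, f y ∂(post U x a))
      (∫ y, f y * (a⁻¹ * y k) ∂(post U x a) -
        (∫ y, f y ∂(post U x a)) * ∫ y, a⁻¹ * y k ∂(post U x a)) x (EuclideanSpace.single k 1) := by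
  obtain ⟨h1, h2⟩ := postAPI d U β a hU ha f hf.1.continuous hf.2.1
  have h3 := (h1 x).hasFDerivAt.hasLineDerivAt (EuclideanSpace.single k 1)
  rw [h2] at h3
  simp only [EuclideanSpace.inner_single_left, map_one, one_mul] at h3
  simp only [mul_left_comm _ a⁻¹, integral_const_mul, ← mul_sub]
  exact h3

theorem S_deriv (hP : PsiAPI) {U : E d → ℝ} {β : ℝ} (hU : HessB U 0 β) (μ : Multiset (Fin d))
    (t : ℝ) (x : E d) (k : Fin d) :
    HasLineDerivAt ℝ (fun x => S U μ (t, x)) (S U (k ::ₘ μ) (t, x)) x (EuclideanSpace.single k 1) := by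
  have hψ := (hP.2.2.2.2 d U β hU).1
  have h1 : HasFDerivAt (fun x : E d => (t, x)) (ContinuousLinearMap.inr ℝ ℝ (E d)) x :=
    hasFDerivAt_prodMk_right t x
  have h2 := ((tg_diff (tg_pdm ex μ hψ) (t, x)).hasFDerivAt.comp x h1).hasLineDerivAt
    (EuclideanSpace.single k 1)
  unfold S
  rw [pdm_cons ex k μ hψ]
  exact h2

noncomputable def mS (U : E d → ℝ) (q : ℝ × E d) (I : ℕ → Fin d) : SA :=
  EX (post U q.2 (aa q.1)) (eS (aa q.1) I)
noncomputable def nS (U : E d → ℝ) (q : ℝ × E d) (j : Fin d) (I : ℕ → Fin d) : SA :=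
  EX (post U q.2 (aa q.1)) fun y => SA.sm (gradient U y j) (eS (aa q.1) I y)
noncomputable def sS (U : E d → ℝ) (q : ℝ × E d) (j : Fin d) (I : ℕ → Fin d) : SA :=
  fun A => S U (j ::ₘ A.val.map I) q

theorem mS_empty {U : E d → ℝ} {β : ℝ} (hP : PsiAPI) (hU : HessB U 0 β) (q : ℝ × E d)
    (I : ℕ → Fin d) : mS U q I ∅ = 1 := by
  have := post_pr hU (by linarith [(aa_bd hP q.1).1] : 0 < aa q.1) q.2
  simp [mS, EX, eS]

/-- moment-cumulant recursion -/
theorem mc {U : E d → ℝ} {β : ℝ} (hP : PsiAPI) (hU : HessB U 0 β) (q : ℝ × E d) (j : Fin d)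
    (I : ℕ → Fin d) : nS U q j I = sS U q j I * mS U q I := by
  obtain ⟨t, x⟩ := q
  have ha : 0 < aa t := by linarith [(aa_bd hP t).1]
  funext A
  induction A using Finset.induction_on generalizing x with
  | empty =>
    rw [SA.mul_empty, mS_empty hP hU, mul_one]
    have h1 := (hP.2.2.2.2 d U β hU).2.1 j (t, x)
    simp only [nS, EX, SA.sm, eS, sS, prod_empty, mul_one, empty_val, Multiset.map_zero,
      Multiset.cons_zero, h1, gv]
    obtain ⟨-, -, -, h2, -, -, h3, -⟩ := hessAPI d U 0 β le_rfl hU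
    have h4 := ((gibbsAPI d _ _ _ (by positivity)
      ((hessAPI d U 0 β le_rfl hU).2.2.2.2.2.2.2.2.2 x _ ha).1).2.2.1 _ _ h2.continuous h3).1
    exact (EuclideanSpace.proj j : E d →L[ℝ] ℝ).integral_comp_comm h4
  | insert s A hs ih =>
    set m1 := ∫ y, (aa t)⁻¹ * y (I s) ∂(post U x (aa t))
    have he : ∀ B ⊆ A, ∀ y, eS (aa t) I y (insert s B) = eS (aa t) I y B * ((aa t)⁻¹ * y (I s)) :=
      fun B hB y => by simp only [eS]; rw [prod_insert fun h => hs (hB h), mul_comm]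
    have h1 : HasLineDerivAt ℝ (fun x => nS U (t, x) j I A)
        (nS U (t, x) j I (insert s A) - nS U (t, x) j I A * m1) x (EuclideanSpace.single (I s) 1) := by
      have e : nS U (t, x) j I (insert s A) = ∫ y, gradient U y j * eS (aa t) I y A *
          ((aa t)⁻¹ * y (I s)) ∂(post U x (aa t)) := by
        show ∫ y, gradient U y j * eS (aa t) I y (insert s A) ∂(post U x (aa t)) = _
        simp only [he A subset_rfl, mul_assoc]
      rw [e]
      exact post_deriv hU ha ((cl_grad hU j).mul (eS_cl (aa t) I A)) x (I s)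
    have h2 : ∀ B ⊆ A, HasLineDerivAt ℝ (fun x => mS U (t, x) I B)
        (mS U (t, x) I (insert s B) - mS U (t, x) I B * m1) x (EuclideanSpace.single (I s) 1) := by
      intro B hB
      have e : mS U (t, x) I (insert s B) = ∫ y, eS (aa t) I y B *
          ((aa t)⁻¹ * y (I s)) ∂(post U x (aa t)) := by
        show ∫ y, eS (aa t) I y (insert s B) ∂(post U x (aa t)) = _
        simp only [he B hB]
      rw [e]
      exact post_deriv hU ha (eS_cl (aa t) I B) x (I s)
    have h3 : ∀ B ⊆ A, HasLineDerivAt ℝ (fun x => sS U (t, x) j I B)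
        (sS U (t, x) j I (insert s B)) x (EuclideanSpace.single (I s) 1) := by
      intro B hB
      have e : sS U (t, x) j I (insert s B) = S U (I s ::ₘ j ::ₘ B.val.map I) (t, x) := by
        show S U (j ::ₘ (insert s B).val.map I) (t, x) = _
        rw [map_insert fun h => hs (hB h), Multiset.cons_swap]
      rw [e]
      exact S_deriv hP hU (j ::ₘ B.val.map I) t x (I s)
    have h4 : HasLineDerivAt ℝ (fun x => nS U (t, x) j I A) (∑ B ∈ A.powerset,
        (sS U (t, x) j I (insert s B) * mS U (t, x) I (A \ B) + sS U (t, x) j I B *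
          (mS U (t, x) I (insert s (A \ B)) - mS U (t, x) I (A \ B) * m1))) x
        (EuclideanSpace.single (I s) 1) := by
      simp only [ih, SA.mul_apply]
      refine HasDerivAt.fun_sum fun B hB => ?_
      have := HasDerivAt.fun_mul (h3 B (mem_powerset.1 hB)) (h2 (A \ B) sdiff_subset)
      simpa using this
    have h5 := h1.unique h4
    rw [SA.mul_insert _ _ hs, sub_eq_iff_eq_add.1 h5, ih]
    simp only [SA.mul_apply, SA.sft, sum_mul, ← sum_add_distrib]
    exact Finset.sum_congr rfl fun B _ => by ring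

noncomputable def cS (U : E d → ℝ) (q : ℝ × E d) (I : ℕ → Fin d) : SA := SA.inv (mS U q I)
noncomputable def pS (U : E d → ℝ) (q : ℝ × E d) (I : ℕ → Fin d) (y : E d) : SA :=
  eS (aa q.1) I y * cS U q I
noncomputable def qS (U : E d → ℝ) (q : ℝ × E d) (j : Fin d) (I : ℕ → Fin d) (y : E d) : SA :=
  SA.sm (gradient U y j) (eS (aa q.1) I y) * cS U q I - pS U q I y * sS U q j I

theorem c_mul_m {U : E d → ℝ} {β : ℝ} (hP : PsiAPI) (hU : HessB U 0 β) (q : ℝ × E d)
    (I : ℕ → Fin d) : cS U q I * mS U q I = 1 := SA.inv_mul _ (mS_empty hP hU q I)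

theorem pS_cl (U : E d → ℝ) (q : ℝ × E d) (I : ℕ → Fin d) : ClS (pS U q I) :=
  (eS_cl _ _).mul (ClS.const _)

theorem qS_cl {U : E d → ℝ} {β : ℝ} (hU : HessB U 0 β) (q : ℝ × E d) (j : Fin d)
    (I : ℕ → Fin d) : ClS (qS U q j I) :=
  ((ClS.sm (cl_grad hU j) (eS_cl _ _)).mul (ClS.const _)).sub ((pS_cl _ _ _).mul (ClS.const _))

theorem loc_cS (U : E d → ℝ) (q : ℝ × E d) : Loc (cS U q) := (Loc.EX _ (loc_eS _)).inv

theorem loc_pS (U : E d → ℝ) (q : ℝ × E d) (y : E d) : Loc fun I => pS U q I y :=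
  (loc_eS _ y).mul (loc_cS U q)

theorem loc_sS (U : E d → ℝ) (q : ℝ × E d) (j : Fin d) : Loc (sS U q j) :=
  fun A I I' h => congrArg (fun μ => S U (j ::ₘ μ) q) (dep_map A I I' h)

theorem loc_qS (U : E d → ℝ) (q : ℝ × E d) (j : Fin d) (y : E d) : Loc fun I => qS U q j I y := by
  intro A I I' h
  simp only [qS, SA.sub_apply, SA.sm_mul]
  exact congrArg₂ (fun a b => gradient U y j * a - b) (loc_pS U q y A I I' h)
    (((loc_pS U q y).mul (loc_sS U q j)) A I I' h)

theorem EX_pS {U : E d → ℝ} {β : ℝ} (hP : PsiAPI) (hU : HessB U 0 β) (q : ℝ × E d)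
    (I : ℕ → Fin d) : EX (post U q.2 (aa q.1)) (pS U q I) = 1 := by
  have hI := post_int hU (by linarith [(aa_bd hP q.1).1] : 0 < aa q.1) q.2
  rw [← c_mul_m hP hU q I, mul_comm]
  exact EX_mul hI (eS_cl _ _) _

theorem EX_qS {U : E d → ℝ} {β : ℝ} (hP : PsiAPI) (hU : HessB U 0 β) (q : ℝ × E d) (j : Fin d)
    (I : ℕ → Fin d) : EX (post U q.2 (aa q.1)) (qS U q j I) = 0 := by
  have hI := post_int hU (by linarith [(aa_bd hP q.1).1] : 0 < aa q.1) q.2
  unfold qS
  rw [EX_sub hI ((ClS.sm (cl_grad hU j) (eS_cl _ _)).mul (ClS.const _))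
    ((pS_cl _ _ _).mul (ClS.const _)), EX_mul hI (ClS.sm (cl_grad hU j) (eS_cl _ _)),
    EX_mul hI (pS_cl _ _ _), EX_pS hP hU]
  change nS U q j I * _ - _ = 0
  rw [mc hP hU, mul_assoc, mul_comm (mS U q I), c_mul_m hP hU]; ring

theorem dS_pS (U : E d → ℝ) (q : ℝ × E d) (I : ℕ → Fin d) (i : Fin d) (y : E d) :
    dS i (pS U q I) y = lw (aa q.1) i I * pS U q I y := by
  unfold pS; rw [dS_mul _ (eS_cl _ _), dS_eS, mul_assoc]

theorem dS_qS {U : E d → ℝ} {β : ℝ} (hU : HessB U 0 β) (q : ℝ × E d) (j : Fin d) (I : ℕ → Fin d)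
    (i : Fin d) (y : E d) : dS i (qS U q j I) y =
      SA.sm (fderiv ℝ (fun y => gradient U y j) y (EuclideanSpace.single i 1)) (pS U q I y) +
        lw (aa q.1) i I * qS U q j I y := by
  unfold qS
  rw [dS_sub _ ((ClS.sm (cl_grad hU j) (eS_cl _ _)).mul (ClS.const _))
    ((pS_cl _ _ _).mul (ClS.const _)), dS_mul _ (ClS.sm (cl_grad hU j) (eS_cl _ _)),
    dS_mul _ (pS_cl _ _ _), dS_pS, dS_sm _ (cl_grad hU j) (eS_cl _ _), dS_eS, add_mul, SA.sm_mul,
    SA.sm_mul, SA.sm_mul, mul_sub, mul_comm (lw _ _ _) (SA.sm _ _), SA.sm_mul,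
    mul_comm (_ * cS U q I) (lw _ _ _), ← mul_assoc (lw _ _ _) (eS _ _ _)]
  unfold pS; ring

theorem int_so {ν : Measure (E d)} (hI : ∀ f, Cl f → Integrable f ν) (α : Finset ℕ)
    (T : (ℕ → Fin d) → ℝ) {F : (ℕ → Fin d) → E d → ℝ} (hF : ∀ I, Cl (F I)) (I : ℕ → Fin d) :
    ∫ y, so α (fun I' => T I' * F I' y) I ∂ν = so α (fun I' => T I' * ∫ y, F I' y ∂ν) I := by
  unfold so
  rw [integral_finsetSum _ fun z _ => hI _ ((Cl.const _).mul (hF _))]
  simp only [integral_const_mul]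

theorem fderiv_so (α : Finset ℕ) (T : (ℕ → Fin d) → ℝ) {F : (ℕ → Fin d) → E d → ℝ}
    (hF : ∀ I, Cl (F I)) (I : ℕ → Fin d) (y h : E d) :
    fderiv ℝ (fun y => so α (fun I' => T I' * F I' y) I) y h =
      so α (fun I' => T I' * fderiv ℝ (F I') y h) I := by
  unfold so
  rw [fderiv_fun_sum fun z _ => ((Cl.const _).mul (hF _)).diff y]
  simp only [ContinuousLinearMap.sum_apply]
  refine Finset.sum_congr rfl fun z _ => ?_
  rw [fderiv_const_mul ((hF _).diff y)]; rfl

theorem inv_sq_le {a : ℝ} (h : 3 / 4 < a) : a * a⁻¹ ^ 2 ≤ 2 := by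
  have : a * a⁻¹ ^ 2 = a⁻¹ := by field_simp
  rw [this, inv_le_comm₀ (by linarith) (by norm_num)]; linarith

theorem pb (hP : PsiAPI) (hPO : PO) (A : Finset ℕ) : ∃ C : ℝ, 0 ≤ C ∧ ∀ (p : Par)
    (T : (ℕ → Fin p.d) → ℝ) I,
    ∫ y, so A (fun I' => T I' * pS p.U p.q I' y A) I ^ 2 ∂(post p.U p.q.2 (aa p.q.1)) ≤
      C * so A (fun I' => T I' ^ 2) I := by
  induction A using Finset.strongInduction with
  | H A ih =>
    by_cases hA : A = ∅
    · subst hA
      refine ⟨1, zero_le_one, fun p T I => ?_⟩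
      have := post_pr p.hU (by linarith [(aa_bd hP p.q.1).1] : 0 < aa p.q.1) p.q.2
      have e : ∀ y, pS p.U p.q I y ∅ = 1 := fun y => by
        rw [pS, SA.mul_empty, cS, SA.inv_eq]; simp [eS]
      simp [e]
    · choose! C hC0 hC using fun s (hs : s ∈ A) => ih (A.erase s) (erase_ssubset hs)
      have hS : 0 ≤ ∑ s ∈ A, C s := sum_nonneg hC0
      refine ⟨2 * (A.card * ∑ s ∈ A, C s), by positivity, fun p T I => ?_⟩
      have ha := aa_bd hP p.q.1
      have ha0 : 0 < aa p.q.1 := by linarith [ha.1]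
      have hI := post_int p.hU ha0 p.q.2
      have h1 := lin_bound hI (aa p.q.1) (subset_refl A) (pS p.U p.q) (pS_cl _ _)
        (fun s _ I k y => (loc_pS _ _ y _).update (notMem_erase s A) I k) C (fun s hs => hC s hs p) T I
      refine (poinc hPO p.hU ha0 p.q.2 (Cl.so _ (fun I' => (Cl.const _).mul (pS_cl _ _ I' A)) I)
        (Cl.sum _ fun i _ => (Cl.so _ (fun I' => (Cl.const _).mul
          (((ClS.const (lw (aa p.q.1) i I')).mul (pS_cl p.U p.q I')) A)) I).sq) ?_
        fun y => le_of_eq ?_).trans ((mul_le_mul_of_nonneg_left h1 ha0.le).trans ?_)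
      · rw [int_so hI _ _ fun I' => pS_cl _ _ I' A]
        have : ∀ I', ∫ y, pS p.U p.q I' y A ∂(post p.U p.q.2 (aa p.q.1)) = 0 := fun I' => by
          have := congrFun (EX_pS hP p.hU p.q I') A
          rwa [SA.one_apply, if_neg hA] at this
        simp [this]
      · refine Finset.sum_congr rfl fun i _ => ?_
        rw [fderiv_so _ _ fun I' => pS_cl _ _ I' A]
        simp only [← dS_pS]; rfl
      · have h2 := inv_sq_le ha.1
        have h3 : 0 ≤ (A.card * ∑ s ∈ A, C s) * so A (fun I' => T I' ^ 2) I :=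
          mul_nonneg (by positivity) (so_nonneg (fun _ => sq_nonneg _) _)
        nlinarith [mul_le_mul_of_nonneg_right h2 h3]

theorem hess_bound {U : E d → ℝ} {β : ℝ} (hU : HessB U 0 β) (y : E d) (w : Fin d → ℝ) :
    ∑ i, (∑ j, fderiv ℝ (fun y => gradient U y j) y (EuclideanSpace.single i 1) * w j) ^ 2 ≤
      β ^ 2 * ∑ j, w j ^ 2 := by
  obtain ⟨-, -, -, h1, h2, -⟩ := hessAPI d U 0 β le_rfl hU
  let L := (innerSL ℝ (WithLp.toLp 2 w : E d)).comp (fderiv ℝ (gradient U) y)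
  have e : ∀ i, ∑ j, fderiv ℝ (fun y => gradient U y j) y (EuclideanSpace.single i 1) * w j =
      L (EuclideanSpace.single i 1) := by
    intro i
    simp only [L, ContinuousLinearMap.comp_apply, innerSL_apply_apply, PiLp.inner_apply]
    refine Finset.sum_congr rfl fun j _ => ?_
    have : (fun y => gradient U y j) = (EuclideanSpace.proj j : E d →L[ℝ] ℝ) ∘ gradient U := rfl
    rw [this, fderiv_comp y (ContinuousLinearMap.differentiableAt _) (h1.differentiable (by simp) y),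
      ContinuousLinearMap.fderiv]
    simp
  simp only [e]
  rw [← norm_sq_eq_sum, ← sq_abs β]
  have h3 : ‖L‖ ≤ |β| * ‖(WithLp.toLp 2 w : E d)‖ := by
    refine (ContinuousLinearMap.opNorm_comp_le _ _).trans ?_
    rw [innerSL_apply_norm, mul_comm]
    exact mul_le_mul_of_nonneg_right (h2 y) (norm_nonneg _)
  refine (pow_le_pow_left₀ (norm_nonneg _) h3 2).trans (le_of_eq ?_)
  rw [mul_pow, EuclideanSpace.real_norm_sq_eq]

theorem qb (hP : PsiAPI) (hPO : PO) (s₀ : ℕ) (A : Finset ℕ) (hs₀ : s₀ ∉ A) : ∃ C : ℝ, 0 ≤ C ∧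
    ∀ (p : Par) (T : (ℕ → Fin p.d) → ℝ) I,
    ∫ y, so (insert s₀ A) (fun I' => T I' * qS p.U p.q (I' s₀) I' y A) I ^ 2
      ∂(post p.U p.q.2 (aa p.q.1)) ≤ C * p.v ^ 2 * so (insert s₀ A) (fun I' => T I' ^ 2) I := by
  induction A using Finset.strongInduction with
  | H A ih =>
    choose! C hC0 hC using fun s (hs : s ∈ A) =>
      ih (A.erase s) (erase_ssubset hs) fun h => hs₀ (mem_of_mem_erase h)
    obtain ⟨CP, hCP0, hCP⟩ := pb hP hPO A
    have hS : 0 ≤ ∑ s ∈ A, C s := sum_nonneg hC0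
    refine ⟨8 * CP + 4 * (A.card * ∑ s ∈ A, C s), by positivity, fun p T I => ?_⟩
    have ha := aa_bd hP p.q.1
    have ha0 : 0 < aa p.q.1 := by linarith [ha.1]
    have hI := post_int p.hU ha0 p.q.2
    have hne : ∀ s ∈ A, s₀ ≠ s := fun s hs h => hs₀ (h ▸ hs)
    have h1 := lin_bound hI (aa p.q.1) (subset_insert s₀ A) (fun I => qS p.U p.q (I s₀) I)
      (fun I => qS_cl p.hU _ _ _)
      (fun s hs I k y => by
        simp only [update_of_ne (hne s hs)]
        exact (loc_qS _ _ _ y _).update (notMem_erase s A) I k) (fun s => C s * p.v ^ 2)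
      (fun s hs => by rw [erase_insert_of_ne (hne s hs)]; exact hC s hs p) T I
    let w := fun (j : Fin p.d) y => so A (fun I' => T (update I' s₀ j) * pS p.U p.q I' y A) I
    have hw : ∀ j, Cl (w j) := fun j => Cl.so _ (fun I' => (Cl.const _).mul (pS_cl _ _ I' A)) I
    have hl : Cl fun y => ∑ i, so (insert s₀ A) (fun I' => T I' *
        (lw (aa p.q.1) i I' * qS p.U p.q (I' s₀) I' y) A) I ^ 2 :=
      Cl.sum _ fun i _ => (Cl.so _ (fun I' => (Cl.const _).mul
        (((ClS.const (lw (aa p.q.1) i I')).mul (qS_cl p.hU p.q _ I')) A)) I).sq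
    have hw2 : Cl fun y => ∑ j, w j y ^ 2 := Cl.sum _ fun j _ => (hw j).sq
    have h2 : ∫ y, ∑ j, w j y ^ 2 ∂(post p.U p.q.2 (aa p.q.1)) ≤
        CP * so (insert s₀ A) (fun I' => T I' ^ 2) I := by
      rw [integral_finsetSum _ fun j _ => hI _ (hw j).sq, so_insert' hs₀, so_sum, mul_sum]
      exact Finset.sum_le_sum fun j _ => hCP p _ I
    refine (poinc hPO p.hU ha0 p.q.2 (Cl.so _ (fun I' => (Cl.const _).mul (qS_cl p.hU _ _ I' A)) I)
      (((Cl.const (2 * (2 * p.v) ^ 2)).mul hw2).add ((Cl.const 2).mul hl)) ?_ fun y => ?_).trans ?_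
    · rw [int_so hI _ _ fun I' => qS_cl p.hU _ _ I' A]
      have : ∀ I', ∫ y, qS p.U p.q (I' s₀) I' y A ∂(post p.U p.q.2 (aa p.q.1)) = 0 := fun I' =>
        congrFun (EX_qS hP p.hU p.q _ I') A
      simp [this]
    · have h3 := hess_bound p.hU y fun j => w j y
      have e : ∀ i, fderiv ℝ (fun y => so (insert s₀ A)
          (fun I' => T I' * qS p.U p.q (I' s₀) I' y A) I) y (EuclideanSpace.single i 1) =
          ∑ j, fderiv ℝ (fun y => gradient p.U y j) y (EuclideanSpace.single i 1) * w j y +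
          so (insert s₀ A) (fun I' => T I' *
            (lw (aa p.q.1) i I' * qS p.U p.q (I' s₀) I' y) A) I := by
        intro i
        rw [fderiv_so _ _ fun I' => qS_cl p.hU _ _ I' A]
        have : ∀ I', fderiv ℝ (fun y => qS p.U p.q (I' s₀) I' y A) y (EuclideanSpace.single i 1) =
          _ := fun I' => congrFun (dS_qS p.hU p.q (I' s₀) I' i y) A
        simp only [this, SA.add_apply, mul_add, so_add, SA.sm]
        congr 1
        rw [so_insert' hs₀, so_sum]
        refine Finset.sum_congr rfl fun j _ => ?_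
        rw [← so_const_mul]
        congr 1; funext I'
        have e2 : pS p.U p.q (update I' s₀ j) y A = pS p.U p.q I' y A :=
          (loc_pS p.U p.q y A).update hs₀ I' j
        rw [update_self, e2]; ring
      simp only [e]
      refine le_trans (Finset.sum_le_sum fun i _ => add_sq_le) ?_
      simp only [mul_add, sum_add_distrib, ← mul_sum]
      linarith
    · rw [integral_add (hI _ ((Cl.const _).mul hw2)) (hI _ ((Cl.const _).mul hl)),
        integral_const_mul, integral_const_mul]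
      have h4 := inv_sq_le ha.1
      set Y := so (insert s₀ A) (fun I' => T I' ^ 2) I
      have hY : 0 ≤ Y := so_nonneg (fun _ => sq_nonneg _) _
      rw [← sum_mul] at h1
      have h5 : 0 ≤ (A.card * ∑ s ∈ A, C s) * p.v ^ 2 * Y := by positivity
      have h6 : 0 ≤ CP * p.v ^ 2 * Y := by positivity
      have h7 := mul_le_mul_of_nonneg_left h1 ha0.le
      have h8 := mul_le_mul_of_nonneg_left h2 (by positivity : 0 ≤ aa p.q.1 * p.v ^ 2)
      nlinarith [mul_le_mul_of_nonneg_right h4 h5, mul_le_mul_of_nonneg_right ha.2 h6]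

theorem mb (hP : PsiAPI) (hPO : PO) {α β : Finset ℕ} (hd : Disjoint α β) : ∃ C : ℝ, 0 ≤ C ∧
    ∀ p : Par, OB α β
      (fun I => ∫ y, pS p.U p.q I y α * pS p.U p.q I y β ∂(post p.U p.q.2 (aa p.q.1))) C := by
  obtain ⟨C, h0, hC⟩ := pb hP hPO α
  obtain ⟨C', h0', hC'⟩ := pb hP hPO β
  exact ⟨C * C', by positivity, fun p => ob_of_bilin
    (post_int p.hU (by linarith [(aa_bd hP p.q.1).1]) p.q.2) hd _ _ (fun I => pS_cl _ _ I α)
    (fun I => pS_cl _ _ I β) (fun y => loc_pS _ _ y α) (fun y => loc_pS _ _ y β) h0 h0' (hC p) (hC' p)⟩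

def OBv (α β : Finset ℕ) (K : (p : Par) → (ℕ → Fin p.d) → ℝ) : Prop :=
  ∃ C : ℝ, 0 ≤ C ∧ ∀ p : Par, OB α β (K p) (C * p.v ^ 2)

theorem nb (hP : PsiAPI) (hPO : PO) {s₀ : ℕ} {A β : Finset ℕ} (hs₀ : s₀ ∉ A)
    (hd : Disjoint (insert s₀ A) β) : OBv (insert s₀ A) β fun p I =>
      ∫ y, qS p.U p.q (I s₀) I y A * pS p.U p.q I y β ∂(post p.U p.q.2 (aa p.q.1)) := by
  obtain ⟨C, h0, hC⟩ := qb hP hPO s₀ A hs₀
  obtain ⟨C', h0', hC'⟩ := pb hP hPO β
  refine ⟨C * C', by positivity, fun p => ?_⟩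
  rw [mul_right_comm]
  refine ob_of_bilin (post_int p.hU (by linarith [(aa_bd hP p.q.1).1]) p.q.2) hd _ _
    (fun I => qS_cl p.hU _ _ I A) (fun I => pS_cl _ _ I β) (fun y I I' h => ?_)
    (fun y => loc_pS _ _ y β) (by positivity) h0' (hC p) (hC' p)
  show qS p.U p.q (I s₀) I y A = qS p.U p.q (I' s₀) I' y A
  rw [h s₀ (mem_insert_self _ _)]
  exact loc_qS _ _ _ y A I I' fun i hi => h i (mem_insert_of_mem hi)

theorem OBv.add {α β : Finset ℕ} {K L : (p : Par) → (ℕ → Fin p.d) → ℝ} (h : OBv α β K)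
    (h' : OBv α β L) : OBv α β fun p I => K p I + L p I := by
  obtain ⟨C, h0, hC⟩ := h
  obtain ⟨C', h0', hC'⟩ := h'
  refine ⟨2 * C + 2 * C', by positivity, fun p => ?_⟩
  have := (hC p).add (hC' p)
  rwa [show 2 * (C * p.v ^ 2) + 2 * (C' * p.v ^ 2) = (2 * C + 2 * C') * p.v ^ 2 by ring] at this

theorem OBv.neg {α β : Finset ℕ} {K : (p : Par) → (ℕ → Fin p.d) → ℝ} (h : OBv α β K) :
    OBv α β fun p I => -K p I := h.imp fun _ h => ⟨h.1, fun p => (h.2 p).neg⟩

theorem OBv.zero (α β : Finset ℕ) : OBv α β fun _ _ => 0 :=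
  ⟨0, le_rfl, fun p => by rw [zero_mul]; exact OB.zero _ _⟩

theorem OBv.sum {ι : Type} {α β : Finset ℕ} (s : Finset ι)
    {K : ι → (p : Par) → (ℕ → Fin p.d) → ℝ} (h : ∀ i ∈ s, OBv α β (K i)) :
    OBv α β fun p I => ∑ i ∈ s, K i p I := by
  classical
  induction s using Finset.induction_on with
  | empty => simpa using OBv.zero α β
  | insert i s hi ih =>
    simp only [sum_insert hi]
    exact (h i (mem_insert_self _ _)).add (ih fun j hj => h j (mem_insert_of_mem hj))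

theorem ClS.res {F : E d → SA} (hF : ClS F) (p : ℕ → Prop) [DecidablePred p] :
    ClS fun y => SA.res p (F y) := fun A => by
  by_cases h : ∀ s ∈ A, p s
  · simpa only [SA.res, if_pos h] using hF A
  · simpa only [SA.res, if_neg h] using Cl.const 0

/-- the key identity -/
theorem key {U : E d → ℝ} {β : ℝ} (hP : PsiAPI) (hU : HessB U 0 β) (q : ℝ × E d) (j : Fin d)
    (I : ℕ → Fin d) (p : ℕ → Prop) [DecidablePred p] :
    EX (post U q.2 (aa q.1)) (fun y => SA.res p (qS U q j I y) * SA.res (fun s => ¬ p s) (pS U q I y)) =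
      (sS U q j I - SA.res p (sS U q j I)) * EX (post U q.2 (aa q.1))
        (fun y => SA.res p (pS U q I y) * SA.res (fun s => ¬ p s) (pS U q I y)) := by
  have hI := post_int hU (by linarith [(aa_bd hP q.1).1] : 0 < aa q.1) q.2
  set cc := SA.res p (cS U q I) * SA.res (fun s => ¬ p s) (cS U q I)
  have e1 : ∀ y, SA.res p (pS U q I y) * SA.res (fun s => ¬ p s) (pS U q I y) =
      eS (aa q.1) I y * cc := fun y => by
    unfold pS; rw [SA.res_mul, SA.res_mul, mul_mul_mul_comm, eS_res]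
  have e2 : ∀ y, SA.res p (qS U q j I y) * SA.res (fun s => ¬ p s) (pS U q I y) =
      SA.sm (gradient U y j) (eS (aa q.1) I y) * cc -
        eS (aa q.1) I y * (cc * SA.res p (sS U q j I)) := fun y => by
    unfold qS
    rw [SA.res_sub, SA.sm_mul, SA.res_sm, sub_mul, SA.sm_mul, SA.res_mul p (pS U q I y),
      mul_right_comm, e1, SA.sm_mul, mul_assoc]
    exact congrArg (fun z => SA.sm _ z - _) (e1 y)
  simp only [e1, e2]
  rw [EX_sub hI ((ClS.sm (cl_grad hU j) (eS_cl _ _)).mul (ClS.const _)) ((eS_cl _ _).mul (ClS.const _)),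
    EX_mul hI (ClS.sm (cl_grad hU j) (eS_cl _ _)), EX_mul hI (eS_cl _ _), EX_mul hI (eS_cl _ _)]
  change nS U q j I * _ - mS U q I * _ = _ * (mS U q I * _)
  rw [mc hP hU]; ring

theorem af_aux (hP : PsiAPI) (hPO : PO) (n : ℕ) : ∀ α β : Finset ℕ, (α ∪ β).card = n →
    Disjoint α β → α.Nonempty → β.Nonempty →
    OBv α β fun p I => S p.U ((α ∪ β).val.map I) p.q := by
  induction n using Nat.strong_induction_on with
  | _ n ih =>
    intro α β hn hd hα hβ
    obtain ⟨s₀, hs₀⟩ := hα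
    obtain ⟨A, hA, rfl⟩ : ∃ A, s₀ ∉ A ∧ α = insert s₀ A :=
      ⟨α.erase s₀, notMem_erase _ _, (insert_erase hs₀).symm⟩
    have hs₀β : s₀ ∉ β := disjoint_left.1 hd hs₀
    have hAβ : Disjoint A β := hd.mono_left (subset_insert _ _)
    have hs₀D : s₀ ∉ A ∪ β := by simp [hA, hs₀β]
    have f1 : (A ∪ β).filter (· ∈ A) = A := by
      ext s; simp only [mem_filter, mem_union]; tauto
    have f2 : (A ∪ β).filter (fun s => ¬ s ∈ A) = β := by
      ext s; have := @disjoint_left.1 hAβ s; simp only [mem_filter, mem_union]; tauto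
    have e : ∀ (p : Par) (I : ℕ → Fin p.d), S p.U ((insert s₀ A ∪ β).val.map I) p.q =
        ∫ y, qS p.U p.q (I s₀) I y A * pS p.U p.q I y β ∂(post p.U p.q.2 (aa p.q.1)) +
        -∑ B ∈ (A ∪ β).powerset.erase (A ∪ β),
          (sS p.U p.q (I s₀) I - SA.res (· ∈ A) (sS p.U p.q (I s₀) I)) B *
          ∫ y, pS p.U p.q I y (((A ∪ β) \ B).filter (· ∈ A)) *
            pS p.U p.q I y (((A ∪ β) \ B).filter fun s => ¬ s ∈ A) ∂(post p.U p.q.2 (aa p.q.1)) := by
      intro p I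
      have h1 := congrFun (key hP p.hU p.q (I s₀) I (· ∈ A)) (A ∪ β)
      rw [SA.mul_apply, ← Finset.add_sum_erase _ _ (mem_powerset_self _)] at h1
      simp only [EX, SA.res_mul_res, f1, f2] at h1
      have := post_pr p.hU (by linarith [(aa_bd hP p.q.1).1] : 0 < aa p.q.1) p.q.2
      have e0 : ∀ y, pS p.U p.q I y ∅ = 1 := fun y => by
        rw [pS, SA.mul_empty, cS, SA.inv_eq]; simp [eS]
      have h2 : ¬ ∀ s ∈ A ∪ β, s ∈ A := fun h => by
        obtain ⟨b, hb⟩ := hβ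
        exact disjoint_left.1 hAβ (h b (mem_union_right _ hb)) hb
      rw [h1, insert_union, map_insert hs₀D, SA.sub_apply, SA.res, if_neg h2]
      simp [e0, sS]
    simp only [e]
    refine (nb hP hPO hA hd).add (OBv.sum _ fun B hB => ?_).neg
    rw [mem_erase, mem_powerset] at hB
    by_cases hBA : ∀ s ∈ B, s ∈ A
    · simpa only [SA.sub_apply, SA.res, if_pos hBA, sub_self, zero_mul] using OBv.zero _ _
    have hs₀B : s₀ ∉ B := fun h => hs₀D (hB.2 h)
    have g1 : insert s₀ (B.filter (· ∈ A)) ∪ B.filter (fun s => ¬ s ∈ A) = insert s₀ B := by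
      rw [insert_union, filter_union_filter_not_eq]
    obtain ⟨C, h0, hC⟩ := ih (insert s₀ B).card
      (by rw [← hn, insert_union, card_insert_of_notMem hs₀B, card_insert_of_notMem hs₀D]
          exact Nat.succ_lt_succ (card_lt_card (lt_of_le_of_ne hB.2 hB.1)))
      (insert s₀ (B.filter (· ∈ A))) (B.filter fun s => ¬ s ∈ A) (by rw [g1])
      (disjoint_insert_left.2 ⟨fun h => hs₀B (mem_filter.1 h).1, disjoint_filter_filter_not _ _ _⟩)
      (insert_nonempty _ _)
      (by by_contra h; exact hBA fun s hs => by_contra fun h' => h ⟨s, mem_filter.2 ⟨hs, h'⟩⟩)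
    obtain ⟨C', h0', hC'⟩ := mb hP hPO (disjoint_filter_filter_not ((A ∪ β) \ B) ((A ∪ β) \ B) (· ∈ A))
    refine ⟨C * C', by positivity, fun p => ?_⟩
    have h3 := OB.mul (by positivity) (hC p) (hC' p)
      (fun I I' h => congrArg (fun μ => S p.U μ p.q) (dep_map _ I I' h))
      (fun I I' h => by
        congr 1; funext y
        exact congrArg₂ (· * ·) (loc_pS _ _ y _ I I' fun i hi => h i (mem_union_left _ hi))
          (loc_pS _ _ y _ I I' fun i hi => h i (mem_union_right _ hi)))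
      (by rw [g1, filter_union_filter_not_eq]
          exact disjoint_insert_left.2 ⟨fun h => hs₀D (mem_sdiff.1 h).1, disjoint_sdiff⟩)
    have g2 : insert s₀ (B.filter (· ∈ A)) ∪ ((A ∪ β) \ B).filter (· ∈ A) = insert s₀ A := by
      rw [insert_union, ← filter_union, union_sdiff_of_subset hB.2, f1]
    have g3 : B.filter (fun s => ¬ s ∈ A) ∪ ((A ∪ β) \ B).filter (fun s => ¬ s ∈ A) = β := by
      rw [← filter_union, union_sdiff_of_subset hB.2, f2]
    rw [g1, g2, g3, mul_right_comm] at h3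
    simpa only [SA.sub_apply, SA.res, if_neg hBA, sub_zero, sS, map_insert hs₀B] using h3

end AFx

theorem af (hP : PsiAPI) (hPO : PO) : AF := by
  intro α β hd hα hβ
  obtain ⟨C, -, hC⟩ := AFx.af_aux hP hPO _ α β rfl hd hα hβ
  exact ⟨C, fun d U v hv _ hU q => hC ⟨d, U, v, q, hv, hU⟩⟩

end Crest.Agent.LCS
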