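import Crest.Agent.LCS.Final0

/-! JOB P3: the final assembly `StepThm → Main`. -/

set_option autoImplicit false
open MeasureTheory Filter
open Crest.OracleSampling (Admissible)

namespace Crest.Agent.LCS

namespace FinX

variable {d : ℕ}

/-- an implementable law close to `piv V a` -/
def St (d q : ℕ) (a ε : ℝ) : Prop := ∃ μ : (E d → ℝ) → Unit → Measure (E d),
  Impl d q Unit μ ∧ ∀ V, Admissible d V → DL (μ V ()) (piv V a) ε

theorem St.mono {q : ℕ} {a ε ε' : ℝ} (h : St d q a ε) (hε : ε ≤ ε') : St d q a ε' := by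
  obtain ⟨μ, h1, h2⟩ := h
  exact ⟨μ, h1, fun V hV => DL_mono (h2 V hV) hε⟩

theorem St.start {a : ℝ} (ha : 0 < a) (ha1 : a ≤ 1) : St d 0 a (2 * √(d : ℝ)) :=
  ⟨_, Impl.ret (fun _ => 0) measurable_const, fun _ hV => FinX.start hV ha ha1⟩

theorem impl_bind {q q' : ℕ} {μ : (E d → ℝ) → Unit → Measure (E d)}
    {K : (E d → ℝ) → E d → Measure (E d)} (h : Impl d q Unit μ) (hK : Impl d q' (E d) K) :
    Impl d (q + q') Unit (fun V x => (μ V x).bind (K V)) :=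
  ImplX.bind h q' (fun V p => K V p.2) (ImplX.comap hK _ Prod.snd measurable_snd)

theorem St.step {q q' : ℕ} {a c s ε δ : ℝ} (h : St d q a ε) (ha : 0 < a) (ha1 : a ≤ 1)
    (hc : 0 ≤ c) (hc1 : c ≤ 1) (hs : 0 ≤ s) (hδ : 0 ≤ δ) {K : (E d → ℝ) → E d → Measure (E d)}
    (hK : Impl d q' (E d) K)
    (hQ : ∀ V, Admissible d V → ∀ y, DL (K V y) (Qk V a c s y) (δ * (‖y‖ + √(d : ℝ)))) :
    St d (q + q') (a * (1 - c ^ 2) ^ 2 + s ^ 2)
      ((1 - c ^ 2 * a / 2) * ε + δ * (3 * √(d : ℝ) + ε)) := by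
  obtain ⟨μ, h1, h2⟩ := h
  refine ⟨_, impl_bind h1 hK, fun V hV => ?_⟩
  have := (ImplX.meas h1 V hV.1).2 ()
  obtain ⟨h3, h4⟩ := ImplX.meas hK V hV.1
  exact FinX.step hV ha ha1 hc hc1 hs hδ (h2 V hV) h3 h4 (hQ V hV)

theorem St.noise {q : ℕ} {a s ε : ℝ} (h : St d q a ε) (ha : 0 < a) (ha1 : a ≤ 1) (hs : 0 ≤ s) :
    St d q (a + s ^ 2) ε := by
  have := h.step (δ := 0) ha ha1 le_rfl zero_le_one hs le_rfl (noise_impl s) fun V hV y => by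
    rw [Qk_zero (gFacts d V hV).1 ha]
    intro φ _; simp
  simpa using this

theorem iter (P : ℕ → ℝ → Prop) {ρ δ e D : ℝ} (hρ0 : 0 ≤ ρ) (hρ : ρ ≤ 1) (hδ : 0 ≤ δ)
    (he0 : 0 ≤ e) (he : e ≤ 2) (hD : 0 ≤ D) (hm : ∀ i ε ε', P i ε → ε ≤ ε' → P i ε')
    (h0 : P 0 (e * D)) (hs : ∀ i ε, P i ε → P (i + 1) (ρ * ε + δ * (3 * D + ε))) :
    ∀ i : ℕ, 6 * i * δ ≤ 1 → P i ((ρ ^ i * e + 6 * i * δ) * D) := by
  intro i
  induction i with
  | zero => intro _; simpa using h0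
  | succ i ih =>
    intro hi
    push_cast at hi ⊢
    have h1 : 6 * i * δ ≤ 1 := by linarith
    refine hm _ _ _ (hs i _ (ih h1)) ?_
    have h2 : ρ ^ i * e ≤ 2 := by nlinarith [pow_le_one₀ hρ0 hρ (n := i), pow_nonneg hρ0 i]
    have h3 : 0 ≤ 6 * i * δ := by positivity
    have h4 : δ * ((ρ ^ i * e + 6 * i * δ) * D) ≤ δ * (3 * D) :=
      mul_le_mul_of_nonneg_left (mul_le_mul_of_nonneg_right (by linarith) hD) hδ
    have h5 : ρ * (6 * i * δ * D) ≤ 6 * i * δ * D := mul_le_of_le_one_left (by positivity) hρ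
    rw [pow_succ]
    nlinarith

theorem decay {θ τ : ℝ} {N : ℕ} (h0 : 0 ≤ θ) (h1 : θ ≤ 1) (hτ : 0 < τ) (hN : 1 ≤ N * θ * τ) :
    (1 - θ) ^ N ≤ τ := by
  have a1 : 1 + N * θ ≤ (1 + θ) ^ N := one_add_mul_le_pow (by linarith) N
  have a2 : (1 - θ) ^ N * (1 + θ) ^ N ≤ 1 := by
    rw [← mul_pow]; exact pow_le_one₀ (by nlinarith) (by nlinarith)
  have a3 : 0 ≤ (1 - θ) ^ N := pow_nonneg (by linarith) N
  have a4 := mul_le_mul_of_nonneg_left a1 a3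
  have a5 := mul_le_mul_of_nonneg_left hN a3
  nlinarith

theorem ladder {A m N Q : ℕ} {τ : ℝ} (hτ : 0 < τ) (hτ2 : τ ≤ 1 / 2) (hm : 1 ≤ m)
    (hN : 2 * τ⁻¹ ^ (A + 3) ≤ N) (hs : 18 * m * N * τ ^ m ≤ 1)
    (hK : ∀ v : ℝ, 0 < v → v ≤ τ ^ A → ∃ K : (E d → ℝ) → E d → Measure (E d), Impl d Q (E d) K ∧
      ∀ V, Admissible d V → ∀ y : E d,
        DL (K V y) (Qk V v τ (τ * √(v * (1 - τ ^ 2))) y) (τ ^ m * (‖y‖ + √(d : ℝ)))) :
    ∃ μ : (E d → ℝ) → Unit → Measure (E d), Impl d (3 * m * N * Q) Unit μ ∧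
      ∀ V, Admissible d V → DL (μ V ()) (gibbs V) ((3 * τ ^ m + 18 * m * N * τ ^ m) * √(d : ℝ)) := by
  have hτ1 : τ ≤ 1 := by linarith
  have hA0 : 0 < τ ^ A := pow_pos hτ A
  have hA1 : τ ^ A ≤ 1 := pow_le_one₀ hτ.le hτ1
  have h21 : 0 < 1 - τ ^ 2 := by nlinarith
  have h22 : 1 - τ ^ 2 ≤ 1 := by nlinarith
  have hδ : 0 ≤ τ ^ m := by positivity
  have hδ2 : τ ^ m ≤ 1 / 2 := (pow_le_of_le_one hτ.le hτ1 (by omega)).trans hτ2
  have key : ∀ (v : ℝ) (q : ℕ) (ε : ℝ), 0 < v → v ≤ τ ^ A → St d q v ε →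
      St d (q + Q) (v * (1 - τ ^ 2))
        ((1 - τ ^ 2 * v / 2) * ε + τ ^ m * (3 * √(d : ℝ) + ε)) := by
    intro v q ε hv hv1 h
    obtain ⟨K, h1, h2⟩ := hK v hv hv1
    have := h.step hv (hv1.trans hA1) hτ.le hτ1 (by positivity) hδ h1 h2
    rwa [mul_pow, Real.sq_sqrt (by positivity),
      show v * (1 - τ ^ 2) ^ 2 + τ ^ 2 * (v * (1 - τ ^ 2)) = v * (1 - τ ^ 2) by ring] at this
  have hθ : τ ^ 2 * τ ^ A / 2 ≤ 1 := by nlinarith [mul_le_one₀ (by nlinarith : τ ^ 2 ≤ 1) hA0.le hA1]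
  have hmN : 0 ≤ (m : ℝ) * N * τ ^ m := by positivity
  have p1 := iter (fun i ε => St d (i * Q) (τ ^ A) ε) (ρ := 1 - τ ^ 2 * τ ^ A / 2) (δ := τ ^ m)
    (e := 2) (D := √(d : ℝ)) (by linarith) (by nlinarith [mul_pos (pow_pos hτ 2) hA0]) hδ
    (by norm_num) le_rfl (Real.sqrt_nonneg _) (fun _ _ _ h hε => h.mono hε)
    (by simpa using St.start hA0 hA1) (fun i ε h => by
      have := (key _ _ _ hA0 le_rfl h).noise (s := τ * √(τ ^ A)) (by positivity)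
        (mul_le_one₀ hA1 h21.le h22) (by positivity)
      rwa [mul_pow, Real.sq_sqrt hA0.le,
        show τ ^ A * (1 - τ ^ 2) + τ ^ 2 * τ ^ A = τ ^ A by ring, ← Nat.succ_mul] at this)
    (m * N) (by push_cast; linarith)
  have hinv : τ⁻¹ ^ (A + 3) * τ ^ (A + 3) = 1 := by
    rw [← mul_pow, inv_mul_cancel₀ hτ.ne', one_pow]
  have hN1 : 2 ≤ N * τ ^ (A + 3) := by
    have := mul_le_mul_of_nonneg_right hN (pow_pos hτ (A + 3)).le
    nlinarith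
  have d1 : (1 - τ ^ 2 * τ ^ A / 2) ^ (m * N) ≤ τ ^ m := by
    rw [mul_comm m N, pow_mul]
    refine pow_le_pow_left₀ (pow_nonneg (by linarith) _)
      (decay (by positivity) hθ hτ ?_) m
    have : (N : ℝ) * (τ ^ 2 * τ ^ A / 2) * τ = N * τ ^ (A + 3) / 2 := by ring
    linarith
  have d2 : (1 - τ ^ 2) ^ (2 * (m * N)) ≤ (τ ^ m) ^ 2 := by
    rw [mul_comm 2, pow_mul, mul_comm m N, pow_mul]
    refine pow_le_pow_left₀ (by positivity) (pow_le_pow_left₀ (by positivity)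
      (decay (by positivity) (by nlinarith) hτ ?_) m) 2
    have : (N : ℝ) * τ ^ (A + 3) = τ ^ A * (N * τ ^ 2 * τ) := by ring
    have h2 : τ ^ A * (N * τ ^ 2 * τ) ≤ N * τ ^ 2 * τ := mul_le_of_le_one_left (by positivity) hA1
    linarith
  have p1' : St d (m * N * Q) (τ ^ A) ((2 * τ ^ m + 6 * (m * N * τ ^ m)) * √(d : ℝ)) := by
    refine p1.mono (mul_le_mul_of_nonneg_right ?_ (Real.sqrt_nonneg _))
    push_cast; linarith
  have p2 := iter (fun i ε => St d (m * N * Q + i * Q) (τ ^ A * (1 - τ ^ 2) ^ i) ε) (ρ := 1)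
    (δ := τ ^ m) (e := 2 * τ ^ m + 6 * (m * N * τ ^ m)) (D := √(d : ℝ)) zero_le_one le_rfl hδ
    (by positivity) (by linarith) (Real.sqrt_nonneg _) (fun _ _ _ h hε => h.mono hε)
    (by simpa using p1') (fun i ε h => by
      have hp : (1 - τ ^ 2) ^ i ≤ 1 := pow_le_one₀ h21.le h22
      have := key _ _ _ (by positivity) (mul_le_of_le_one_right hA0.le hp) h
      rw [mul_assoc (τ ^ A), ← pow_succ, add_assoc, ← Nat.succ_mul] at this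
      obtain ⟨μ, h1, h2⟩ := this
      obtain ⟨μ', -, h4⟩ := h
      refine ⟨μ, h1, fun V hV => DL_mono (h2 V hV) ?_⟩
      have := DL_nonneg (h4 V hV)
      have : 0 ≤ τ ^ 2 * (τ ^ A * (1 - τ ^ 2) ^ i) / 2 * ε := by positivity
      linarith)
    (2 * (m * N)) (by push_cast; linarith)
  obtain ⟨μ, h1, h2⟩ := p2
  refine ⟨μ, h1.mono (le_of_eq (by ring)), fun V hV => ?_⟩
  refine DL_mono (DL_trans (h2 V hV) (piv_close (gFacts d V hV).2.1)) ?_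
  have : √(τ ^ A * (1 - τ ^ 2) ^ (2 * (m * N))) ≤ τ ^ m :=
    Real.sqrt_le_iff.2 ⟨hδ, (mul_le_of_le_one_left (by positivity) hA1).trans d2⟩
  rw [← add_mul]
  refine mul_le_mul_of_nonneg_right ?_ (Real.sqrt_nonneg _)
  rw [one_pow]; push_cast; linarith

theorem finish {q : ℕ} (hd : 1 ≤ d) {μ : (E d → ℝ) → Unit → Measure (E d)} (h : Impl d q Unit μ)
    {η : ℝ} (hη : η ≤ 1 / (12000 * (d : ℝ) ^ 2))
    (h2 : ∀ V, Admissible d V → DL (μ V ()) (gibbs V) (η * √(d : ℝ))) :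
    ∃ A : Crest.OracleSampling.QueryAlg d q, ∀ V, Admissible d V →
      Crest.OracleSampling.Succeeds A V := by
  have hd1 : (1 : ℝ) ≤ d := by exact_mod_cast hd
  obtain ⟨A, hA⟩ := (implAPI d).2.2.2 q _ (impl_bind h (noise_impl (1 / (200 * (d : ℝ)))))
  refine ⟨A, fun V hV B hB => ?_⟩
  have := (ImplX.meas h V hV.1).2 ()
  rw [hA V hV.1]
  refine (fin_tv hV (h2 V hV) (by positivity) B hB).trans ?_
  have s1 : √(d : ℝ) * √(d : ℝ) = d := Real.mul_self_sqrt (by positivity)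
  have s2 : 1 ≤ √(d : ℝ) := Real.one_le_sqrt.2 hd1
  have s3 : √(d : ℝ) ≤ d := by nlinarith
  have a1 : (√(d : ℝ) + 2) / (1 / (200 * (d : ℝ))) * (η * √(d : ℝ)) ≤ 1 / 20 := by
    have e : (√(d : ℝ) + 2) / (1 / (200 * (d : ℝ))) * (η * √(d : ℝ)) =
        η * (200 * d * (√(d : ℝ) * √(d : ℝ) + 2 * √(d : ℝ))) := by field_simp
    rw [e, s1]
    calc _ ≤ 1 / (12000 * (d : ℝ) ^ 2) * (200 * d * (d + 2 * √(d : ℝ))) :=
          mul_le_mul_of_nonneg_right hη (by positivity)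
      _ ≤ 1 / (12000 * (d : ℝ) ^ 2) * (200 * d * (d + 2 * d)) := by gcongr
      _ = _ := by field_simp; ring
  have a2 : (2 * √(d : ℝ) + 3) * (1 / (200 * (d : ℝ)) * √(d : ℝ)) ≤ 1 / 20 := by
    have e : (2 * √(d : ℝ) + 3) * (1 / (200 * (d : ℝ)) * √(d : ℝ)) =
        (2 * (√(d : ℝ) * √(d : ℝ)) + 3 * √(d : ℝ)) / (200 * d) := by field_simp
    rw [e, s1, div_le_iff₀ (by positivity)]
    linarith
  linarith

end FinX

theorem main (hS : StepThm) : Main := by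
  intro ε hε
  obtain ⟨n, hn⟩ := exists_nat_ge (2 / ε)
  obtain ⟨M, B, A, τ₀, h0, -, hM, hS⟩ := hS n
  set L := B + A + 10 with hL
  set m := (n + 2) * L with hm
  have hm1 : 1 ≤ m := Nat.mul_pos (by omega) (by omega)
  have hm1' : (1 : ℝ) ≤ m := by exact_mod_cast hm1
  set t : ℝ := min τ₀ (1 / (684000 * m)) with ht
  have ht0 : 0 < t := lt_min h0 (by positivity)
  have ht1 : t ≤ 1 / (684000 * m) := min_le_right _ _
  have ht2 : t ≤ 1 / 2 := ht1.trans (one_div_le_one_div_of_le (by norm_num) (by linarith))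
  refine ⟨9 * m * t⁻¹ ^ L, fun d hd => ?_⟩
  have hd1 : (1 : ℝ) ≤ d := by exact_mod_cast (by omega : 1 ≤ d)
  have hd0 : (0 : ℝ) < d := by linarith
  have hL0 : (L : ℝ) ≠ 0 := by exact_mod_cast (by omega : L ≠ 0)
  set w : ℝ := (d : ℝ) ^ (ε / L) with hw
  have hw1 : 1 ≤ w := Real.one_le_rpow hd1 (by positivity)
  have hwL : w ^ L = (d : ℝ) ^ ε := by
    rw [hw, ← Real.rpow_mul_natCast hd0.le, div_mul_cancel₀ _ hL0]
  set τ : ℝ := t / w with hτdef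
  have hτ : 0 < τ := by positivity
  have hτt : τ ≤ t := div_le_self ht0.le hw1
  have hτ1 : τ ≤ 1 := by linarith
  have hi1 : 1 ≤ τ⁻¹ := (one_le_inv₀ hτ).2 hτ1
  have hiL : τ⁻¹ ^ L = t⁻¹ ^ L * (d : ℝ) ^ ε := by
    rw [← hwL, ← mul_pow, hτdef, inv_div, div_eq_inv_mul]
  set N : ℕ := ⌈2 * τ⁻¹ ^ (A + 3)⌉₊ with hN
  have hN1 : (N : ℝ) ≤ 3 * τ⁻¹ ^ (A + 3) := by
    have := Nat.ceil_lt_add_one (show 0 ≤ 2 * τ⁻¹ ^ (A + 3) by positivity)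
    have := one_le_pow₀ hi1 (n := A + 3)
    linarith
  have hy : τ ^ ((n + 1) * L) ≤ t / (d : ℝ) ^ 2 := by
    rw [hτdef, div_pow, mul_comm (n + 1) L, pow_mul w, hwL]
    have b1 : t ^ (L * (n + 1)) ≤ t :=
      pow_le_of_le_one ht0.le (by linarith) (Nat.mul_pos (by omega) (by omega)).ne'
    have b2 : (d : ℝ) ^ 2 ≤ ((d : ℝ) ^ ε) ^ (n + 1) := by
      rw [← Real.rpow_mul_natCast hd0.le, ← Real.rpow_natCast]
      refine Real.rpow_le_rpow_of_exponent_le hd1 ?_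
      rw [div_le_iff₀ hε] at hn
      push_cast; nlinarith
    gcongr
  have hNm : N * τ ^ m ≤ 3 * (t / (d : ℝ) ^ 2) := by
    have b1 : τ⁻¹ ^ (A + 3) ≤ τ⁻¹ ^ L := pow_le_pow_right₀ hi1 (by omega)
    have b2 : τ⁻¹ ^ L * τ ^ m = τ ^ ((n + 1) * L) := by
      rw [hm, show (n + 2) * L = L + (n + 1) * L by ring, pow_add τ L, ← mul_assoc, ← mul_pow,
        inv_mul_cancel₀ hτ.ne', one_pow, one_mul]
    calc _ ≤ 3 * τ⁻¹ ^ L * τ ^ m := mul_le_mul_of_nonneg_right (by linarith) (by positivity)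
      _ ≤ _ := by rw [mul_assoc, b2]; linarith
  have hτm : τ ^ m ≤ t / (d : ℝ) ^ 2 :=
    (pow_le_pow_of_le_one hτ.le hτ1 (Nat.mul_le_mul_right _ (by omega))).trans hy
  have hη : 3 * τ ^ m + 18 * m * N * τ ^ m ≤ 1 / (12000 * (d : ℝ) ^ 2) := by
    have b0 : 0 ≤ t / (d : ℝ) ^ 2 := by positivity
    have b1 := mul_le_mul_of_nonneg_left hNm (show (0 : ℝ) ≤ 18 * m by positivity)
    have b2 : t / (d : ℝ) ^ 2 ≤ m * (t / (d : ℝ) ^ 2) := le_mul_of_one_le_left b0 hm1'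
    calc _ ≤ 57 * m * (t / (d : ℝ) ^ 2) := by nlinarith
      _ ≤ 57 * m * (1 / (684000 * m) / (d : ℝ) ^ 2) := by gcongr
      _ = _ := by field_simp; ring
  have hs : 18 * m * N * τ ^ m ≤ 1 := by
    have b1 : 1 / (12000 * (d : ℝ) ^ 2) ≤ 1 := by
      rw [div_le_one (by positivity)]; nlinarith
    have : 0 ≤ τ ^ m := by positivity
    linarith
  obtain ⟨μ, h1, h2⟩ := FinX.ladder (d := d) (A := A) (Q := ⌊τ⁻¹ ^ B⌋₊) hτ (hτt.trans ht2) hm1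
    (Nat.le_ceil _) hs fun v hv hv1 => by
      obtain ⟨q, K, k1, k2, k3⟩ := hS d τ v (by omega) hτ (hτt.trans (min_le_left _ _)) hv hv1
      exact ⟨K, k1.mono (Nat.le_floor k2), fun V hV y => FinX.DL_mono (k3 V hV y)
        (mul_le_mul_of_nonneg_right (pow_le_pow_of_le_one hτ.le hτ1 hM) (by positivity))⟩
  obtain ⟨Alg, hA⟩ := FinX.finish (by omega) h1 hη h2
  refine ⟨_, Alg, ?_, hA⟩
  have b1 : (⌊τ⁻¹ ^ B⌋₊ : ℝ) ≤ τ⁻¹ ^ B := Nat.floor_le (by positivity)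
  have b2 : τ⁻¹ ^ (A + 3) * τ⁻¹ ^ B ≤ τ⁻¹ ^ L := by
    rw [← pow_add]; exact pow_le_pow_right₀ hi1 (by omega)
  push_cast
  calc _ ≤ 3 * m * (3 * τ⁻¹ ^ (A + 3)) * τ⁻¹ ^ B := by gcongr
    _ = 9 * m * (τ⁻¹ ^ (A + 3) * τ⁻¹ ^ B) := by ring
    _ ≤ 9 * m * τ⁻¹ ^ L := by gcongr
    _ = _ := by rw [hiL]; ring

end Crest.Agent.LCS
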