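import Crest.Agent.LCS.Gauss

/-! JOB P1: implementable kernels. -/

set_option autoImplicit false
open MeasureTheory
open Crest.OracleSampling (Answer oracle QueryAlg)

namespace Crest.Agent.LCS

namespace ImplX

variable {d : ℕ}

theorem meas {q : ℕ} {X : Type} [MeasurableSpace X] {K : (E d → ℝ) → X → Measure (E d)}
    (h : Impl d q X K) :
    ∀ V, ContDiff ℝ 2 V → Measurable (K V) ∧ ∀ x, IsProbabilityMeasure (K V x) := by
  induction h with
  | ret f hf => exact fun V _ => ⟨Measure.measurable_dirac.comp hf, fun x => inferInstance⟩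
  | @sample X _ q K h ih =>
    intro V hV
    obtain ⟨h1, h2⟩ := ih V hV
    have h3 : ∀ x, Measurable fun z => K V (x, z) := fun x => h1.comp measurable_prodMk_left
    refine ⟨Measure.measurable_of_measurable_coe _ fun s hs => ?_, fun x => ⟨?_⟩⟩
    · simp only [Measure.bind_apply hs (h3 _).aemeasurable]
      exact ((Measure.measurable_coe hs).comp h1).lintegral_prod_right'
    · rw [Measure.bind_apply MeasurableSet.univ (h3 _).aemeasurable]
      simp
  | query pt hpt h ih =>
    intro V hV
    obtain ⟨h1, h2⟩ := ih V hV
    exact ⟨h1.comp (measurable_id.prodMk ((contDiff_gradient hV).continuous.measurable.comp hpt)),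
      fun x => h2 _⟩
  | mono h hq ih => exact ih
  | congr h hK ih => intro V hV; rw [hK V hV]; exact ih V hV

theorem comap {q : ℕ} {X : Type} [MeasurableSpace X] {K : (E d → ℝ) → X → Measure (E d)}
    (h : Impl d q X K) : ∀ (Y : Type) [MeasurableSpace Y] (g : Y → X), Measurable g →
      Impl d q Y (fun V y => K V (g y)) := by
  induction h with
  | ret f hf => exact fun Y _ g hg => Impl.ret (fun y => f (g y)) (hf.comp hg)
  | sample h ih =>
    exact fun Y _ g hg => Impl.sample (ih (Y × E d) (Prod.map g id) (hg.prodMap measurable_id))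
  | query pt hpt h ih =>
    exact fun Y _ g hg => Impl.query (fun y => pt (g y)) (hpt.comp hg)
      (ih (Y × E d) (Prod.map g id) (hg.prodMap measurable_id))
  | mono h hq ih => exact fun Y _ g hg => (ih Y g hg).mono hq
  | congr h hK ih =>
    exact fun Y _ g hg => (ih Y g hg).congr fun V hV => by rw [hK V hV]

theorem bind {q₁ : ℕ} {X : Type} [MeasurableSpace X] {K₁ : (E d → ℝ) → X → Measure (E d)}
    (h : Impl d q₁ X K₁) : ∀ (q₂ : ℕ) (K₂ : (E d → ℝ) → X × E d → Measure (E d)),
      Impl d q₂ (X × E d) K₂ →
      Impl d (q₁ + q₂) X (fun V x => (K₁ V x).bind (fun y => K₂ V (x, y))) := by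
  induction h with
  | @ret X _ f hf =>
    intro q₂ K₂ h₂
    rw [zero_add]
    refine (comap h₂ X (fun x => (x, f x)) (measurable_id.prodMk hf)).congr fun V hV => ?_
    funext x
    exact Measure.dirac_bind ((meas h₂ V hV).1.comp measurable_prodMk_left) _
  | @sample X _ q K h ih =>
    intro q₂ K₂ h₂
    refine (Impl.sample (ih q₂ _ (comap h₂ ((X × E d) × E d) (fun p => (p.1.1, p.2))
      (by fun_prop)))).congr fun V hV => ?_
    funext x
    exact Measure.bind_bind ((meas h V hV).1.comp measurable_prodMk_left).aemeasurable
      ((meas h₂ V hV).1.comp measurable_prodMk_left).aemeasurable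
  | @query X _ q K pt hpt h ih =>
    intro q₂ K₂ h₂
    rw [add_right_comm]
    exact Impl.query pt hpt (ih q₂ _ (comap h₂ ((X × E d) × E d) (fun p => (p.1.1, p.2))
      (by fun_prop)))
  | mono h hq ih => exact fun q₂ K₂ h₂ => (ih q₂ K₂ h₂).mono (by omega)
  | congr h hK ih =>
    exact fun q₂ K₂ h₂ => (ih q₂ K₂ h₂).congr fun V hV => by rw [hK V hV]

/-- transcript of a family of query maps -/
noncomputable def tr {S : Type} (query : (i : ℕ) → S → (Fin i → Answer d) → E d) (V : E d → ℝ)
    (s : S) : (i : ℕ) → (Fin i → Answer d)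
  | 0 => Fin.elim0
  | i + 1 => Fin.snoc (tr query V s i) (oracle V (query i s (tr query V s i)))

theorem tr_apply {S : Type} (query : (i : ℕ) → S → (Fin i → Answer d) → E d) (V : E d → ℝ)
    (s : S) : ∀ (j : ℕ) (i : Fin j), tr query V s j i = oracle V (query i s (tr query V s i))
  | 0, i => i.elim0
  | j + 1, i => by
    refine Fin.lastCases ?_ (fun i => ?_) i
    · simp [tr]
    · simp only [tr, Fin.snoc_castSucc, Fin.val_castSucc]
      exact tr_apply query V s j i

theorem tr_meas {S : Type} [MeasurableSpace S] (query : (i : ℕ) → S → (Fin i → Answer d) → E d)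
    (hq : ∀ i, Measurable (Function.uncurry (query i))) {V : E d → ℝ} (hV : ContDiff ℝ 2 V) :
    ∀ j, Measurable fun s => tr query V s j
  | 0 => measurable_const
  | j + 1 => by
    have ho : Measurable (oracle V) :=
      hV.continuous.measurable.prodMk (contDiff_gradient hV).continuous.measurable
    have ih := tr_meas query hq hV j
    refine measurable_pi_lambda _ fun i => ?_
    refine Fin.lastCases ?_ (fun i => ?_) i
    · simp only [tr, Fin.snoc_last]
      exact ho.comp ((hq j).comp (measurable_id.prodMk ih))
    · simp only [tr, Fin.snoc_castSucc]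
      exact (measurable_pi_apply i).comp ih

theorem compile {q : ℕ} {X : Type} [MeasurableSpace X] {K : (E d → ℝ) → X → Measure (E d)}
    (h : Impl d q X K) : ∃ (Ω : Type) (_ : MeasurableSpace Ω) (μ : Measure Ω)
      (_ : IsProbabilityMeasure μ) (query : (i : ℕ) → X × Ω → (Fin i → Answer d) → E d)
      (output : X × Ω → (Fin q → Answer d) → E d),
      (∀ i, Measurable (Function.uncurry (query i))) ∧ Measurable (Function.uncurry output) ∧
      ∀ V, ContDiff ℝ 2 V → ∀ x,
        K V x = μ.map (fun ω => output (x, ω) (tr query V (x, ω) q)) := by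
  induction h with
  | ret f hf =>
    refine ⟨Unit, inferInstance, Measure.dirac (), inferInstance, fun _ _ _ => 0,
      fun s _ => f s.1, fun i => measurable_const, hf.comp (by fun_prop), fun V _ x => ?_⟩
    simp
  | @sample X _ q K h ih =>
    obtain ⟨Ω, _, μ, _, query, output, h1, h2, h3⟩ := ih
    let r : X × E d × Ω → (X × E d) × Ω := fun s => ((s.1, s.2.1), s.2.2)
    have hr : Measurable r := by fun_prop
    refine ⟨E d × Ω, inferInstance, (gam d).prod μ, inferInstance, fun i s => query i (r s),
      fun s => output (r s), fun i => (h1 i).comp (hr.prodMap measurable_id),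
      h2.comp (hr.prodMap measurable_id), fun V hV x => ?_⟩
    have e : ∀ s j, tr (fun i s => query i (r s)) V s j = tr query V (r s) j := by
      intro s j
      induction j with
      | zero => rfl
      | succ j ih => simp only [tr, ih]
    have hm : Measurable fun s => output s (tr query V s q) :=
      h2.comp (measurable_id.prodMk (tr_meas query h1 hV q))
    have hm2 : Measurable fun ω : E d × Ω => output (r (x, ω)) (tr query V (r (x, ω)) q) :=
      hm.comp (hr.comp measurable_prodMk_left)
    simp only [e]
    ext s hs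
    have hm3 : Measurable fun z => K V (x, z) := (meas h V hV).1.comp measurable_prodMk_left
    rw [Measure.bind_apply hs hm3.aemeasurable,
      Measure.map_apply hm2 hs, Measure.prod_apply (hm2 hs)]
    congr 1
    funext z
    have hm4 : Measurable fun ω : Ω => output ((x, z), ω) (tr query V ((x, z), ω) q) :=
      hm.comp measurable_prodMk_left
    rw [h3 V hV, Measure.map_apply hm4 hs]
    rfl
  | @query X _ q K pt hpt h ih =>
    obtain ⟨Ω, _, μ, _, query, output, h1, h2, h3⟩ := ih
    let query' : (i : ℕ) → X × Ω → (Fin i → Answer d) → E d := fun i =>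
      match i with
      | 0 => fun s _ => pt s.1
      | i + 1 => fun s ans => query i ((s.1, (ans 0).2), s.2) (Fin.tail ans)
    have hr : ∀ i, Measurable fun p : (X × Ω) × (Fin (i + 1) → Answer d) =>
        ((((p.1.1, (p.2 0).2), p.1.2) : (X × E d) × Ω), (Fin.tail p.2 : Fin i → Answer d)) := by
      intro i
      refine Measurable.prodMk (by fun_prop) (measurable_pi_lambda _ fun k => ?_)
      exact (measurable_pi_apply k.succ).comp measurable_snd
    refine ⟨Ω, inferInstance, μ, inferInstance, query',
      fun s ans => output ((s.1, (ans 0).2), s.2) (Fin.tail ans), fun i => ?_,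
      h2.comp (hr q), fun V hV x => ?_⟩
    · cases i with
      | zero => exact hpt.comp (by fun_prop)
      | succ i => exact (h1 i).comp (hr i)
    · have e : ∀ ω j, tr query' V (x, ω) (j + 1) =
          Fin.cons (oracle V (pt x)) (tr query V ((x, gradient V (pt x)), ω) j) := by
        intro ω j
        induction j with
        | zero =>
          funext i
          fin_cases i
          rfl
        | succ j ih =>
          rw [tr, ih, tr, Fin.cons_snoc_eq_snoc_cons]
          simp only [query', Fin.cons_zero, Fin.tail_cons]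
          rfl
      simp only [e, Fin.cons_zero, Fin.tail_cons]
      exact h3 V hV _
  | @mono X _ q q' K h hq ih =>
    obtain ⟨Ω, _, μ, _, query, output, h1, h2, h3⟩ := ih
    have hr : Measurable fun p : (X × Ω) × (Fin q' → Answer d) =>
        ((p.1, fun i => p.2 (Fin.castLE hq i)) : (X × Ω) × (Fin q → Answer d)) :=
      measurable_fst.prodMk (measurable_pi_lambda _ fun k =>
        (measurable_pi_apply (Fin.castLE hq k)).comp measurable_snd)
    refine ⟨Ω, inferInstance, μ, inferInstance, query,
      fun s ans => output s (fun i => ans (Fin.castLE hq i)), h1,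
      h2.comp hr, fun V hV x => ?_⟩
    rw [h3 V hV]
    congr 1
    funext ω
    congr 1
    funext i
    rw [tr_apply, tr_apply]
    rfl
  | congr h hK ih =>
    obtain ⟨Ω, _, μ, _, query, output, h1, h2, h3⟩ := ih
    exact ⟨Ω, inferInstance, μ, inferInstance, query, output, h1, h2, fun V hV x => by
      rw [hK V hV, h3 V hV]⟩

end ImplX

theorem implAPI : ImplAPI := by
  intro d
  refine ⟨fun q X _ K h => ImplX.meas h, fun q X Y _ _ K g h hg => ImplX.comap h Y g hg,
    fun q₁ q₂ X _ K₁ K₂ h₁ h₂ => ImplX.bind h₁ q₂ K₂ h₂, fun q K h => ?_⟩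
  obtain ⟨Ω, mΩ, μ, hμ, query, output, h1, h2, h3⟩ := ImplX.compile h
  let A : QueryAlg d q := ⟨Ω, mΩ, μ, hμ, fun i ω => query i ((), ω), fun ω => output ((), ω),
    fun i => (h1 i).comp (measurable_prodMk_left.prodMap measurable_id),
    h2.comp (measurable_prodMk_left.prodMap measurable_id)⟩
  refine ⟨A, fun V hV => ?_⟩
  rw [h3 V hV]
  have e : ∀ ω j, Crest.OracleSampling.transcript A V ω j = ImplX.tr query V ((), ω) j := by
    intro ω j
    induction j with
    | zero => rfl
    | succ j ih => simp only [Crest.OracleSampling.transcript, ImplX.tr, ih]; rfl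
  unfold Crest.OracleSampling.outputLaw
  congr 1
  funext ω
  simp only [Crest.OracleSampling.run, e]
  rfl

end Crest.Agent.LCS
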