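import Crest.Agent.LCS.WB1

/-! JOB C3: position fields. -/

set_option autoImplicit false
open MeasureTheory Function

namespace Crest.Agent.LCS
namespace PosX
variable {d : ℕ}

theorem act_cs (b : Z d → Z d) (c : ℝ) (f : Z d → E d) :
    act b (fun z => c • f z) = fun z => c • act b f z := by
  funext z
  have := congrFun (fderiv_const_smul_field (𝕜 := ℝ) (f := f) c) z
  simp only [act]
  rw [show (fun z => c • f z) = c • f from rfl, this]; simp

theorem act_w (b : Z d → Z d) : act b (fun z => z.2.1) = fun z => (b z).2.1 := by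
  funext z
  exact congrArg (fun L : Z d →L[ℝ] E d => L (b z)) (((ContinuousLinearMap.fst ℝ (E d) (E d)).comp
    (ContinuousLinearMap.snd ℝ ℝ (E d × E d))).fderiv (x := z))

theorem act_xi (b : Z d → Z d) : act b (fun z => z.2.2) = fun z => (b z).2.2 := by
  funext z
  exact congrArg (fun L : Z d →L[ℝ] E d => L (b z)) (((ContinuousLinearMap.snd ℝ (E d) (E d)).comp
    (ContinuousLinearMap.snd ℝ ℝ (E d × E d))).fderiv (x := z))

theorem act_R {F : Type} [NormedAddCommGroup F] [NormedSpace ℝ F] (U : E d → ℝ) (J : ℕ) (τ v : ℝ)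
    (f : Z d → F) (z : Z d) : act (bR U J τ v) f z =
      ∑ j ∈ Finset.range (J + 1), (lam j * τ ^ (j - 1)) • v⁻¹ • act (bO U j) f z := by
  simp only [act, bR, map_smul, map_sum, Finset.smul_sum]
  exact Finset.sum_congr rfl fun j _ => smul_comm _ _ _

theorem G_eq (U : E d → ℝ) {v : ℝ} (hv : 0 < v) (z : Z d) : Gf U z = v • Gh U v z := by
  rw [Gh, smul_inv_smul₀ hv.ne']

section
variable {U : E d → ℝ} (h : Cx U)
include h

theorem tg_Gh (v : ℝ) : (Gh U v).HasTemperateGrowth := (HasTemperateGrowth.const _).fun_smul h.Gf_tg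

theorem tg_word (J : ℕ) (τ v : ℝ) (ω : List Letter) {f : Z d → E d} (hf : f.HasTemperateGrowth) :
    (word U J τ v ω f).HasTemperateGrowth := by
  induction ω with
  | nil => exact hf
  | cons X ω ih => exact tg_act (h.fld_tg _ _ _ _) ih

theorem tg_iter {b : Z d → Z d} (hb : b.HasTemperateGrowth) (n : ℕ) {f : Z d → E d}
    (hf : f.HasTemperateGrowth) : ((act b)^[n] f).HasTemperateGrowth := by
  induction n with
  | zero => exact hf
  | succ n ih => rw [iterate_succ_apply']; exact tg_act hb ih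

theorem O_succ {F : Type} [NormedAddCommGroup F] [NormedSpace ℝ F] (j : ℕ) {f : Z d → F}
    (hf : f.HasTemperateGrowth) : act (bO U (j + 1)) f =
      fun z => act (bD U) (act (bO U j) f) z - act (bO U j) (act (bD U) f) z :=
  funext fun z => act_comm (tg_diff h.tg_D) (tg_diff (h.bO_tg j)) hf z

theorem O_r (j : ℕ) : act (bO U j) (fun z : Z d => rr z.1) = fun _ => 0 := by
  induction j with
  | zero => rw [h.act_r]; simp [bO, bH]
  | succ j ih => rw [O_succ h j h.tg_r, ih, h.D_r]; simp [act_const]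

theorem X_r (J : ℕ) (τ v : ℝ) (X : Letter) :
    act (fld U J τ v X) (fun z : Z d => rr z.1) = fun _ => sh X := by
  cases X
  · exact h.D_r
  · exact O_r h 0
  · funext z; simp only [fld, act_R, O_r h, sh]; simp

theorem act_rmul (J : ℕ) (τ v : ℝ) (X : Letter) {f : Z d → E d} (hf : f.HasTemperateGrowth) :
    act (fld U J τ v X) (fun z => rr z.1 • f z) =
      fun z => rr z.1 • act (fld U J τ v X) f z + sh X • f z := by
  rw [act_smul _ (tg_diff h.tg_r) (tg_diff hf), X_r h]

theorem O_xi (j : ℕ) : act (bO U (j + 1)) (fun z : Z d => z.2.2) =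
    act (bD U) (act (bO U j) fun z : Z d => z.2.2) := by
  rw [O_succ h j tg_xi, act_xi (bD U)]
  simp [bD, act_const]

theorem O_w (j : ℕ) : act (bO U (j + 1)) (fun z : Z d => z.2.1) =
    fun z => act (bD U) (act (bO U j) fun z : Z d => z.2.1) z + act (bO U j) (Gf U) z := by
  rw [O_succ h j tg_w, act_w (bD U)]
  simp [bD, act_neg]

theorem O1_xi : act (bO U 1) (fun z : Z d => z.2.2) = fun z => -(rr z.1 • act (bD U) (Gf U) z) := by
  rw [O_xi h, act_xi (bO U 0)]
  simp only [bO, bH]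
  rw [act_neg, act_add _ (tg_diff tg_w) (tg_diff (h.tg_r.fun_smul h.Gf_tg)), act_w,
    act_smul _ (tg_diff h.tg_r) (tg_diff h.Gf_tg), h.D_r]
  funext z; simp [bD]

theorem O1_w : act (bO U 1) (fun z : Z d => z.2.1) = act (bH U) (Gf U) := by
  rw [O_w h, act_w (bO U 0)]
  simp only [bO, bH]
  rw [act_xi]
  funext z; simp [bD]

theorem Oj_xi (v : ℝ) (j : ℕ) : (fun z => v⁻¹ • act (bO U (j + 1)) (fun z : Z d => z.2.2) z) =
    fun z => -(rr z.1 • (act (bD U))^[j + 1] (Gh U v) z + (j : ℝ) • (act (bD U))^[j] (Gh U v) z) := by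
  induction j with
  | zero =>
    rw [O1_xi h]; funext z
    simp only [zero_add, iterate_one, Nat.cast_zero, zero_smul, add_zero]
    rw [show Gh U v = fun z => v⁻¹ • Gf U z from rfl, act_cs, smul_neg, smul_comm]
  | succ j ih =>
    have t := fun n => tg_iter h h.tg_D n (tg_Gh h v)
    rw [O_xi h, ← act_cs, ih, act_neg, act_add _ (tg_diff (h.tg_r.fun_smul (t _)))
      (tg_diff ((HasTemperateGrowth.const _).fun_smul (t _))), act_cs,
      act_smul _ (tg_diff h.tg_r) (tg_diff (t _)), h.D_r]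
    funext z
    simp only [iterate_succ_apply', Nat.cast_succ, add_smul, one_smul]
    abel

theorem R_xi (J : ℕ) (τ v : ℝ) (z : Z d) (hz : rr z.1 = τ) (J' : ℕ) :
    act (bR U J τ v) (fun z => z.2.2) z + Gh U v z = tay (bD U) J (-τ) (Gh U v) z +
      ((J : ℝ) * lam (J + 1) * τ ^ J) • (act (fld U J' τ v .D))^[J] (Gh U v) z := by
  rw [act_R]
  induction J with
  | zero => simp [tay, lam]
  | succ J ih =>
    have e := congrFun (Oj_xi h v J) z
    rw [Finset.sum_range_succ, add_right_comm, ih, e, tay, tay, Finset.sum_range_succ _ (J + 1), hz]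
    have hl : ((J + 1 : ℕ) : ℝ) * lam (J + 1 + 1) =
        -(-1) ^ (J + 1) / ((J + 1).factorial : ℝ) - lam (J + 1) := by
      rw [lam]; field_simp
    rw [hl, neg_pow τ]
    simp only [fld, Nat.add_sub_cancel]
    module

end

abbrev Hs (q : Par0) (U : E q.d → ℝ) : Prop := HessB U 0 (2 * q.v)

noncomputable def un (J : ℕ) (X : Letter) (u : Fam) : Fam :=
  fun q U => act (fld U J q.τ q.v X) (u q U)

noncomputable def wd (J : ℕ) (ω : List Letter) : Fam := fun q U => word U J q.τ q.v ω (Gh U q.v)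

theorem O_mem (hP : PsiAPI) (J : ℕ) (𝒞 : ℕ → Fam → Prop)
    (hc : ∀ n u u', 𝒞 n u → (∀ q U, Hs q U → u' q U = u q U) → 𝒞 n u')
    (ha : ∀ n u u', 𝒞 n u → 𝒞 n u' → 𝒞 n (fun q U z => u q U z + u' q U z))
    (hn : ∀ n u, 𝒞 n u → 𝒞 n (fun q U z => (-1 : ℝ) • u q U z))
    (hr : ∀ n u, 𝒞 n u → 𝒞 n (fun q U z => rr z.1 • u q U z))
    (hD : ∀ n u, 𝒞 n u → 𝒞 (n + 1) (un J .D u))
    (hg : ∀ ω : List Letter, ω ≠ [] → (∀ X ∈ ω, X ≠ .R) → 𝒞 ω.length (wd J ω)) (j : ℕ) :
    𝒞 (j + 1) (fun q U z => q.v⁻¹ • act (bO U (j + 1)) (fun z => z.2.1) z) ∧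
    𝒞 (j + 1) (fun q U z => q.v⁻¹ • act (bO U (j + 1)) (fun z => z.2.2) z) := by
  have h1 : ∀ (j : ℕ) (ω : List Letter), (∀ X ∈ ω, X ≠ .R) →
      𝒞 (ω.length + 1 + j) (fun q U => act (bO U j) (wd J ω q U)) := by
    intro j
    induction j with
    | zero => intro ω hω; exact hg (.H :: ω) (by simp) (by simpa using hω)
    | succ j ih =>
      intro ω hω
      have h2 := ih (.D :: ω) (by simpa using hω)
      rw [List.length_cons, add_assoc, add_comm 1 j] at h2
      refine hc _ _ _ (ha _ _ _ (hD _ _ (ih ω hω)) (hn _ _ h2)) fun q U hU => ?_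
      have h := Cx.of hP hU
      rw [O_succ h j (f := wd J ω q U) (tg_word h _ _ _ _ (tg_Gh h _))]
      funext z; rw [neg_one_smul, ← sub_eq_add_neg]; rfl
  have eG : ∀ (q : Par0) (U : E q.d → ℝ) (b : Z q.d → Z q.d) (z : Z q.d),
      q.v⁻¹ • act b (Gf U) z = act b (Gh U q.v) z := fun q U b z =>
    (congrFun (act_cs b q.v⁻¹ (Gf U)) z).symm
  induction j with
  | zero =>
    constructor
    · refine hc _ _ _ (hg [.H] (by simp) (by simp)) fun q U hU => ?_
      rw [O1_w (Cx.of hP hU)]; exact funext (eG q U _)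
    · refine hc _ _ _ (hn _ _ (hr _ _ (hg [.D] (by simp) (by simp)))) fun q U hU => ?_
      rw [O1_xi (Cx.of hP hU)]; funext z
      rw [smul_neg, smul_comm, eG, neg_one_smul]; rfl
  | succ j ih =>
    constructor
    · have h2 := h1 (j + 1) [] (by simp)
      rw [List.length_nil, zero_add, add_comm] at h2
      refine hc _ _ _ (ha _ _ _ (hD _ _ ih.1) h2) fun q U hU => ?_
      rw [O_w (Cx.of hP hU)]; funext z
      rw [smul_add, eG, un, act_cs]; rfl
    · refine hc _ _ _ (hD _ _ ih.2) fun q U hU => ?_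
      rw [O_xi (Cx.of hP hU), un, act_cs]; rfl

theorem hword_eq (J : ℕ) (ω : List Letter) (q : Par0) (U : E q.d → ℝ) :
    hword J ω q U = fun z => (ω.map (hsc q)).prod • wd J ω q U z := by
  induction ω with
  | nil => funext z; simp [hword, wd, word]
  | cons X ω ih =>
    funext z
    show hsc q X • act _ (hword J ω q U) z = _
    rw [ih, act_cs, List.map_cons, List.prod_cons, mul_smul]; rfl

theorem hsc_bd (q : Par0) (X : Letter) : |hsc q X| ≤ 1 := by
  have := q.hτ; have := q.hτ1; have := q.hϖ; have := q.hv.trans_le q.hvϖ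
  cases X <;> simp only [hsc] <;> rw [abs_of_pos (by positivity)] <;> nlinarith

theorem prod_bd (q : Par0) (ω : List Letter) : |(ω.map (hsc q)).prod| ≤ 1 := by
  induction ω with
  | nil => simp
  | cons X ω ih =>
    rw [List.map_cons, List.prod_cons, abs_mul]
    exact mul_le_one₀ (hsc_bd q X) (abs_nonneg _) ih

theorem prod_eq (q : Par0) (ω : List Letter) (h : ∀ X ∈ ω, X ≠ .R) :
    (ω.map (hsc q)).prod = q.τ ^ ω.length := by
  induction ω with
  | nil => simp
  | cons X ω ih =>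
    rw [List.map_cons, List.prod_cons, ih fun Y hY => h Y (List.mem_cons_of_mem _ hY),
      List.length_cons, pow_succ']
    have := h X List.mem_cons_self
    cases X <;> first | rfl | exact absurd rfl this

theorem tg_hword (hP : PsiAPI) (J : ℕ) (ω : List Letter) (q : Par0) (U : E q.d → ℝ) (hU : Hs q U) :
    (hword J ω q U).HasTemperateGrowth := by
  have h := Cx.of hP hU
  rw [hword_eq]; exact (HasTemperateGrowth.const _).fun_smul (tg_word h _ _ _ _ (tg_Gh h _))

theorem pos_tg (hP : PsiAPI) {J : ℕ} {b : Bool} {u : Fam} (h : Pos J b u) (q : Par0)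
    (U : E q.d → ℝ) (hU : Hs q U) : (u q U).HasTemperateGrowth := by
  induction h with
  | w => exact tg_w
  | xi => exact tg_xi
  | gen b ω => exact (HasTemperateGrowth.const _).fun_smul (tg_hword hP J ω q U hU)
  | zero b => exact HasTemperateGrowth.const _
  | add _ _ ih ih' => exact ih.fun_add ih'
  | smul c _ ih => exact (HasTemperateGrowth.const _).fun_smul ih
  | bdd c _ _ ih => exact (HasTemperateGrowth.const _).fun_smul ih
  | rmul _ ih => exact (Cx.of hP hU).tg_r.fun_smul ih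
  | weaken _ ih => exact ih
  | congr _ hu ih => rw [hu q U hU]; exact ih

theorem pos_hat (hP : PsiAPI) {J : ℕ} (X : Letter) (hw : Pos J true (hat J X fun _ _ z => z.2.1))
    (hxi : Pos J true (hat J X fun _ _ z => z.2.2)) {b : Bool} {u : Fam} (h : Pos J b u) :
    Pos J b (hat J X u) := by
  induction h with
  | w => exact hw
  | xi => exact hxi
  | gen b ω =>
    refine (Pos.gen b (X :: ω)).congr fun q U _ => funext fun z => ?_
    rw [hat, act_cs, smul_comm]; rfl
  | zero b => exact (Pos.zero b).congr fun q U _ => funext fun z => by simp [hat, act_const]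
  | add h h' ih ih' =>
    refine (ih.add ih').congr fun q U hU => funext fun z => ?_
    simp only [hat]
    rw [act_add _ (tg_diff (pos_tg hP h q U hU)) (tg_diff (pos_tg hP h' q U hU)), smul_add]
  | smul c _ ih =>
    refine (ih.smul c).congr fun q U hU => funext fun z => ?_
    simp only [hat]; rw [act_cs, smul_comm]
  | bdd c hc _ ih =>
    refine (ih.bdd c hc).congr fun q U hU => funext fun z => ?_
    simp only [hat]; rw [act_cs, smul_comm]
  | rmul h ih =>
    refine (ih.rmul.add ((h.smul (sh X)).bdd _ (hsc_bd · X))).congr fun q U hU => funext fun z => ?_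
    simp only [hat]; rw [act_rmul (Cx.of hP hU) _ _ _ _ (pos_tg hP h q U hU), smul_add, smul_comm]
  | weaken _ ih => exact ih.weaken
  | congr _ hu ih =>
    refine ih.congr fun q U hU => funext fun z => ?_
    simp only [hat]; rw [hu q U hU]

theorem vw_bd (q : Par0) : |q.v / q.ϖ| ≤ 1 := by
  have := q.hv; have := q.hv.trans_le q.hvϖ
  rw [abs_of_pos (by positivity), div_le_one this]; exact q.hvϖ

theorem G_eq' (q : Par0) (U : E q.d → ℝ) (z : Z q.d) :
    Gf U z = (q.v / q.ϖ) • q.ϖ • Gh U q.v z := by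
  rw [smul_smul, div_mul_cancel₀ _ (q.hv.trans_le q.hvϖ).ne', G_eq U q.hv]

theorem pos_G (J : ℕ) (b : Bool) : Pos J b fun _ U => Gf U :=
  ((Pos.gen b []).bdd _ vw_bd).congr fun q U _ => funext (G_eq' q U)

theorem pos_D (hP : PsiAPI) {J : ℕ} {b : Bool} {u : Fam} (h : Pos J b u) : Pos J b (hat J .D u) := by
  refine pos_hat hP _ ?_ ?_ h
  · refine (((pos_G J true).smul (-1)).bdd _ (hsc_bd · .D)).congr fun q U _ => funext fun z => ?_
    simp [hat, act_w, fld, bD]
  · refine (Pos.zero true).congr fun q U _ => funext fun z => ?_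
    simp [hat, act_xi, fld, bD]

theorem pos_H (hP : PsiAPI) {J : ℕ} {b : Bool} {u : Fam} (h : Pos J b u) : Pos J b (hat J .H u) := by
  refine pos_hat hP _ ?_ ?_ h
  · refine (Pos.xi.bdd _ (hsc_bd · .H)).congr fun q U _ => funext fun z => ?_
    simp [hat, act_w, fld, bH]
  · refine (((Pos.w.add (pos_G J true).rmul).smul (-1)).bdd _ (hsc_bd · .H)).congr
      fun q U _ => funext fun z => ?_
    simp [hat, act_xi, fld, bH, add_comm]

theorem pos_sum {J : ℕ} {b : Bool} (s : Finset ℕ) {u : ℕ → Fam} (h : ∀ i ∈ s, Pos J b (u i)) :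
    Pos J b fun q U z => ∑ i ∈ s, u i q U z := by
  induction s using Finset.induction_on with
  | empty => simpa using Pos.zero b
  | insert i s hi ih =>
    simp only [Finset.sum_insert hi]
    exact (h i (Finset.mem_insert_self _ _)).add (ih fun j hj => h j (Finset.mem_insert_of_mem hj))

theorem pos_R0 (hP : PsiAPI) (J : ℕ) (b : Bool) :
    Pos J b (hat J .R fun _ _ z => z.2.1) ∧ Pos J b (hat J .R fun _ _ z => z.2.2) := by
  have h := O_mem hP J (fun n u => Pos J b fun q U z => (q.ϖ * q.τ ^ n) • u q U z)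
    (fun n u u' h hu => h.congr fun q U hU => by rw [hu q U hU])
    (fun n u u' h h' => (h.add h').congr fun q U _ => funext fun z => smul_add _ _ _)
    (fun n u h => (h.smul (-1)).congr fun q U _ => funext fun z => smul_comm _ _ _)
    (fun n u h => h.rmul.congr fun q U _ => funext fun z => smul_comm _ _ _)
    (fun n u h => (pos_D hP h).congr fun q U _ => funext fun z => by
      simp only [hat, act_cs, un, hsc, smul_smul]; congr 1; ring)
    (fun ω _ hω => (Pos.gen b ω).congr fun q U _ => funext fun z => by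
      rw [hword_eq, prod_eq q ω hω, smul_smul])
  have key : ∀ f : Fam, (∀ j, Pos J b fun q U z => (q.ϖ * q.τ ^ (j + 1)) • q.v⁻¹ •
      act (bO U (j + 1)) (f q U) z) → Pos J b (hat J .R f) := by
    intro f hf
    refine (pos_sum (Finset.range (J + 1)) (u := fun j q U z => (q.τ * q.ϖ) •
      (lam j * q.τ ^ (j - 1)) • q.v⁻¹ • act (bO U j) (f q U) z) fun j _ => ?_).congr
      fun q U _ => funext fun z => by simp only [hat, fld, act_R, hsc, Finset.smul_sum]
    cases j with
    | zero => exact (Pos.zero b).congr fun q U _ => funext fun z => by simp [lam]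
    | succ j =>
      refine ((hf j).smul (lam (j + 1))).congr fun q U _ => funext fun z => ?_
      simp only [smul_smul, Nat.add_sub_cancel]; congr 1; ring
  exact ⟨key _ fun j => (h j).1, key _ fun j => (h j).2⟩

theorem pos_X (hP : PsiAPI) {J : ℕ} {b : Bool} {u : Fam} (h : Pos J b u) (X : Letter) :
    Pos J b (hat J X u) := by
  cases X
  exacts [pos_D hP h, pos_H hP h, pos_hat hP _ (pos_R0 hP J true).1 (pos_R0 hP J true).2 h]

/-- unscaled auxiliary class -/
inductive Un (J : ℕ) : Bool → Fam → Prop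
  | w : Un J true (fun _ _ z => z.2.1)
  | xi : Un J true (fun _ _ z => z.2.2)
  | g : Un J true (fun q U z => q.ϖ • Gh U q.v z)
  | gen (b : Bool) (ω : List Letter) (hω : ω ≠ []) : Un J b (wd J ω)
  | add {b : Bool} {u u' : Fam} (h : Un J b u) (h' : Un J b u') :
      Un J b (fun q U z => u q U z + u' q U z)
  | bdd {b : Bool} {u : Fam} (c : Par0 → ℝ) (K : ℝ) (hc : ∀ q, |c q| ≤ K) (h : Un J b u) :
      Un J b (fun q U z => c q • u q U z)
  | rmul {b : Bool} {u : Fam} (h : Un J b u) : Un J b (fun q U z => rr z.1 • u q U z)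
  | congr {b : Bool} {u u' : Fam} (h : Un J b u) (hu : ∀ q U, Hs q U → u' q U = u q U) : Un J b u'

theorem Un.smul {J : ℕ} {b : Bool} {u : Fam} (c : ℝ) (h : Un J b u) :
    Un J b (fun q U z => c • u q U z) := h.bdd (fun _ => c) _ fun _ => le_rfl

theorem Un.zero (J : ℕ) (b : Bool) : Un J b (fun _ _ _ => 0) :=
  ((Un.gen b [.D] (by simp)).smul 0).congr fun q U _ => by simp

theorem Un.tg (hP : PsiAPI) {J : ℕ} {b : Bool} {u : Fam} (h : Un J b u) (q : Par0)
    (U : E q.d → ℝ) (hU : Hs q U) : (u q U).HasTemperateGrowth := by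
  have hc := Cx.of hP hU
  induction h with
  | w => exact tg_w
  | xi => exact tg_xi
  | g => exact (HasTemperateGrowth.const _).fun_smul (tg_Gh hc _)
  | gen b ω => exact tg_word hc _ _ _ _ (tg_Gh hc _)
  | add _ _ ih ih' => exact ih.fun_add ih'
  | bdd c _ _ _ ih => exact (HasTemperateGrowth.const _).fun_smul ih
  | rmul _ ih => exact hc.tg_r.fun_smul ih
  | congr _ hu ih => rw [hu q U hU]; exact ih

theorem w_bd (q : Par0) : |q.ϖ| ≤ 1 := by
  rw [abs_of_pos (q.hv.trans_le q.hvϖ)]; exact q.hϖ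

theorem un_hat (hP : PsiAPI) {J : ℕ} (X : Letter) (hw : Un J true (un J X fun _ _ z => z.2.1))
    (hxi : Un J true (un J X fun _ _ z => z.2.2)) {b : Bool} {u : Fam} (h : Un J b u) :
    Un J b (un J X u) := by
  induction h with
  | w => exact hw
  | xi => exact hxi
  | g => exact ((Un.gen true [X] (by simp)).bdd _ 1 w_bd).congr fun q U _ => act_cs _ _ _
  | gen b ω => exact Un.gen b (X :: ω) (by simp)
  | add h h' ih ih' =>
    exact (ih.add ih').congr fun q U hU =>
      act_add _ (tg_diff (h.tg hP q U hU)) (tg_diff (h'.tg hP q U hU))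
  | bdd c K hc _ ih => exact (ih.bdd c K hc).congr fun q U hU => act_cs _ _ _
  | rmul h ih =>
    exact (ih.rmul.add (h.smul (sh X))).congr fun q U hU =>
      act_rmul (Cx.of hP hU) _ _ _ _ (h.tg hP q U hU)
  | congr _ hu ih => exact ih.congr fun q U hU => by simp only [un]; rw [hu q U hU]

theorem un_G (J : ℕ) : Un J true fun _ U => Gf U :=
  (Un.g.bdd _ 1 vw_bd).congr fun q U _ => funext (G_eq' q U)

theorem un_D (hP : PsiAPI) {J : ℕ} {b : Bool} {u : Fam} (h : Un J b u) : Un J b (un J .D u) := by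
  refine un_hat hP _ ?_ ?_ h
  · refine ((un_G J).smul (-1)).congr fun q U _ => funext fun z => ?_
    simp [un, act_w, fld, bD]
  · refine (Un.zero J true).congr fun q U _ => funext fun z => ?_
    simp [un, act_xi, fld, bD]

theorem un_H (hP : PsiAPI) {J : ℕ} {b : Bool} {u : Fam} (h : Un J b u) : Un J b (un J .H u) := by
  refine un_hat hP _ ?_ ?_ h
  · refine Un.xi.congr fun q U _ => funext fun z => ?_
    simp [un, act_w, fld, bH]
  · refine ((Un.w.add (un_G J).rmul).smul (-1)).congr fun q U _ => funext fun z => ?_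
    simp [un, act_xi, fld, bH, add_comm]

theorem un_sum {J : ℕ} {b : Bool} (s : Finset ℕ) {u : ℕ → Fam} (h : ∀ i ∈ s, Un J b (u i)) :
    Un J b fun q U z => ∑ i ∈ s, u i q U z := by
  induction s using Finset.induction_on with
  | empty => simpa using Un.zero J b
  | insert i s hi ih =>
    simp only [Finset.sum_insert hi]
    exact (h i (Finset.mem_insert_self _ _)).add (ih fun j hj => h j (Finset.mem_insert_of_mem hj))

theorem un_R0 (hP : PsiAPI) (J : ℕ) (b : Bool) :
    Un J b (un J .R fun _ _ z => z.2.1) ∧ Un J b (un J .R fun _ _ z => z.2.2) := by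
  have h := O_mem hP J (fun _ u => Un J b u) (fun n u u' h hu => h.congr hu)
    (fun n u u' h h' => h.add h') (fun n u h => h.smul (-1)) (fun n u h => h.rmul)
    (fun n u h => un_D hP h) (fun ω h _ => Un.gen b ω h)
  have key : ∀ f : Fam, (∀ j, Un J b fun q U z => q.v⁻¹ • act (bO U (j + 1)) (f q U) z) →
      Un J b (un J .R f) := by
    intro f hf
    refine (un_sum (Finset.range (J + 1)) (u := fun j q U z =>
      (lam j * q.τ ^ (j - 1)) • q.v⁻¹ • act (bO U j) (f q U) z) fun j _ => ?_).congr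
      fun q U _ => funext fun z => by simp only [un, fld, act_R]
    cases j with
    | zero => exact (Un.zero J b).congr fun q U _ => funext fun z => by simp [lam]
    | succ j =>
      refine (hf j).bdd _ |lam (j + 1)| fun q => ?_
      rw [abs_mul, abs_of_pos (pow_pos q.hτ _)]
      exact mul_le_of_le_one_right (abs_nonneg _) (pow_le_one₀ q.hτ.le q.hτ1)
  exact ⟨key _ fun j => (h j).1, key _ fun j => (h j).2⟩

theorem un_X (hP : PsiAPI) {J : ℕ} {b : Bool} {u : Fam} (h : Un J b u) (X : Letter) (n : ℕ) :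
    Un J b (fun q U => (act (fld U J q.τ q.v X))^[n] (u q U)) := by
  induction n with
  | zero => exact h
  | succ n ih =>
    simp only [iterate_succ_apply']
    cases X
    exacts [un_D hP ih, un_H hP ih, un_hat hP _ (un_R0 hP J true).1 (un_R0 hP J true).2 ih]

theorem un_hword (J : ℕ) (b : Bool) {ω : List Letter} (hω : ω ≠ []) : Un J b (hword J ω) :=
  ((Un.gen b ω hω).bdd _ 1 (prod_bd · ω)).congr fun q U _ => hword_eq J ω q U

theorem un_of_pos {J : ℕ} {b : Bool} {u : Fam} (h : Pos J b u) : Un J true u := by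
  induction h with
  | w => exact Un.w
  | xi => exact Un.xi
  | gen b ω =>
    by_cases hω : ω = []
    · subst hω; exact Un.g
    · exact (un_hword J true hω).bdd _ 1 w_bd
  | zero b => exact Un.zero J true
  | add _ _ ih ih' => exact ih.add ih'
  | smul c _ ih => exact ih.smul c
  | bdd c hc _ ih => exact ih.bdd c 1 hc
  | rmul _ ih => exact ih.rmul
  | weaken _ ih => exact ih
  | congr _ hu ih => exact ih.congr hu

/-! ### norms -/

theorem sq_mono {x a b : ℝ} (h : x ≤ a ^ 2) (ha : 0 ≤ a) (hab : a ≤ b) : x ≤ b ^ 2 :=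
  h.trans (pow_le_pow_left₀ ha hab 2)

theorem tl (hT : TL1) {U : E d → ℝ} {β : ℝ} (hU : HessB U 0 β) (J : ℕ) (c : E d) {h : Z d → E d}
    (hh : h.HasTemperateGrowth) {r e₀ B : ℝ} (hr : |r| < 1 / 2) (he : 0 ≤ e₀) (hB : 0 ≤ B)
    (h1 : ∀ r', |r'| < 1 / 2 → Ex U r' (fun z => ‖((act (bD U))^[J + 1] h) z‖ ^ 2) ≤ B ^ 2)
    (h0 : Ex U 0 (fun z => ‖c - h z‖ ^ 2) ≤ e₀ ^ 2) :
    Ex U r (fun z => ‖c - tay (bD U) J (-r) h z‖ ^ 2) ≤ (e₀ + |r| ^ (J + 1) * B) ^ 2 := by
  have := hT d U β hU 0 0 0 .D J Unit Finset.univ (fun _ _ => c) (fun _ => 0) (fun _ => 0)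
    (fun _ _ => 0) h r (-r) e₀ B
    (fun _ _ => ⟨HasTemperateGrowth.const _, HasTemperateGrowth.const _, le_rfl, le_rfl, by simp⟩)
    hh he hB (fun t ht => ?_) (by simpa [sh] using h0)
  · simpa [fld] using this
  · have h2 : |r + sh .D * t| < 1 / 2 := by
      rw [abs_lt] at hr ⊢
      rcases Set.mem_uIcc.1 ht with ht | ht <;> simp only [sh] <;> constructor <;> linarith
    refine ⟨h2, fun _ _ => ?_, h1 _ h2⟩
    rw [iterate_fixed (act_const _ (0 : E d))]; simp [Ex]

theorem tay_zero (b : Z d → Z d) (T : ℝ) (h : Z d → E d) : tay b 0 T h = h := by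
  funext z; simp [tay]

def Bd (N : (q : Par0) → (E q.d → ℝ) → ℝ) (u : Fam) : Prop :=
  ∃ C : ℝ, 0 ≤ C ∧ ∀ (q : Par0) (U : E q.d → ℝ) (r : ℝ), Hs q U → |r| < 1 / 2 →
    Ex U r (fun z => ‖u q U z‖ ^ 2) ≤ (C * N q U) ^ 2

theorem bd_wd (hW : WB) (J : ℕ) {ω : List Letter} (hω : ω ≠ []) :
    Bd (fun q _ => √(q.d : ℝ)) (wd J ω) := by
  obtain ⟨C, hC⟩ := hW J ω hω
  refine ⟨√|C|, Real.sqrt_nonneg _, fun q U r hU hr => (hC q.d U q.v q.τ r q.hd q.hv
    (q.hvϖ.trans q.hϖ) q.hτ.le q.hτ1 hU hr).trans ?_⟩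
  rw [mul_pow, Real.sq_sqrt (abs_nonneg _), Real.sq_sqrt (by positivity)]
  exact mul_le_mul_of_nonneg_right (le_abs_self _) (by positivity)

theorem word_rep (U : E d → ℝ) (J : ℕ) (τ v : ℝ) (X : Letter) (n : ℕ) (f : Z d → E d) :
    word U J τ v (List.replicate n X) f = (act (fld U J τ v X))^[n] f := by
  induction n with
  | zero => rfl
  | succ n ih => rw [iterate_succ_apply', ← ih]; rfl

theorem bd_tay (hP : PsiAPI) (hW : WB) (hT : TL1) (J : ℕ) : ∃ C : ℝ, 0 ≤ C ∧
    ∀ (q : Par0) (U : E q.d → ℝ) (r : ℝ), Hs q U → |r| < 1 / 2 →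
    Ex U r (fun z => ‖q.v⁻¹ • gv U 1 0 - tay (bD U) J (-r) (Gh U q.v) z‖ ^ 2) ≤
      (|r| ^ (J + 1) * (C * √(q.d : ℝ))) ^ 2 := by
  obtain ⟨C, h0, hC⟩ := bd_wd hW 0 (ω := List.replicate (J + 1) .D) (by simp)
  refine ⟨C, h0, fun q U r hU hr => ?_⟩
  have := tl hT hU J (q.v⁻¹ • gv U 1 0) (tg_Gh (Cx.of hP hU) q.v) hr le_rfl
    (by positivity : 0 ≤ C * √(q.d : ℝ))
    (fun r' hr' => by simpa only [wd, word_rep, fld] using hC q U r' hU hr')
    (by simp [Ex, Gh, Gf, aa, hP.2.2.2.1 0 (by norm_num)])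
  rwa [zero_add] at this

theorem bd_Gh (hP : PsiAPI) (hM : MeasAPI) (hE : ExAPI) (hW : WB) (hT : TL1) :
    Bd (fun q U => √(q.d : ℝ) + q.v⁻¹ * ‖gv U 1 0‖) fun q U => Gh U q.v := by
  obtain ⟨C, h0, hC⟩ := bd_tay hP hW hT 0
  refine ⟨C + 1, by positivity, fun q U r hU hr => ?_⟩
  have hv := q.hv
  have h1 := hC q U r hU hr
  rw [tay_zero] at h1
  have t := (HasTemperateGrowth.const (q.v⁻¹ • gv U 1 0)).fun_sub (tg_Gh (Cx.of hP hU) q.v)
  obtain ⟨-, -, h2, -⟩ := hE _ U _ r hU hr
  have h3 := (h2 _ _ t (by positivity) h1).2.2.1 (-1)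
  have := ((hM _ U _ hU).2.1 r hr).1
  have h4 := (h2 _ _ ((HasTemperateGrowth.const _).fun_smul t) (by positivity) h3).2.2.2
    (fun _ => q.v⁻¹ • gv U 1 0) (q.v⁻¹ * ‖gv U 1 0‖) (HasTemperateGrowth.const _) (by positivity)
    (by simp [Ex, norm_smul, abs_of_pos hv])
  simp only [neg_one_smul, neg_sub, sub_add_cancel, abs_neg, abs_one, one_mul, zero_add,
    pow_one] at h4
  refine sq_mono h4 (by positivity) ?_
  have h5 : 0 ≤ C * √(q.d : ℝ) := by positivity
  have h6 : 0 ≤ C * (q.v⁻¹ * ‖gv U 1 0‖) := by positivity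
  nlinarith [mul_le_mul_of_nonneg_right hr.le h5, Real.sqrt_nonneg (q.d : ℝ)]

theorem bd_xi (hM : MeasAPI) (hT : TL1) (hG : GaussAPI) :
    Bd (fun q _ => √(q.d : ℝ)) fun _ _ z => z.2.2 := by
  refine ⟨1, zero_le_one, fun q U r hU hr => ?_⟩
  obtain ⟨h1, -, h2, h3, -⟩ := hG q.d
  have := tl hT hU 0 0 tg_xi hr (Real.sqrt_nonneg (q.d : ℝ)) le_rfl
    (fun r' _ => by simp [act_xi, bD, Ex]) (by
      rw [Ex, (hM _ U _ hU).1, Real.sq_sqrt (by positivity)]
      simp only [zero_sub, norm_neg]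
      rw [integral_fun_snd (f := fun z : E q.d => ‖z‖ ^ 2)]; simp [h3])
  simpa [tay_zero] using this

theorem bd_w (hP : PsiAPI) (hM : MeasAPI) (hE : ExAPI) (hW : WB) (hT : TL1) (hG : GaussAPI) :
    Bd (fun q U => √(q.d : ℝ) + ‖gv U 1 0‖) fun _ _ z => z.2.1 := by
  obtain ⟨C, h0, hC⟩ := bd_Gh hP hM hE hW hT
  refine ⟨C + 1, by positivity, fun q U r hU hr => ?_⟩
  obtain ⟨h1, -, h2, h3, -⟩ := hG q.d
  have hv := q.hv
  have hv1 := q.hvϖ.trans q.hϖ
  have := tl hT hU 0 0 tg_w hr (Real.sqrt_nonneg (q.d : ℝ))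
    (by positivity : 0 ≤ C * (√(q.d : ℝ) + ‖gv U 1 0‖))
    (fun r' hr' => by
      have h4 := ((hE _ U _ r' hU hr').2.2.1 _ _ (tg_Gh (Cx.of hP hU) q.v) (by positivity)
        (hC q U r' hU hr')).2.2.1 q.v
      simp only [← G_eq U hv, abs_of_pos hv] at h4
      simp only [zero_add, iterate_one, act_w, bD, norm_neg]
      refine sq_mono h4 (by positivity) ?_
      rw [mul_left_comm, mul_add, mul_inv_cancel_left₀ hv.ne']
      gcongr
      exact mul_le_of_le_one_left (Real.sqrt_nonneg _) hv1) (by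
      rw [Ex, (hM _ U _ hU).1, Real.sq_sqrt (by positivity)]
      simp only [zero_sub, norm_neg]
      rw [integral_fun_fst (f := fun z : E q.d => ‖z‖ ^ 2)]; simp [h3])
  simp only [tay_zero, zero_sub, norm_neg, zero_add, pow_one] at this
  refine sq_mono this (by positivity) ?_
  have h5 : 0 ≤ C * (√(q.d : ℝ) + ‖gv U 1 0‖) := by positivity
  nlinarith [mul_le_mul_of_nonneg_right hr.le h5, norm_nonneg (gv U 1 0)]

theorem Bd.mono {N N' : (q : Par0) → (E q.d → ℝ) → ℝ} {u : Fam} (h : Bd N u)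
    (h0 : ∀ q U, 0 ≤ N q U) (hN : ∀ q U, N q U ≤ N' q U) : Bd N' u :=
  h.imp fun C hC => ⟨hC.1, fun q U r hU hr => sq_mono (hC.2 q U r hU hr)
    (mul_nonneg hC.1 (h0 q U)) (mul_le_mul_of_nonneg_left (hN q U) hC.1)⟩

theorem un_bd (hP : PsiAPI) (hM : MeasAPI) (hE : ExAPI) (hW : WB) (hT : TL1) (hG : GaussAPI)
    {J : ℕ} {b : Bool} {u : Fam} (h : Un J b u) :
    Bd (fun q U => √(q.d : ℝ) + if b then q.ϖ / q.v * ‖gv U 1 0‖ else 0) u := by
  have hN : ∀ (b : Bool) (q : Par0) (U : E q.d → ℝ),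
      0 ≤ if b then q.ϖ / q.v * ‖gv U 1 0‖ else 0 := fun b q U => by
    have := q.hv; have := q.hv.trans_le q.hvϖ
    split_ifs <;> positivity
  have hN' : ∀ (b : Bool) (q : Par0) (U : E q.d → ℝ),
      0 ≤ √(q.d : ℝ) + if b then q.ϖ / q.v * ‖gv U 1 0‖ else 0 := fun b q U =>
    add_nonneg (Real.sqrt_nonneg _) (hN b q U)
  induction h with
  | w =>
    refine (bd_w hP hM hE hW hT hG).mono (fun q U => by positivity) fun q U => ?_
    simp only [if_true]
    gcongr
    exact le_mul_of_one_le_left (norm_nonneg _) ((one_le_div q.hv).2 q.hvϖ)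
  | xi => exact (bd_xi hM hT hG).mono (fun q U => by positivity) fun q U => by linarith [hN true q U]
  | g =>
    obtain ⟨C, h0, hC⟩ := bd_Gh hP hM hE hW hT
    refine ⟨C, h0, fun q U r hU hr => ?_⟩
    have hv := q.hv
    have hw := q.hv.trans_le q.hvϖ
    refine sq_mono (((hE _ U _ r hU hr).2.2.1 _ _ (tg_Gh (Cx.of hP hU) q.v) (by positivity)
      (hC q U r hU hr)).2.2.1 q.ϖ) (by positivity) ?_
    simp only [if_true]
    rw [abs_of_pos hw, mul_left_comm, mul_add, ← mul_assoc, ← div_eq_mul_inv]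
    gcongr
    exact mul_le_of_le_one_left (Real.sqrt_nonneg _) q.hϖ
  | gen b ω hω =>
    exact (bd_wd hW J hω).mono (fun q U => by positivity) fun q U => by linarith [hN b q U]
  | add h h' ih ih' =>
    obtain ⟨C, h0, hC⟩ := ih
    obtain ⟨C', h0', hC'⟩ := ih'
    refine ⟨C + C', by positivity, fun q U r hU hr => ?_⟩
    rw [add_mul]
    exact ((hE _ U _ r hU hr).2.2.1 _ _ (h.tg hP q U hU) (mul_nonneg h0 (hN' _ q U))
      (hC q U r hU hr)).2.2.2 _ _ (h'.tg hP q U hU) (mul_nonneg h0' (hN' _ q U)) (hC' q U r hU hr)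
  | @bdd b _ c K hc h ih =>
    obtain ⟨C, h0, hC⟩ := ih
    refine ⟨|K| * C, by positivity, fun q U r hU hr => ?_⟩
    have h1 := mul_nonneg h0 (hN' b q U)
    refine sq_mono (((hE _ U _ r hU hr).2.2.1 _ _ (h.tg hP q U hU) h1
      (hC q U r hU hr)).2.2.1 (c q)) (mul_nonneg (abs_nonneg _) h1) ?_
    rw [mul_assoc]
    exact mul_le_mul_of_nonneg_right ((hc q).trans (le_abs_self _)) h1
  | @rmul b _ h ih =>
    obtain ⟨C, h0, hC⟩ := ih
    refine ⟨C, h0, fun q U r hU hr => ?_⟩
    have h1 := mul_nonneg h0 (hN' b q U)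
    have h2 := ((hE _ U _ r hU hr).2.2.1 _ _ (h.tg hP q U hU) h1 (hC q U r hU hr)).2.2.1 r
    simp only [Ex, hP.2.2.2.1 r hr] at h2 ⊢
    exact sq_mono h2 (mul_nonneg (abs_nonneg _) h1) (mul_le_of_le_one_left h1 (by linarith))
  | congr _ hu ih =>
    exact ih.imp fun C hC => ⟨hC.1, fun q U r hU hr => by rw [hu q U hU]; exact hC.2 q U r hU hr⟩

end PosX
open PosX

theorem posAPI (hP : PsiAPI) (hM : MeasAPI) (hE : ExAPI) (hW : WB) (hT : TL1) (hG : GaussAPI) :
    PosAPI := by
  intro J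
  have hb := fun {b u} (h : Un J b u) => un_bd hP hM hE hW hT hG h
  have hf : ∀ {u}, Un J false u → Bd (fun q _ => √(q.d : ℝ)) u := fun h => by simpa using hb h
  refine ⟨fun b u h => ⟨pos_tg hP h, pos_X hP h, fun X n => hb (un_X hP (un_of_pos h) X n)⟩,
    (pos_R0 hP J false).2, fun ω => ⟨tg_hword hP J ω, ?_, fun X n => ?_⟩, ?_, fun n => ?_⟩
  · by_cases hω : ω = []
    · subst hω; exact bd_Gh hP hM hE hW hT
    · refine (hf (un_hword J false hω)).mono (fun q U => by positivity) fun q U => ?_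
      have := q.hv
      exact le_add_of_nonneg_right (by positivity)
  · have h1 : Un J false (un J X (hword J ω)) :=
      ((Un.gen false (X :: ω) (by simp)).bdd _ 1 (prod_bd · ω)).congr fun q U _ => by
        rw [un, hword_eq, act_cs]; rfl
    exact hf (un_X hP h1 X n)
  · obtain ⟨C, h0, hC⟩ := bd_tay hP hW hT J
    have h1 : Un J false fun q U z =>
        ((J : ℝ) * lam (J + 1)) • (act (fld U J q.τ q.v .D))^[J] (Gh U q.v) z := by
      cases J with
      | zero => exact (Un.zero _ _).congr fun q U _ => by simp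
      | succ J => exact (un_X hP (Un.gen false [.D] (by simp)) .D J).smul _
    obtain ⟨C', h0', hC'⟩ := hf h1
    refine ⟨C + C', by positivity, fun q U hU hτ => ?_⟩
    have hτ0 := q.hτ
    have hr : |q.τ| < 1 / 2 := by rwa [abs_of_pos hτ0]
    have h := Cx.of hP hU
    obtain ⟨-, -, h2, -⟩ := hE _ U _ q.τ hU hr
    have t1 : (fun z => q.v⁻¹ • gv U 1 0 - tay (bD U) J (-q.τ) (Gh U q.v) z).HasTemperateGrowth :=
      (HasTemperateGrowth.const _).fun_sub (tg_sum _ fun j _ =>
        (HasTemperateGrowth.const _).fun_smul (tg_iter h h.tg_D j (tg_Gh h _)))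
    have t2 := h1.tg hP q U hU
    have h3 := (h2 _ _ ((HasTemperateGrowth.const _).fun_smul t1) (by positivity)
      ((h2 _ _ t1 (by positivity) (hC q U q.τ hU hr)).2.2.1 (-1))).2.2.2 _ _
      ((HasTemperateGrowth.const _).fun_smul t2) (by positivity)
      ((h2 _ _ t2 (by positivity) (hC' q U q.τ hU hr)).2.2.1 (q.τ ^ J))
    refine le_trans (le_of_eq ?_) (sq_mono h3 (by positivity) ?_)
    · simp only [Ex]
      congr 1; funext x
      rw [← add_sub_assoc]
      simp only [fld]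
      rw [R_xi h J q.τ q.v _ (hP.2.2.2.1 _ hr) J, smul_smul, neg_one_smul, neg_sub, mul_comm (q.τ ^ J)]
      simp only [fld]
      congr 2; abel
    · rw [abs_neg, abs_one, one_mul, abs_of_pos hτ0, abs_of_pos (pow_pos hτ0 _), pow_succ]
      have h5 : 0 ≤ q.τ ^ J * (C * √(q.d : ℝ)) := by positivity
      nlinarith [mul_le_mul_of_nonneg_right q.hτ1 h5]
  · cases n with
    | zero => exact bd_xi hM hT hG
    | succ n => exact hf (un_X hP (un_R0 hP J false).2 .R n)

end Crest.Agent.LCS
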