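import Crest.Agent.LCS.Psi0

/-! JOB B1: the potential `psi` and the vector fields are temperate; heat equation. -/

set_option autoImplicit false
set_option linter.unusedSectionVars false
open MeasureTheory Function

namespace Crest.Agent.LCS
variable {d : ℕ}

/-- natural parameter -/
noncomputable def th (q : ℝ × E d) : ℝ × E d := ((aa q.1)⁻¹ / 2, (aa q.1)⁻¹ • q.2)

theorem tg_ia : (fun q : ℝ × E d => (aa q.1)⁻¹).HasTemperateGrowth :=
  tg_aa_inv.comp (tg_p1 tg_id)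

theorem tg_th : (th : ℝ × E d → ℝ × E d).HasTemperateGrowth := by
  refine tg_prodMk ?_ (tg_ia.fun_smul (tg_p2 tg_id))
  simpa [div_eq_mul_inv] using tg_ia.fun_mul (HasTemperateGrowth.const (2 : ℝ)⁻¹)

theorem th_pos (q : ℝ × E d) : 0 < (th q).1 := half_pos (inv_pos.2 (aa_pos _))

/-- derivative of `1 / aa` -/
noncomputable def ia' (t : ℝ) : ℝ := 2 * rr t * (Real.pi * (1 + t ^ 2))⁻¹ * (aa t)⁻¹ ^ 2

theorem hasFDerivAt_ia (q : ℝ × E d) : HasFDerivAt (fun q : ℝ × E d => (aa q.1)⁻¹)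
    (ia' q.1 • ContinuousLinearMap.fst ℝ ℝ (E d)) q :=
  (hasDerivAt_aa_inv q.1).comp_hasFDerivAt q hasFDerivAt_fst

theorem fderiv_th (q e : ℝ × E d) : fderiv ℝ th q e =
    (ia' q.1 * e.1 / 2, (aa q.1)⁻¹ • e.2 + (ia' q.1 * e.1) • q.2) := by
  have h1 := ((hasFDerivAt_ia q).mul_const (2 : ℝ)⁻¹).prodMk
    ((hasFDerivAt_ia q).fun_smul (hasFDerivAt_snd (𝕜 := ℝ) (p := q)))
  have : (th : ℝ × E d → ℝ × E d) = fun q => ((aa q.1)⁻¹ * (2 : ℝ)⁻¹, (aa q.1)⁻¹ • q.2) := by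
    funext q; simp [th, div_eq_mul_inv]
  rw [this, h1.fderiv]
  ext <;> simp; ring

theorem Jf_eq_Kf (U f : E d → ℝ) (q : ℝ × E d) : Jf U (aa q.1) f q.2 = Kf U f (th q) := by
  unfold Jf Kf th
  congr 1; funext y
  rw [inner_smul_left]
  simp only [conj_trivial]
  congr 2
  field_simp; ring

theorem Kf_one_pos {U : E d → ℝ} {β : ℝ} (h : HessB U 0 β) (q : ℝ × E d) :
    0 < Kf U (fun _ => 1) (th q) := by
  rw [← Jf_eq_Kf]; exact Jf_one_pos h (aa_pos _) _

theorem mm_eq {U : E d → ℝ} {β : ℝ} (h : HessB U 0 β) (f : E d → ℝ) (q : ℝ × E d) :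
    mm U f q = Kf U f (th q) / Kf U (fun _ => 1) (th q) := by
  rw [mm, post_integral_eq h (aa_pos _), Jf_eq_Kf, Jf_eq_Kf]

theorem hasFDerivAt_Kf_th {U : E d → ℝ} {β : ℝ} (h : HessB U 0 β) {f : E d → ℝ}
    (hf : Continuous f) (hp : PG f) (q : ℝ × E d) :
    ∃ L : ℝ × E d →L[ℝ] ℝ, HasFDerivAt (fun q => Kf U f (th q)) L q ∧
      ∀ e, L e = Kf U (fun _ => 1) (th q) * (-(pd e th q).1 * mm U (fun y => f y * ‖y‖ ^ 2) q +
        ∑ k, (pd e th q).2 k * mm U (fun y => f y * y k) q) := by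
  obtain ⟨L, h1, h2⟩ := hasFDerivAt_Kf h hf hp (th q) (th_pos q)
  refine ⟨_, h1.comp q (tg_diff tg_th q).hasFDerivAt, fun e => ?_⟩
  have := (Kf_one_pos h q).ne'
  rw [ContinuousLinearMap.comp_apply, h2, mul_add, Finset.mul_sum]
  simp only [mm_eq h, pd]
  congr 1
  · field_simp
  · exact Finset.sum_congr rfl fun k _ => by field_simp

theorem hasFDerivAt_mm {U : E d → ℝ} {β : ℝ} (h : HessB U 0 β) {f : E d → ℝ}
    (hf : Continuous f) (hp : PG f) (q : ℝ × E d) :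
    ∃ L : ℝ × E d →L[ℝ] ℝ, HasFDerivAt (mm U f) L q ∧
      ∀ e, L e = -(pd e th q).1 * (mm U (fun y => f y * ‖y‖ ^ 2) q -
          mm U f q * mm U (fun y => ‖y‖ ^ 2) q) +
        ∑ k, (pd e th q).2 k * (mm U (fun y => f y * y k) q - mm U f q * mm U (fun y => y k) q) := by
  obtain ⟨L1, h1, e1⟩ := hasFDerivAt_Kf_th h hf hp q
  obtain ⟨L2, h2, e2⟩ := hasFDerivAt_Kf_th h (f := fun _ => 1) continuous_const (PG.const 1) q
  have hp0 := (Kf_one_pos h q).ne'
  have h3 := h1.mul ((hasDerivAt_inv hp0).comp_hasFDerivAt q h2)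
  refine ⟨_, by
    rw [show mm U f = fun q => Kf U f (th q) * (Kf U (fun _ => 1) (th q))⁻¹ from
      funext fun q => by rw [mm_eq h, div_eq_mul_inv]]
    exact h3, fun e => ?_⟩
  have e3 : Kf U f (th q) = mm U f q * Kf U (fun _ => 1) (th q) := by rw [mm_eq h]; field_simp
  simp only [ContinuousLinearMap.add_apply, ContinuousLinearMap.smul_apply, e1, e2, smul_eq_mul,
    one_mul, Function.comp, e3, mul_sub, Finset.sum_sub_distrib]
  have e4 : ∑ k, (pd e th q).2 k * (mm U f q * mm U (fun y => y k) q) =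
      mm U f q * ∑ k, (pd e th q).2 k * mm U (fun y => y k) q := by
    rw [Finset.mul_sum]; exact Finset.sum_congr rfl fun k _ => by ring
  rw [e4]
  field_simp; ring

theorem pd_mm {U : E d → ℝ} {β : ℝ} (h : HessB U 0 β) {f : E d → ℝ}
    (hf : Continuous f) (hp : PG f) (e q : ℝ × E d) :
    pd e (mm U f) q = -(pd e th q).1 * (mm U (fun y => f y * ‖y‖ ^ 2) q -
          mm U f q * mm U (fun y => ‖y‖ ^ 2) q) +
        ∑ k, (pd e th q).2 k * (mm U (fun y => f y * y k) q - mm U f q * mm U (fun y => y k) q) := by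
  obtain ⟨L, h1, h2⟩ := hasFDerivAt_mm h hf hp q
  rw [pd, h1.fderiv, h2]

theorem pg_coord (k : Fin d) : PG (fun y : E d => y k) := tg_pg (tg_apply tg_id k)

theorem pg_normsq : PG (fun y : E d => ‖y‖ ^ 2) := PG.id.nrm.npow 2

theorem tg_mm {U : E d → ℝ} {β : ℝ} (h : HessB U 0 β) {f : E d → ℝ}
    (hf : Continuous f) (hp : PG f) : (mm U f).HasTemperateGrowth := by
  refine tg_of_class' {g | ∃ f : E d → ℝ, Continuous f ∧ PG f ∧ g = mm U f} ?_ _ ⟨f, hf, hp, rfl⟩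
  rintro _ ⟨f, hf, hp, rfl⟩
  refine ⟨fun q => (hasFDerivAt_mm h hf hp q).choose_spec.1.differentiableAt, pg_mm h hf hp,
    fun e => ?_⟩
  have hm : ∀ f : E d → ℝ, Continuous f → PG f → mm U f ∈ Algebra.adjoin ℝ
      ({g : ℝ × E d → ℝ | g.HasTemperateGrowth} ∪
        {g | ∃ f : E d → ℝ, Continuous f ∧ PG f ∧ g = mm U f}) :=
    fun f hf hp => Algebra.subset_adjoin (Or.inr ⟨f, hf, hp, rfl⟩)
  have : pd e (mm U f) = (-fun q => (pd e th q).1) * (mm U (fun y => f y * ‖y‖ ^ 2) -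
          mm U f * mm U (fun y => ‖y‖ ^ 2)) +
        ∑ k, (fun q => (pd e th q).2 k) * (mm U (fun y => f y * y k) - mm U f * mm U (fun y => y k)) := by
    funext q; rw [pd_mm h hf hp]; simp [Finset.sum_apply]
  rw [this]
  refine add_mem (mul_mem (neg_mem (tg_mem_adjoin (tg_p1 (tg_pd e tg_th)))) (sub_mem
    (hm _ (by fun_prop) (hp.mul pg_normsq)) (mul_mem (hm _ hf hp) (hm _ (by fun_prop) pg_normsq))))
    (sum_mem fun k _ => mul_mem (tg_mem_adjoin (tg_apply (tg_p2 (tg_pd e tg_th)) k)) (sub_mem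
    (hm _ (by fun_prop) (hp.mul (pg_coord k))) (mul_mem (hm _ hf hp) (hm _ (by fun_prop) (pg_coord k)))))

theorem psi_eq {U : E d → ℝ} {β : ℝ} (h : HessB U 0 β) : psi U = fun q =>
    ‖q.2‖ ^ 2 * (aa q.1)⁻¹ / 2 - Real.log (Kf U (fun _ => 1) (th q)) +
      (d : ℝ) / 2 * Real.log (aa q.1) := by
  funext q
  unfold psi
  simp only [exp_post_eq U (aa_pos q.1), integral_const_mul]
  have : ∫ y, Real.exp (-(U y + ‖y‖ ^ 2 / (2 * aa q.1)) + (aa q.1)⁻¹ * inner ℝ q.2 y) =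
      Kf U (fun _ => 1) (th q) := by rw [← Jf_eq_Kf]; simp [Jf]
  rw [this, Real.log_mul (Real.exp_pos _).ne' (Kf_one_pos h q).ne', Real.log_exp]
  have := (aa_pos q.1).ne'
  field_simp; ring

theorem hasFDerivAt_logK {U : E d → ℝ} {β : ℝ} (h : HessB U 0 β) (q : ℝ × E d) :
    ∃ L : ℝ × E d →L[ℝ] ℝ, HasFDerivAt (fun q => Real.log (Kf U (fun _ => 1) (th q))) L q ∧
      ∀ e, L e = -(pd e th q).1 * mm U (fun y => ‖y‖ ^ 2) q +
        ∑ k, (pd e th q).2 k * mm U (fun y => y k) q := by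
  obtain ⟨L2, h2, e2⟩ := hasFDerivAt_Kf_th h (f := fun _ => 1) continuous_const (PG.const 1) q
  have hp0 := (Kf_one_pos h q).ne'
  refine ⟨_, h2.log hp0, fun e => ?_⟩
  simp only [ContinuousLinearMap.smul_apply, e2, smul_eq_mul, one_mul]
  field_simp

theorem tg_logK {U : E d → ℝ} {β : ℝ} (h : HessB U 0 β) :
    (fun q => Real.log (Kf U (fun _ => 1) (th q))).HasTemperateGrowth := by
  refine tg_of_pd (fun q => (hasFDerivAt_logK h q).choose_spec.1.differentiableAt) fun e => ?_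
  have : pd e (fun q => Real.log (Kf U (fun _ => 1) (th q))) = fun q =>
      -(pd e th q).1 * mm U (fun y => ‖y‖ ^ 2) q + ∑ k, (pd e th q).2 k * mm U (fun y => y k) q := by
    funext q
    obtain ⟨L, h1, h2⟩ := hasFDerivAt_logK h q
    rw [pd, h1.fderiv, h2]
  rw [this]
  exact ((tg_p1 (tg_pd e tg_th)).fun_neg.fun_mul (tg_mm h (by fun_prop) pg_normsq)).fun_add
    (tg_sum _ fun k _ => (tg_apply (tg_p2 (tg_pd e tg_th)) k).fun_mul
      (tg_mm h (by fun_prop) (pg_coord k)))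

theorem tg_psi {U : E d → ℝ} {β : ℝ} (h : HessB U 0 β) : (psi U).HasTemperateGrowth := by
  rw [psi_eq h]
  refine (HasTemperateGrowth.fun_sub ?_ (tg_logK h)).fun_add ((HasTemperateGrowth.const _).fun_mul
    (tg_log (tg_comp tg_aa (tg_p1 tg_id)) (by norm_num : (0 : ℝ) < 3 / 4) fun q => aa_ge _))
  simpa [div_eq_mul_inv] using ((tg_normsq (tg_p2 (tg_id (Y := ℝ × E d)))).fun_mul tg_ia).fun_mul
    (HasTemperateGrowth.const (2 : ℝ)⁻¹)

theorem pd_psi {U : E d → ℝ} {β : ℝ} (h : HessB U 0 β) (e q : ℝ × E d) :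
    pd e (psi U) q = (aa q.1)⁻¹ * ∑ k, e.2 k * (q.2 k - mm U (fun y => y k) q) +
      e.1 * (ia' q.1 * (‖q.2‖ ^ 2 / 2 + mm U (fun y => ‖y‖ ^ 2) q / 2 -
        ∑ k, q.2 k * mm U (fun y => y k) q) -
        d * rr q.1 * (Real.pi * (1 + q.1 ^ 2))⁻¹ * (aa q.1)⁻¹) := by
  obtain ⟨L, h1, h2⟩ := hasFDerivAt_logK h q
  have h3 := (((hasFDerivAt_snd (𝕜 := ℝ) (p := q)).norm_sq.fun_mul (hasFDerivAt_ia q)).mul_const
    (2 : ℝ)⁻¹)
  have h4 := (((hasDerivAt_aa q.1).log (aa_pos _).ne').comp_hasFDerivAt q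
    (hasFDerivAt_fst (𝕜 := ℝ) (p := q))).const_mul ((d : ℝ) / 2)
  have h5 := (h3.fun_sub h1).fun_add h4
  rw [psi_eq h, pd]
  simp only [div_eq_mul_inv] at h5 ⊢
  erw [h5.fderiv]
  simp only [ContinuousLinearMap.add_apply, ContinuousLinearMap.sub_apply,
    ContinuousLinearMap.smul_apply, h2, pd, fderiv_th, ContinuousLinearMap.comp_apply,
    innerSL_apply_apply, ContinuousLinearMap.coe_fst', ContinuousLinearMap.coe_snd', smul_eq_mul,
    inner_eq_sum q.2 e.2, PiLp.add_apply, PiLp.smul_apply, add_mul, mul_sub, Finset.sum_add_distrib,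
    Finset.sum_sub_distrib, nsmul_eq_mul, Nat.cast_ofNat]
  have e1 : ∑ k, (aa q.1)⁻¹ * e.2 k * mm U (fun y => y k) q =
      (aa q.1)⁻¹ * ∑ k, e.2 k * mm U (fun y => y k) q := by
    rw [Finset.mul_sum]; exact Finset.sum_congr rfl fun k _ => by ring
  have e2 : ∑ k, ia' q.1 * e.1 * q.2 k * mm U (fun y => y k) q =
      ia' q.1 * e.1 * ∑ k, q.2 k * mm U (fun y => y k) q := by
    rw [Finset.mul_sum]; exact Finset.sum_congr rfl fun k _ => by ring
  have e3 : ∑ k, q.2 k * e.2 k = ∑ k, e.2 k * q.2 k := Finset.sum_congr rfl fun k _ => by ring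
  rw [e1, e2, e3]
  ring

theorem S_one {U : E d → ℝ} {β : ℝ} (h : HessB U 0 β) (k : Fin d) :
    S U {k} = fun q => (aa q.1)⁻¹ * (q.2 k - mm U (fun y => y k) q) := by
  funext q
  rw [S, ← Multiset.cons_zero, pdm_cons _ _ _ (tg_psi h), pdm_zero, pd_psi h]
  simp [ex, Pi.single_apply]

theorem gv_apply {U : E d → ℝ} {β a : ℝ} (h : HessB U 0 β) (ha : 0 < a) (x : E d) (k : Fin d) :
    gv U a x k = ∫ y, gradient U y k ∂(post U x a) :=
  ((EuclideanSpace.proj k : E d →L[ℝ] ℝ).integral_comp_comm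
    (h.post_integrable ha x (contDiff_gradient h.1).continuous (h.pg_grad le_rfl))).symm

theorem gv_eq_mm {U : E d → ℝ} {β : ℝ} (h : HessB U 0 β) (k : Fin d) (q : ℝ × E d) :
    gv U (aa q.1) q.2 k = (aa q.1)⁻¹ * (q.2 k - mm U (fun y => y k) q) := by
  have ha := aa_pos q.1
  have hP := h.post_prob ha q.2
  have key := (h.post (a := aa q.1) q.2).ibp (by positivity) (f := fun _ => 1) contDiff_const
    (PG.const 1) (by rw [fderiv_fun_const]; exact PG.const (Y := E d) (0 : E d →L[ℝ] ℝ)) (EuclideanSpace.single k 1)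
  change ∫ y, _ ∂(post U q.2 (aa q.1)) = ∫ y, _ ∂(post U q.2 (aa q.1)) at key
  have hgc : Continuous (gradient U) := (contDiff_gradient h.1).continuous
  have e1 : ∀ y, fderiv ℝ (fun y => U y + ‖y - q.2‖ ^ 2 / (2 * aa q.1)) y (EuclideanSpace.single k 1) =
      gradient U y k + ((aa q.1)⁻¹ * y k - (aa q.1)⁻¹ * q.2 k) := by
    intro y
    rw [fderiv_eq_inner, (h.add_quad q.2 _).2, EuclideanSpace.inner_single_right]
    simp; ring
  have i1 : Integrable (fun y => gradient U y k) (post U q.2 (aa q.1)) :=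
    h.post_integrable ha _ (by fun_prop) ((pg_coord k).cmp (h.pg_grad le_rfl))
  have i2 : Integrable (fun y : E d => y k) (post U q.2 (aa q.1)) :=
    h.post_integrable ha _ (by fun_prop) (pg_coord k)
  simp only [e1, one_mul] at key
  rw [integral_add i1 (by exact (i2.const_mul _).sub (integrable_const _)),
    integral_sub (i2.const_mul _) (integrable_const _), integral_const_mul] at key
  simp only [fderiv_fun_const, Pi.zero_apply, ContinuousLinearMap.zero_apply, integral_const,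
    probReal_univ, smul_eq_mul, one_mul] at key
  rw [gv_apply h ha, mm]
  linarith

theorem S_one_gv {U : E d → ℝ} {β : ℝ} (h : HessB U 0 β) (k : Fin d) (q : ℝ × E d) :
    S U {k} q = gv U (aa q.1) q.2 k := by rw [S_one h, gv_eq_mm h]

theorem S_two {U : E d → ℝ} {β : ℝ} (h : HessB U 0 β) (k : Fin d) (q : ℝ × E d) :
    S U {k, k} q = (aa q.1)⁻¹ - (aa q.1)⁻¹ ^ 2 *
      (mm U (fun y => y k * y k) q - mm U (fun y => y k) q ^ 2) := by
  have e0 : S U {k, k} = pd (ex k) (S U {k}) := pdm_cons _ _ _ (tg_psi h)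
  have hm := tg_mm h (f := fun y => y k) (by fun_prop) (pg_coord k)
  have hx : (fun q : ℝ × E d => q.2 k).HasTemperateGrowth := tg_apply (tg_p2 tg_id) k
  rw [e0, S_one h, pd_mul _ (tg_diff tg_ia) (tg_diff (hx.fun_sub hm)), pd_sub _ (tg_diff hx) (tg_diff hm)]
  have e1 : pd (ex k) (fun q : ℝ × E d => (aa q.1)⁻¹) q = 0 := by
    rw [pd, (hasFDerivAt_ia q).fderiv]; simp [ex]
  have e2 : pd (ex k) (fun q : ℝ × E d => q.2 k) q = 1 := by
    have := (((EuclideanSpace.proj k : E d →L[ℝ] ℝ).comp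
      (ContinuousLinearMap.snd ℝ ℝ (E d))).hasFDerivAt (x := q)).fderiv
    rw [pd]; erw [this]; simp [ex]
  simp only [e1, e2, pd_mm h (f := fun y => y k) (by fun_prop) (pg_coord k)]
  simp [pd, fderiv_th, ex, Pi.single_apply]
  ring

theorem mm_normsq {U : E d → ℝ} {β : ℝ} (h : HessB U 0 β) (q : ℝ × E d) :
    mm U (fun y => ‖y‖ ^ 2) q = ∑ k, mm U (fun y => y k * y k) q := by
  simp only [mm, normsq_eq_sum]
  exact integral_finset_sum _ fun k _ =>
    h.post_integrable (aa_pos _) _ (by fun_prop) ((pg_coord k).mul (pg_coord k))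

theorem heat {U : E d → ℝ} {β : ℝ} (h : HessB U 0 β) (q : ℝ × E d) :
    Real.pi * (1 + q.1 ^ 2) * pd ((1 : ℝ), (0 : E d)) (psi U) q =
      -rr q.1 * ∑ k, S U {k, k} q + rr q.1 * ∑ k, S U {k} q ^ 2 := by
  rw [pd_psi h, mm_normsq h, normsq_eq_sum]
  simp only [S_two h, S_one h, ia']
  have hp : Real.pi * (1 + q.1 ^ 2) ≠ 0 := by have := Real.pi_pos; positivity
  generalize Real.pi * (1 + q.1 ^ 2) = P at hp ⊢
  have e1 : ∑ k, ((aa q.1)⁻¹ * (q.2 k - mm U (fun y => y k) q)) ^ 2 =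
      (aa q.1)⁻¹ ^ 2 * (∑ k, q.2 k * q.2 k - 2 * ∑ k, q.2 k * mm U (fun y => y k) q +
        ∑ k, mm U (fun y => y k) q ^ 2) := by
    simp only [Finset.mul_sum, ← Finset.sum_sub_distrib, ← Finset.sum_add_distrib]
    exact Finset.sum_congr rfl fun k _ => by ring
  rw [e1, Finset.sum_sub_distrib, ← Finset.mul_sum, Finset.sum_sub_distrib]
  simp only [PiLp.zero_apply, zero_mul, Finset.sum_const_zero, mul_zero, zero_add, one_mul,
    Finset.sum_const, Finset.card_univ, Fintype.card_fin, nsmul_eq_mul]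
  field_simp; ring

theorem tg_gv {U : E d → ℝ} {β : ℝ} (h : HessB U 0 β) :
    (fun q : ℝ × E d => gv U (aa q.1) q.2).HasTemperateGrowth :=
  tg_ofCoord fun k => by
    simp only [← S_one_gv h]
    exact tg_pdm _ _ (tg_psi h)

theorem tg_liftArg : (fun z : Z d => (z.1, rr z.1 • z.2.1)).HasTemperateGrowth :=
  tg_prodMk (tg_p1 tg_id) ((tg_comp tg_rr (tg_p1 tg_id)).fun_smul (tg_p1 (tg_p2 tg_id)))

theorem tg_Gf {U : E d → ℝ} {β : ℝ} (h : HessB U 0 β) : (Gf U).HasTemperateGrowth := by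
  have := (tg_gv h).comp (tg_liftArg (d := d))
  simp only [Function.comp_def] at this
  exact this

theorem tg_bD {U : E d → ℝ} {β : ℝ} (h : HessB U 0 β) : (bD U).HasTemperateGrowth :=
  tg_prodMk (tg_one_add_sq.comp (tg_p1 tg_id))
    (tg_prodMk (tg_Gf h).fun_neg (HasTemperateGrowth.const _))

theorem tg_bH {U : E d → ℝ} {β : ℝ} (h : HessB U 0 β) : (bH U).HasTemperateGrowth :=
  tg_prodMk (HasTemperateGrowth.const _) (tg_prodMk (tg_p2 (tg_p2 tg_id))
    ((tg_p1 (tg_p2 tg_id)).fun_add ((tg_comp tg_rr (tg_p1 tg_id)).fun_smul (tg_Gf h))).fun_neg)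

theorem tg_bO {U : E d → ℝ} {β : ℝ} (h : HessB U 0 β) (j : ℕ) : (bO U j).HasTemperateGrowth := by
  induction j with
  | zero => exact tg_bH h
  | succ j ih => exact (tg_act (tg_bD h) ih).fun_sub (tg_act ih (tg_bD h))

theorem tg_fld {U : E d → ℝ} {β : ℝ} (h : HessB U 0 β) (J : ℕ) (τ v : ℝ) (X : Letter) :
    (fld U J τ v X).HasTemperateGrowth := by
  cases X
  · exact tg_bD h
  · exact tg_bH h
  · exact (HasTemperateGrowth.const v⁻¹).fun_smul
      (tg_sum _ fun j _ => (HasTemperateGrowth.const _).fun_smul (tg_bO h j))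

theorem psiAPI : PsiAPI :=
  ⟨tg_rr, hasDerivAt_rr, abs_rr_lt, fun _ hr => rr_tt hr, fun _ _ _ h =>
    ⟨tg_psi h, S_one_gv h, heat h, tg_gv h, tg_Gf h, tg_bO h, tg_fld h⟩⟩

end Crest.Agent.LCS
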