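import Crest.Agent.LCS.WB1
import Crest.Agent.LCS.Psi

/-! JOB C2: Taylor polynomials of the flows. -/

set_option autoImplicit false
set_option linter.unusedSectionVars false
open MeasureTheory Function

namespace Crest.Agent.LCS
variable {d : ℕ}

namespace TLx

theorem tg_iter {b : Z d → Z d} (hb : b.HasTemperateGrowth) {u : Z d → E d}
    (hu : u.HasTemperateGrowth) (n : ℕ) : ((act b)^[n] u).HasTemperateGrowth := by
  induction n with
  | zero => exact hu
  | succ n ih => rw [Function.iterate_succ_apply']; exact tg_act hb ih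

theorem tg_tay {b : Z d → Z d} (hb : b.HasTemperateGrowth) {u : Z d → E d}
    (hu : u.HasTemperateGrowth) (J : ℕ) (T : ℝ) : (tay b J T u).HasTemperateGrowth :=
  tg_sum _ fun j _ => (HasTemperateGrowth.const _).fun_smul (tg_iter hb hu j)

theorem tay_zero (b : Z d → Z d) (J : ℕ) (u : Z d → E d) : tay b J 0 u = u := by
  funext z
  simp only [tay]
  rw [Finset.sum_range_succ']
  simp

section
variable {U : E d → ℝ} {β : ℝ} (hM : MeasAPI) (hU : HessB U 0 β)
include hM hU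

theorem integ {r : ℝ} (hr : |r| < 1 / 2) {F : Z d → ℝ} (hF : F.HasTemperateGrowth) :
    Integrable (fun q => F (tt r, q)) (mu U r) := (((hM d U β hU).2.1 r hr).2 F hF).1

theorem Ex_sub {r : ℝ} (hr : |r| < 1 / 2) {F G : Z d → ℝ} (hF : F.HasTemperateGrowth)
    (hG : G.HasTemperateGrowth) : Ex U r (fun z => F z - G z) = Ex U r F - Ex U r G :=
  integral_sub (integ hM hU hr hF) (integ hM hU hr hG)

theorem Ex_add {r : ℝ} (hr : |r| < 1 / 2) {F G : Z d → ℝ} (hF : F.HasTemperateGrowth)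
    (hG : G.HasTemperateGrowth) : Ex U r (fun z => F z + G z) = Ex U r F + Ex U r G :=
  integral_add (integ hM hU hr hF) (integ hM hU hr hG)

theorem Ex_sum {r : ℝ} (hr : |r| < 1 / 2) {ι : Type} (s : Finset ι) {F : ι → Z d → ℝ}
    (hF : ∀ i ∈ s, (F i).HasTemperateGrowth) :
    Ex U r (fun z => ∑ i ∈ s, F i z) = ∑ i ∈ s, Ex U r (F i) :=
  integral_finsetSum s fun i hi => integ hM hU hr (hF i hi)

theorem Ex_mono {r : ℝ} (hr : |r| < 1 / 2) {F G : Z d → ℝ} (hF : F.HasTemperateGrowth)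
    (hG : G.HasTemperateGrowth) (h : ∀ z, F z ≤ G z) : Ex U r F ≤ Ex U r G :=
  integral_mono (integ hM hU hr hF) (integ hM hU hr hG) fun _ => h _

omit hM hU in
theorem Ex_cmul (r c : ℝ) (F : Z d → ℝ) : Ex U r (fun z => c * F z) = c * Ex U r F :=
  integral_const_mul _ _

theorem hasDerivAt_D {r : ℝ} (hr : |r| < 1 / 2) {F : Z d → ℝ} (hF : F.HasTemperateGrowth) :
    HasDerivAt (fun r' => Ex U r' F) (Ex U r (act (bD U) F)) r := by
  have h := (hM d U β hU).2.2 (fun p => F p.2) (tg_comp hF (tg_p2 tg_id)) 0 1 r (by simpa using hr)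
  simp only [zero_add, one_mul, one_smul] at h
  convert h using 2
  funext z
  have : HasFDerivAt (fun p : ℝ × Z d => F p.2)
      ((fderiv ℝ F z).comp (ContinuousLinearMap.snd ℝ ℝ (Z d))) (r, z) :=
    (tg_diff hF z).hasFDerivAt.comp (r, z) hasFDerivAt_snd
  rw [this.fderiv]; simp [act]

theorem null_O (j : ℕ) : ∀ {r : ℝ} (_ : |r| < 1 / 2) {F : Z d → ℝ} (_ : F.HasTemperateGrowth),
    Ex U r (act (bO U j) F) = 0 := by
  have h : Cx U := Cx.of psiAPI hU
  induction j with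
  | zero =>
    intro r hr F hF
    have e : act (bO U 0) F = fun z => ∑ k, dl U false k (pd (dirc true k) F) z -
      ∑ k, dl U true k (pd (dirc false k) F) z := funext (h.H_eq hF)
    rw [e, Ex_sub hM hU hr (tg_sum _ fun k _ => h.tg_dl _ _ (tg_pd _ hF))
      (tg_sum _ fun k _ => h.tg_dl _ _ (tg_pd _ hF)),
      Ex_sum hM hU hr _ fun k _ => h.tg_dl _ _ (tg_pd _ hF),
      Ex_sum hM hU hr _ fun k _ => h.tg_dl _ _ (tg_pd _ hF)]
    have h1 : ∀ k, Ex U r (dl U false k (pd (dirc true k) F)) = 0 := fun k =>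
      (((hM d U β hU).2.1 r hr).2 _ (tg_pd (dirc true k) hF)).2.2 k
    have h2 : ∀ k, Ex U r (dl U true k (pd (dirc false k) F)) = 0 := fun k =>
      (((hM d U β hU).2.1 r hr).2 _ (tg_pd (dirc false k) hF)).2.1 k
    simp [h1, h2]
  | succ j ih =>
    intro r hr F hF
    have e : act (bO U (j + 1)) F =
        fun z => act (bD U) (act (bO U j) F) z - act (bO U j) (act (bD U) F) z :=
      funext (h.O_succ j hF)
    have t1 := tg_act (h.bO_tg j) hF
    rw [e, Ex_sub hM hU hr (tg_act h.tg_D t1) (tg_act (h.bO_tg j) (tg_act h.tg_D hF)),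
      ih hr (tg_act h.tg_D hF), sub_zero]
    have h1 := hasDerivAt_D hM hU hr t1
    have h2 : (fun r' => Ex U r' (act (bO U j) F)) =ᶠ[nhds r] fun _ => 0 := by
      have : ∀ᶠ r' in nhds r, |r'| < 1 / 2 :=
        (continuous_abs.tendsto r).eventually (gt_mem_nhds hr)
      filter_upwards [this] with r' hr' using ih hr' hF
    exact h1.unique ((hasDerivAt_const r (0 : ℝ)).congr_of_eventuallyEq h2)

theorem null_R (J : ℕ) (τ v : ℝ) {r : ℝ} (hr : |r| < 1 / 2) {F : Z d → ℝ}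
    (hF : F.HasTemperateGrowth) : Ex U r (act (bR U J τ v) F) = 0 := by
  have e : act (bR U J τ v) F =
      fun z => v⁻¹ * ∑ j ∈ Finset.range (J + 1), (lam j * τ ^ (j - 1)) * act (bO U j) F z := by
    funext z; simp [act, bR, map_sum]
  rw [e, Ex_cmul, Ex_sum hM hU hr _ fun j _ =>
    (HasTemperateGrowth.const _).fun_mul (tg_act (tg_bO hU j) hF)]
  simp [Ex_cmul, null_O hM hU _ hr hF]

theorem transport (J : ℕ) (τ v : ℝ) (X : Letter) {Ψ : ℝ × Z d → ℝ} (hΨ : Ψ.HasTemperateGrowth)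
    (r₀ s : ℝ) (hr : |r₀ + sh X * s| < 1 / 2) :
    HasDerivAt (fun s' => Ex U (r₀ + sh X * s') (fun z => Ψ (s', z)))
      (Ex U (r₀ + sh X * s) (fun z => fderiv ℝ Ψ (s, z) (1, fld U J τ v X z))) s := by
  have h := (hM d U β hU).2.2 Ψ hΨ r₀ (sh X) s hr
  have hs : (fun z : Z d => Ψ (s, z)).HasTemperateGrowth :=
    tg_comp hΨ (tg_prodMk (HasTemperateGrowth.const s) tg_id)
  have key : ∀ b : Z d → Z d, b.HasTemperateGrowth →
      Ex U (r₀ + sh X * s) (act b (fun z => Ψ (s, z))) = 0 →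
      Ex U (r₀ + sh X * s) (fun z => fderiv ℝ Ψ (s, z) (1, b z)) =
        Ex U (r₀ + sh X * s) (fun z => fderiv ℝ Ψ (s, z) (1, (0 : ℝ) • bD U z)) := by
    intro b hb h0
    have e : (fun z => fderiv ℝ Ψ (s, z) (1, b z)) =
        fun z => fderiv ℝ Ψ (s, z) (1, (0 : ℝ) • bD U z) + act b (fun z => Ψ (s, z)) z := by
      funext z
      have : HasFDerivAt (fun z : Z d => Ψ (s, z))
          ((fderiv ℝ Ψ (s, z)).comp (ContinuousLinearMap.inr ℝ ℝ (Z d))) z :=
        (tg_diff hΨ (s, z)).hasFDerivAt.comp z (hasFDerivAt_prodMk_right s z)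
      simp only [act, this.fderiv, ContinuousLinearMap.comp_apply, ContinuousLinearMap.inr_apply,
        ← map_add]
      simp
    have t1 : (fun z : Z d => fderiv ℝ Ψ (s, z) (1, (0 : ℝ) • bD U z)).HasTemperateGrowth := by
      simp only [zero_smul]
      exact tg_comp (tg_pd _ hΨ) (tg_prodMk (HasTemperateGrowth.const s) tg_id)
    rw [e, Ex_add hM hU hr t1 (tg_act hb hs), h0, add_zero]
  cases X with
  | D => simpa [sh, fld] using h
  | H =>
    rw [key _ (tg_fld hU J τ v .H) (null_O hM hU 0 hr hs)]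
    exact h
  | R =>
    rw [key _ (tg_fld hU J τ v .R) (null_R hM hU J τ v hr hs)]
    exact h

end

/-- the time-reversed Taylor polynomial -/
noncomputable def P (b : Z d → Z d) (J : ℕ) (T : ℝ) (u : Z d → E d) : ℝ × Z d → E d :=
  fun p => tay b J (T - p.1) u p.2

theorem tg_P {b : Z d → Z d} (hb : b.HasTemperateGrowth) {u : Z d → E d}
    (hu : u.HasTemperateGrowth) (J : ℕ) (T : ℝ) : (P b J T u).HasTemperateGrowth := by
  have e : P b J T u = fun p : ℝ × Z d => ∑ j ∈ Finset.range (J + 1),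
      ((T - p.1) ^ j * (j.factorial : ℝ)⁻¹) • ((act b)^[j] u) p.2 := rfl
  rw [e]
  refine tg_sum _ fun j _ => HasTemperateGrowth.fun_smul ?_ (tg_comp (tg_iter hb hu j) (tg_p2 tg_id))
  exact (((HasTemperateGrowth.const T).fun_sub (tg_p1 tg_id)).fun_pow j).fun_mul
    (HasTemperateGrowth.const _)

theorem fderiv_P {b : Z d → Z d} (hb : b.HasTemperateGrowth) {u : Z d → E d}
    (hu : u.HasTemperateGrowth) (J : ℕ) (T s : ℝ) (z : Z d) :
    fderiv ℝ (P b J T u) (s, z) (1, b z) =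
      ((T - s) ^ J / (J.factorial : ℝ)) • ((act b)^[J + 1] u) z := by
  have hterm : ∀ j : ℕ, HasFDerivAt (fun p : ℝ × Z d =>
      ((T - p.1) ^ j / (j.factorial : ℝ)) • ((act b)^[j] u) p.2)
      (((T - s) ^ j / (j.factorial : ℝ)) •
          ((fderiv ℝ ((act b)^[j] u) z).comp (ContinuousLinearMap.snd ℝ ℝ (Z d))) +
        ((-((j : ℝ) * (T - s) ^ (j - 1) / (j.factorial : ℝ))) •
          ContinuousLinearMap.fst ℝ ℝ (Z d)).smulRight (((act b)^[j] u) z)) (s, z) := by
    intro j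
    have h1 : HasDerivAt (fun t : ℝ => (T - t) ^ j / (j.factorial : ℝ))
        (-((j : ℝ) * (T - s) ^ (j - 1) / (j.factorial : ℝ))) s := by
      have := (((hasDerivAt_id s).const_sub T).fun_pow j).div_const (j.factorial : ℝ)
      refine this.congr_deriv ?_
      simp only [id]; ring
    have h2 := h1.comp_hasFDerivAt (s, z) (hasFDerivAt_fst (𝕜 := ℝ) (p := (s, z)))
    have h3 : HasFDerivAt (fun p : ℝ × Z d => ((act b)^[j] u) p.2)
        ((fderiv ℝ ((act b)^[j] u) z).comp (ContinuousLinearMap.snd ℝ ℝ (Z d))) (s, z) :=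
      (tg_diff (tg_iter hb hu j) z).hasFDerivAt.comp (s, z) hasFDerivAt_snd
    exact h2.fun_smul h3
  have hs := HasFDerivAt.fun_sum (u := Finset.range (J + 1)) fun j _ => hterm j
  have e : P b J T u = fun p : ℝ × Z d => ∑ j ∈ Finset.range (J + 1),
      ((T - p.1) ^ j / (j.factorial : ℝ)) • ((act b)^[j] u) p.2 := rfl
  rw [e, hs.fderiv]
  simp only [_root_.sum_apply, _root_.add_apply,
    _root_.smul_apply, ContinuousLinearMap.comp_apply, ContinuousLinearMap.coe_snd',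
    ContinuousLinearMap.smulRight_apply, ContinuousLinearMap.coe_fst', smul_eq_mul, mul_one]
  have e2 : ∀ j, fderiv ℝ ((act b)^[j] u) z (b z) = ((act b)^[j + 1] u) z := by
    intro j; rw [Function.iterate_succ_apply']; rfl
  simp only [e2]
  clear hs e hterm
  induction J with
  | zero => simp
  | succ J ih =>
    rw [Finset.sum_range_succ, ih]
    have : ((J + 1 : ℕ) : ℝ) * (T - s) ^ (J + 1 - 1) / ((J + 1).factorial : ℝ) =
        (T - s) ^ J / (J.factorial : ℝ) := by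
      rw [Nat.factorial_succ]; push_cast
      have : (J.factorial : ℝ) ≠ 0 := by positivity
      field_simp
    rw [this, neg_smul]; abel

theorem coef_le (J : ℕ) {T s : ℝ} (hs : s ∈ Set.uIcc 0 T) :
    |(T - s) ^ J / (J.factorial : ℝ)| ≤ |T| ^ J := by
  have h1 : |T - s| ≤ |T| := by
    have := Set.abs_sub_right_of_mem_uIcc hs
    simpa using this
  have h2 : (1 : ℝ) ≤ J.factorial := by exact_mod_cast Nat.one_le_iff_ne_zero.2 J.factorial_ne_zero
  rw [abs_div, abs_pow, abs_of_pos (by linarith : (0 : ℝ) < J.factorial)]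
  calc |T - s| ^ J / J.factorial ≤ |T - s| ^ J := div_le_self (by positivity) h2
    _ ≤ |T| ^ J := pow_le_pow_left₀ (abs_nonneg _) h1 J

theorem norm_fderiv_le {F : Type} [NormedAddCommGroup F] [NormedSpace ℝ F] {Φ : E d → F} {L : ℝ}
    (hL : 0 ≤ L) (h : ∀ x y, ‖Φ x - Φ y‖ ≤ L * ‖x - y‖) (x : E d) : ‖fderiv ℝ Φ x‖ ≤ L := by
  have : LipschitzWith ⟨L, hL⟩ Φ := LipschitzWith.of_dist_le_mul fun x y => by
    rw [dist_eq_norm, dist_eq_norm]; exact h x y
  exact norm_fderiv_le_of_lipschitz ℝ this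

theorem amgm {x a b g M : ℝ} (hg : 0 < g) (hM : 0 ≤ M) (ha : a ≤ g ^ 2) (hb : b ≤ M ^ 2)
    (h : ∀ l : ℝ, 0 < l → x ≤ l * a + l⁻¹ * b) : x ≤ 2 * M * g := by
  refine le_of_forall_pos_le_add fun ε hε => ?_
  set δ := ε / (2 * g) with hδ
  have hδ0 : 0 < δ := by positivity
  have h1 := h ((M + δ) / g) (by positivity)
  have h2 : (M + δ) / g * a ≤ (M + δ) * g := by
    calc (M + δ) / g * a ≤ (M + δ) / g * g ^ 2 := mul_le_mul_of_nonneg_left ha (by positivity)
      _ = (M + δ) * g := by field_simp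
  have h3 : ((M + δ) / g)⁻¹ * b ≤ (M + δ) * g := by
    calc ((M + δ) / g)⁻¹ * b ≤ ((M + δ) / g)⁻¹ * (M + δ) ^ 2 :=
          mul_le_mul_of_nonneg_left (hb.trans (by nlinarith)) (by positivity)
      _ = (M + δ) * g := by field_simp
  have h4 : 2 * δ * g = ε := by rw [hδ]; field_simp
  nlinarith

/-- Gronwall-type lemma for `√f` -/
theorem sqrt_lip {f f' : ℝ → ℝ} {T M e₀ : ℝ} (hM : 0 ≤ M) (he : 0 ≤ e₀)
    (hd : ∀ s ∈ Set.uIcc 0 T, HasDerivAt f (f' s) s) (h0 : ∀ s ∈ Set.uIcc 0 T, 0 ≤ f s)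
    (hb : ∀ s ∈ Set.uIcc 0 T, ∀ l : ℝ, 0 < l → |f' s| ≤ l * f s + l⁻¹ * M ^ 2)
    (hT : f T ≤ e₀ ^ 2) : f 0 ≤ (e₀ + |T| * M) ^ 2 := by
  have key : ∀ ε : ℝ, 0 < ε → √(f 0) ≤ e₀ + |T| * M + ε := by
    intro ε hε
    have hpos : ∀ s ∈ Set.uIcc 0 T, 0 < f s + ε ^ 2 := fun s hs => by
      have := h0 s hs; positivity
    have hg : ∀ s ∈ Set.uIcc 0 T, HasDerivWithinAt (fun s => √(f s + ε ^ 2))
        (f' s / (2 * √(f s + ε ^ 2))) (Set.uIcc 0 T) s := fun s hs =>
      (((hd s hs).add_const (ε ^ 2)).sqrt (hpos s hs).ne').hasDerivWithinAt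
    have hbd : ∀ s ∈ Set.uIcc 0 T, ‖f' s / (2 * √(f s + ε ^ 2))‖ ≤ M := by
      intro s hs
      have hg0 : 0 < √(f s + ε ^ 2) := Real.sqrt_pos.2 (hpos s hs)
      have := amgm hg0 hM (a := f s) (by rw [Real.sq_sqrt (hpos s hs).le]; nlinarith) le_rfl
        (hb s hs)
      rw [Real.norm_eq_abs, abs_div, abs_of_pos (by positivity : 0 < 2 * √(f s + ε ^ 2)),
        div_le_iff₀ (by positivity)]
      linarith
    have h1 := (convex_uIcc 0 T).norm_image_sub_le_of_norm_hasDerivWithin_le hg hbd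
      Set.right_mem_uIcc Set.left_mem_uIcc
    rw [Real.norm_eq_abs, Real.norm_eq_abs, zero_sub, abs_neg] at h1
    have h2 : √(f T + ε ^ 2) ≤ e₀ + ε := by
      rw [Real.sqrt_le_left (by positivity)]; nlinarith
    have h3 : √(f 0) ≤ √(f 0 + ε ^ 2) := Real.sqrt_le_sqrt (by nlinarith)
    have := (abs_le.1 h1).2
    nlinarith
  have h1 : √(f 0) ≤ e₀ + |T| * M := le_of_forall_pos_le_add key
  have h2 := Real.sq_sqrt (h0 0 Set.left_mem_uIcc)
  rw [← h2]
  exact pow_le_pow_left₀ (Real.sqrt_nonneg _) h1 2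

end TLx
open TLx

theorem tl2 (hM : MeasAPI) (hE : ExAPI) : TL2 := by
  intro d U β hU J' τ v X J φ L u r₀ T A hφ hL hLip hu hA hb
  set b := fld U J' τ v X with hbdef
  have tb : b.HasTemperateGrowth := tg_fld hU J' τ v X
  have tP := tg_P tb hu J T
  have tΨ : (fun p => φ (P b J T u p)).HasTemperateGrowth := tg_comp hφ tP
  have hd : ∀ s ∈ Set.uIcc 0 T, HasDerivWithinAt
      (fun s' => Ex U (r₀ + sh X * s') (fun z => φ (P b J T u (s', z))))
      (Ex U (r₀ + sh X * s) (fun z => fderiv ℝ (fun p => φ (P b J T u p)) (s, z) (1, b z)))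
      (Set.uIcc 0 T) s := fun s hs =>
    (transport hM hU J' τ v X tΨ r₀ s (hb s hs).1).hasDerivWithinAt
  have hbd : ∀ s ∈ Set.uIcc 0 T, ‖Ex U (r₀ + sh X * s)
      (fun z => fderiv ℝ (fun p => φ (P b J T u p)) (s, z) (1, b z))‖ ≤ |T| ^ J * (L * A) := by
    intro s hs
    obtain ⟨hi, hn, -⟩ := (hE d U β _ hU (hb s hs).1).2.2.1 _ A (tg_iter tb hu (J + 1)) hA (hb s hs).2
    have hpt : ∀ z, ‖fderiv ℝ (fun p => φ (P b J T u p)) (s, z) (1, b z)‖ ≤
        |T| ^ J * L * ‖((act b)^[J + 1] u) z‖ := by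
      intro z
      have h1 := (tg_diff hφ (P b J T u (s, z))).hasFDerivAt.comp (s, z)
        (tg_diff tP (s, z)).hasFDerivAt
      have e : (fun p => φ (P b J T u p)) = φ ∘ P b J T u := rfl
      rw [e, h1.fderiv, ContinuousLinearMap.comp_apply, fderiv_P tb hu]
      refine (ContinuousLinearMap.le_opNorm _ _).trans ?_
      rw [norm_smul, Real.norm_eq_abs]
      have h2 := norm_fderiv_le (Φ := φ) hL (fun x y => by simpa using hLip x y) (P b J T u (s, z))
      have h3 := coef_le J hs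
      calc _ ≤ L * (|T| ^ J * ‖((act b)^[J + 1] u) z‖) := by gcongr
        _ = _ := by ring
    calc _ ≤ ∫ q, |T| ^ J * L * ‖((act b)^[J + 1] u) (tt (r₀ + sh X * s), q)‖
          ∂(mu U (r₀ + sh X * s)) :=
          norm_integral_le_of_norm_le (hi.const_mul _) (Filter.Eventually.of_forall fun q => hpt _)
      _ = |T| ^ J * L * Ex U (r₀ + sh X * s) (fun z => ‖((act b)^[J + 1] u) z‖) :=
          integral_const_mul _ _
      _ ≤ |T| ^ J * L * A := by gcongr
      _ = _ := by ring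
  have h1 := (convex_uIcc 0 T).norm_image_sub_le_of_norm_hasDerivWithin_le hd hbd
    Set.right_mem_uIcc Set.left_mem_uIcc
  simp only [P, sub_zero, sub_self, tay_zero, mul_zero, add_zero, Real.norm_eq_abs, zero_sub,
    abs_neg] at h1
  calc _ ≤ |T| ^ J * (L * A) * |T| := h1
    _ = _ := by ring

theorem tl1 (hM : MeasAPI) (hE : ExAPI) : TL1 := by
  intro d U β hU J' τ v X J ι s Φ L A u h r₀ T e₀ B hi hh he hB hb hT
  set b := fld U J' τ v X with hbdef
  have tb : b.HasTemperateGrowth := tg_fld hU J' τ v X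
  set W : ℝ × Z d → E d := fun p => ∑ i ∈ s, Φ i (P b J T (u i) p) - P b J T h p with hW
  have tW : W.HasTemperateGrowth :=
    (tg_sum s fun i hi' => tg_comp (hi i hi').1 (tg_P tb (hi i hi').2.1 J T)).fun_sub
      (tg_P tb hh J T)
  have tΨ := tg_normsq tW
  have hS : 0 ≤ ∑ i ∈ s, L i * A i :=
    Finset.sum_nonneg fun i hi' => mul_nonneg (hi i hi').2.2.1 (hi i hi').2.2.2.1
  have key := sqrt_lip (f := fun s' => Ex U (r₀ + sh X * s') (fun z => ‖W (s', z)‖ ^ 2))
    (f' := fun t => Ex U (r₀ + sh X * t)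
      (fun z => fderiv ℝ (fun p => ‖W p‖ ^ 2) (t, z) (1, b z)))
    (T := T) (M := |T| ^ J * (∑ i ∈ s, L i * A i + B)) (e₀ := e₀) (by positivity) he
    (fun t ht => transport hM hU J' τ v X tΨ r₀ t (hb t ht).1)
    (fun t _ => integral_nonneg fun q => by positivity) ?_ ?_
  · simp only [hW, P, sub_zero, mul_zero, add_zero] at key
    convert key using 2
    ring
  · intro t ht l hl
    have hr := (hb t ht).1
    set c := (T - t) ^ J / (J.factorial : ℝ) with hc
    have hc' : |c| ≤ |T| ^ J := coef_le J ht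
    set g : ι → Z d → E d := fun i z =>
      fderiv ℝ (Φ i) (P b J T (u i) (t, z)) (c • ((act b)^[J + 1] (u i)) z) with hg
    set W' : Z d → E d := fun z => ∑ i ∈ s, g i z + (-c) • ((act b)^[J + 1] h) z with hW'
    have tsl : ∀ {f : ℝ × Z d → E d}, f.HasTemperateGrowth →
        (fun z : Z d => f (t, z)).HasTemperateGrowth := fun hf =>
      tg_comp hf (tg_prodMk (HasTemperateGrowth.const t) tg_id)
    have tg_g : ∀ i ∈ s, (g i).HasTemperateGrowth := fun i hi' =>
      (ContinuousLinearMap.id ℝ (E d →L[ℝ] E d)).bilinear_hasTemperateGrowth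
        (tg_comp (tg_fderiv (hi i hi').1) (tsl (tg_P tb (hi i hi').2.1 J T)))
        ((HasTemperateGrowth.const c).fun_smul (tg_iter tb (hi i hi').2.1 (J + 1)))
    have tW' : W'.HasTemperateGrowth := (tg_sum s tg_g).fun_add
      ((HasTemperateGrowth.const _).fun_smul (tg_iter tb hh (J + 1)))
    have hder : ∀ z, fderiv ℝ W (t, z) (1, b z) = W' z := by
      intro z
      have h1 := (HasFDerivAt.fun_sum (u := s) fun i hi' =>
        (tg_diff (hi i hi').1 (P b J T (u i) (t, z))).hasFDerivAt.comp (t, z)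
          (tg_diff (tg_P tb (hi i hi').2.1 J T) (t, z)).hasFDerivAt).fun_sub
          (tg_diff (tg_P tb hh J T) (t, z)).hasFDerivAt
      have e : W = fun p => ∑ i ∈ s, (Φ i ∘ P b J T (u i)) p - P b J T h p := rfl
      rw [e, h1.fderiv]
      simp only [_root_.sub_apply, _root_.sum_apply,
        ContinuousLinearMap.comp_apply, fderiv_P tb hh, hW', hg, neg_smul, ← sub_eq_add_neg]
      congr 1
      exact Finset.sum_congr rfl fun i hi' => by rw [fderiv_P tb (hi i hi').2.1]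
    have hE' := hE d U β _ hU hr
    have hn : Ex U (r₀ + sh X * t) (fun z => ‖W' z‖ ^ 2) ≤
        (|T| ^ J * (∑ i ∈ s, L i * A i + B)) ^ 2 := by
      have h1 := hE'.2.2.2 ι s g (fun i => |T| ^ J * (L i * A i)) fun i hi' => by
        obtain ⟨tΦ, tu, hL, hA, hLip⟩ := hi i hi'
        refine ⟨tg_g i hi', by positivity, ?_⟩
        have h2 := (hE'.2.2.1 _ (A i) (tg_iter tb tu (J + 1)) hA ((hb t ht).2.1 i hi')).2.2.1
          (|T| ^ J * L i)
        rw [abs_of_nonneg (by positivity : 0 ≤ |T| ^ J * L i), mul_assoc] at h2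
        refine le_trans (Ex_mono hM hU hr (tg_normsq (tg_g i hi'))
          (tg_normsq ((HasTemperateGrowth.const _).fun_smul (tg_iter tb tu (J + 1)))) fun z => ?_) h2
        refine pow_le_pow_left₀ (norm_nonneg _) ((ContinuousLinearMap.le_opNorm _ _).trans ?_) 2
        rw [norm_smul, norm_smul, Real.norm_eq_abs, Real.norm_eq_abs,
          abs_of_nonneg (by positivity : 0 ≤ |T| ^ J * L i)]
        have h3 := norm_fderiv_le hL hLip (P b J T (u i) (t, z))
        calc _ ≤ L i * (|T| ^ J * ‖((act b)^[J + 1] (u i)) z‖) := by gcongr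
          _ = _ := by ring
      have h2 := (hE'.2.2.1 _ B (tg_iter tb hh (J + 1)) hB (hb t ht).2.2).2.2.1 (-c)
      have hS' : 0 ≤ ∑ i ∈ s, |T| ^ J * (L i * A i) := by rw [← Finset.mul_sum]; positivity
      have h3 := (hE'.2.2.1 _ _ (tg_sum s tg_g) hS' h1).2.2.2 _ _
        ((HasTemperateGrowth.const (-c)).fun_smul (tg_iter tb hh (J + 1))) (by positivity) h2
      refine h3.trans (pow_le_pow_left₀ (by positivity) ?_ 2)
      rw [← Finset.mul_sum, abs_neg, mul_add]
      gcongr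
    have hpt : ∀ z, ‖fderiv ℝ (fun p => ‖W p‖ ^ 2) (t, z) (1, b z)‖ ≤
        l * ‖W (t, z)‖ ^ 2 + l⁻¹ * ‖W' z‖ ^ 2 := by
      intro z
      rw [(tg_diff tW (t, z)).hasFDerivAt.norm_sq.fderiv]
      simp only [_root_.smul_apply, ContinuousLinearMap.comp_apply, innerSL_apply_apply,
        hder, nsmul_eq_mul, Nat.cast_ofNat, norm_mul, Real.norm_ofNat]
      have h1 := norm_inner_le_norm (𝕜 := ℝ) (W (t, z)) (W' z)
      have h2 : 2 * (‖W (t, z)‖ * ‖W' z‖) ≤ l * ‖W (t, z)‖ ^ 2 + l⁻¹ * ‖W' z‖ ^ 2 := by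
        have : l * ‖W (t, z)‖ ^ 2 + l⁻¹ * ‖W' z‖ ^ 2 - 2 * (‖W (t, z)‖ * ‖W' z‖) =
          l⁻¹ * (l * ‖W (t, z)‖ - ‖W' z‖) ^ 2 := by field_simp; ring
        have h3 : 0 ≤ l⁻¹ * (l * ‖W (t, z)‖ - ‖W' z‖) ^ 2 := by positivity
        linarith
      linarith
    have t1 := (HasTemperateGrowth.const l).fun_mul (tg_normsq (tsl tW))
    have t2 := (HasTemperateGrowth.const l⁻¹).fun_mul (tg_normsq tW')
    calc _ ≤ Ex U (r₀ + sh X * t) (fun z => l * ‖W (t, z)‖ ^ 2 + l⁻¹ * ‖W' z‖ ^ 2) :=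
          norm_integral_le_of_norm_le (integ hM hU hr (t1.fun_add t2))
            (Filter.Eventually.of_forall fun q => hpt _)
      _ = l * Ex U (r₀ + sh X * t) (fun z => ‖W (t, z)‖ ^ 2) +
            l⁻¹ * Ex U (r₀ + sh X * t) (fun z => ‖W' z‖ ^ 2) := by
          rw [Ex_add hM hU hr t1 t2, Ex_cmul, Ex_cmul]
      _ ≤ _ := by gcongr
  · simpa only [hW, P, sub_self, tay_zero] using hT

end Crest.Agent.LCS
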