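import Crest.Agent.LCS.Gibbs

/-! JOB A2: Gaussian facts, moments from `W₁`-closeness, mollification. -/

set_option autoImplicit false
open MeasureTheory Filter Topology
open scoped Convolution

namespace Crest.Agent.LCS

variable {d : ℕ}

theorem hessB_zero : HessB (fun _ : E d => (0 : ℝ)) 0 0 :=
  ⟨contDiff_const, fun x h => by simp⟩

theorem hessB_gam : HessB (fun z : E d => ‖z‖ ^ 2 / 2) 1 1 := by
  simpa using ((hessB_zero (d := d)).add_quad 0 1).1

instance gam_prob : IsProbabilityMeasure (gam d) := hessB_gam.prob one_pos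

theorem pg_norm : PG (fun z : E d => ‖z‖) := PG.id.of_le 1 fun y => by simp

theorem gam_integrable {F : Type} [NormedAddCommGroup F] [NormedSpace ℝ F] {f : E d → F}
    (hf : Continuous f) (hp : PG f) : Integrable f (gam d) := hessB_gam.integrable one_pos hf hp

theorem gam_int_sq : Integrable (fun z : E d => ‖z‖ ^ 2) (gam d) :=
  gam_integrable (by fun_prop) (by simpa [sq] using (pg_norm (d := d)).mul pg_norm)

theorem gam_int_norm : Integrable (fun z : E d => ‖z‖) (gam d) :=
  gam_integrable (by fun_prop) pg_norm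

theorem gam_coord_sq (k : Fin d) : ∫ z, z k * z k ∂(gam d) = 1 := by
  have hl : ∀ y : E d, fderiv ℝ (fun z : E d => z k) y = EuclideanSpace.proj k := fun y =>
    (EuclideanSpace.proj (𝕜 := ℝ) k).fderiv
  have hp : PG (fun z : E d => z k) := PG.id.of_le 1 fun y => by
    simpa using PiLp.norm_apply_le y k
  have h := hessB_gam.ibp one_pos (f := fun z : E d => z k)
    (EuclideanSpace.proj (𝕜 := ℝ) k).contDiff hp
    (by
      have : fderiv ℝ (fun z : E d => z k) = fun _ => EuclideanSpace.proj k := funext hl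
      rw [this]; exact PG.const _) (EuclideanSpace.single k 1)
  have hq : ∀ y : E d, fderiv ℝ (fun z : E d => ‖z‖ ^ 2 / 2) y (EuclideanSpace.single k 1) = y k := by
    intro y
    have := (hasFDerivAt_quad (0 : E d) 1 y).fderiv
    simp only [sub_zero, mul_one, inv_one, one_smul] at this
    rw [this]
    simp [EuclideanSpace.inner_single_right]
  simp only [hl, hq] at h
  have h1 : IsProbabilityMeasure (gibbs fun z : E d => ‖z‖ ^ 2 / 2) := gam_prob
  unfold gam
  rw [← h]
  simp

theorem gam_sq : ∫ z, ‖z‖ ^ 2 ∂(gam d) = d := by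
  have hp : ∀ k : Fin d, PG (fun z : E d => z k) := fun k => PG.id.of_le 1 fun y => by
    simpa using PiLp.norm_apply_le y k
  have : (fun z : E d => ‖z‖ ^ 2) = fun z => ∑ k, z k * z k := by
    funext z
    rw [EuclideanSpace.norm_sq_eq]
    simp [sq]
  rw [this, integral_finsetSum _ fun k _ => gam_integrable (by fun_prop) ((hp k).mul (hp k))]
  simp [gam_coord_sq]

theorem gam_norm : ∫ z, ‖z‖ ∂(gam d) ≤ √(d : ℝ) := by
  set m := ∫ z, ‖z‖ ∂(gam d) with hm
  have h1 : 0 ≤ ∫ z, (‖z‖ ^ 2 - 2 * m * ‖z‖ + m ^ 2) ∂(gam d) :=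
    integral_nonneg fun z => by have := sq_nonneg (‖z‖ - m); simp only [Pi.zero_apply]; nlinarith
  have i1 : Integrable (fun z : E d => ‖z‖ ^ 2 - 2 * m * ‖z‖) (gam d) :=
    gam_int_sq.sub (gam_int_norm.const_mul _)
  rw [integral_add i1 (integrable_const _),
    integral_sub gam_int_sq (gam_int_norm.const_mul _), integral_const_mul, gam_sq, ← hm] at h1
  simp only [integral_const, probReal_univ, one_smul] at h1
  exact Real.le_sqrt_of_sq_le (by nlinarith)

theorem charFun_gam (t : E d) : charFun (gam d) t = Complex.exp (-(‖t‖ ^ 2 / 2 : ℝ)) := by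
  have key : ∀ t : E d, ∫ y : E d, Real.exp (-(‖y‖ ^ 2 / 2)) • Complex.exp (inner ℝ y t * Complex.I) =
      ((Real.pi : ℂ) / (1 / 2)) ^ (Module.finrank ℝ (E d) / 2 : ℂ) *
        Complex.exp (-(‖t‖ ^ 2 / 2 : ℝ)) := by
    intro t
    have := GaussianFourier.integral_cexp_neg_mul_sq_norm_add (V := E d) (b := 1 / 2) (by norm_num)
      Complex.I t
    convert this using 2
    · funext y
      rw [Complex.real_smul, Complex.ofReal_exp, ← Complex.exp_add, real_inner_comm]
      congr 1
      push_cast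
      ring
    · rw [Complex.I_sq]
      congr 1
      push_cast
      ring
  have h0 : charFun (gam d) 0 = 1 := by simp
  have h1 : ∀ t : E d, charFun (gam d) t = (∫ y : E d, Real.exp (-(‖y‖ ^ 2 / 2)))⁻¹ •
      (((Real.pi : ℂ) / (1 / 2)) ^ (Module.finrank ℝ (E d) / 2 : ℂ) *
        Complex.exp (-(‖t‖ ^ 2 / 2 : ℝ))) := by
    intro t
    rw [charFun_apply, gam, hessB_gam.integral_eq one_pos, key]
  rw [h1] at h0
  rw [h1, ← smul_mul_assoc]
  rw [← smul_mul_assoc] at h0
  simp only [norm_zero, ne_eq, OfNat.ofNat_ne_zero, not_false_eq_true, zero_pow, zero_div,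
    Complex.ofReal_zero, neg_zero, Complex.exp_zero, mul_one] at h0
  rw [h0, one_mul]

theorem gam_conv (a b : ℝ) : ((gam d).prod (gam d)).map (fun q => a • q.1 + b • q.2) =
    (gam d).map (fun z => √(a ^ 2 + b ^ 2) • z) := by
  have e : ((gam d).prod (gam d)).map (fun q => a • q.1 + b • q.2) =
      ((gam d).map (fun z => a • z)) ∗ ((gam d).map (fun z => b • z)) := by
    rw [Measure.conv, Measure.map_prod_map _ _ (by fun_prop) (by fun_prop),
      Measure.map_map (by fun_prop) (by fun_prop)]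
    rfl
  rw [e]
  refine Measure.ext_of_charFun ?_
  funext t
  rw [charFun_conv, charFun_map_smul, charFun_map_smul, charFun_map_smul, charFun_gam,
    charFun_gam, charFun_gam, ← Complex.exp_add]
  congr 1
  rw [norm_smul, norm_smul, norm_smul, mul_pow, mul_pow, mul_pow, Real.norm_eq_abs,
    Real.norm_eq_abs, Real.norm_eq_abs, sq_abs, sq_abs, sq_abs, Real.sq_sqrt (by positivity)]
  push_cast
  ring

theorem DL.moment {μ ν : Measure (E d)} {ε : ℝ} [IsProbabilityMeasure μ] [IsProbabilityMeasure ν]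
    (h : DL μ ν ε) (hν : Integrable (fun y : E d => ‖y‖) ν) :
    Integrable (fun y : E d => ‖y‖) μ ∧ ∫ y, ‖y‖ ∂μ ≤ ∫ y, ‖y‖ ∂ν + ε := by
  set φ : ℕ → E d → ℝ := fun n y => min ‖y‖ n with hφ
  have hφ0 : ∀ n y, 0 ≤ φ n y := fun n y => le_min (norm_nonneg _) (Nat.cast_nonneg _)
  have hφb : ∀ n y, |φ n y| ≤ n := fun n y => by
    rw [abs_of_nonneg (hφ0 n y)]; exact min_le_right _ _
  have hφc : ∀ n, Continuous (φ n) := fun n => by fun_prop
  have hint : ∀ (ρ : Measure (E d)) [IsProbabilityMeasure ρ] n, Integrable (φ n) ρ :=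
    fun ρ _ n => (integrable_const (n : ℝ)).mono' (hφc n).aestronglyMeasurable
      (Eventually.of_forall (hφb n))
  have hle : ∀ n, ∫ y, φ n y ∂μ ≤ ∫ y, ‖y‖ ∂ν + ε := by
    intro n
    have h1 := (abs_le.1 (h (φ n) ⟨lipschitzWith_one_norm.min_const _, n, hφb n⟩)).2
    have h2 : ∫ y, φ n y ∂ν ≤ ∫ y, ‖y‖ ∂ν := integral_mono (hint ν n) hν fun y => min_le_left _ _
    linarith
  have hmono : ∀ y, Monotone fun n => φ n y := fun y m n hmn =>
    min_le_min_left _ (Nat.cast_le.2 hmn)
  have hlim : ∀ y, Tendsto (fun n => φ n y) atTop (𝓝 ‖y‖) := by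
    intro y
    refine tendsto_const_nhds.congr' ?_
    filter_upwards [eventually_ge_atTop ⌈‖y‖⌉₊] with n hn
    exact (min_eq_left ((Nat.le_ceil _).trans (Nat.cast_le.2 hn))).symm
  have hL : Tendsto (fun n => ∫⁻ y, ENNReal.ofReal (φ n y) ∂μ) atTop
      (𝓝 (∫⁻ y, ENNReal.ofReal ‖y‖ ∂μ)) :=
    lintegral_tendsto_of_tendsto_of_monotone
      (fun n => (hφc n).measurable.ennreal_ofReal.aemeasurable)
      (Eventually.of_forall fun y m n hmn => ENNReal.ofReal_le_ofReal (hmono y hmn))
      (Eventually.of_forall fun y => ENNReal.tendsto_ofReal (hlim y))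
  have hb : ∫⁻ y, ENNReal.ofReal ‖y‖ ∂μ ≤ ENNReal.ofReal (∫ y, ‖y‖ ∂ν + ε) := by
    refine le_of_tendsto' hL fun n => ?_
    rw [← ofReal_integral_eq_lintegral_ofReal (hint μ n) (Eventually.of_forall (hφ0 n))]
    exact ENNReal.ofReal_le_ofReal (hle n)
  have hi : Integrable (fun y : E d => ‖y‖) μ := by
    refine ⟨continuous_norm.aestronglyMeasurable, ?_⟩
    rw [hasFiniteIntegral_iff_ofReal (Eventually.of_forall fun y => norm_nonneg y)]
    exact hb.trans_lt ENNReal.ofReal_lt_top
  refine ⟨hi, le_of_tendsto' (integral_tendsto_of_tendsto_of_monotone (hint μ) hi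
    (Eventually.of_forall hmono) (Eventually.of_forall hlim)) hle⟩

theorem BL.mollify {φ : E d → ℝ} (hφ : BL φ) {ε : ℝ} (hε : 0 < ε) :
    ∃ ψ : E d → ℝ, BL ψ ∧ ψ.HasTemperateGrowth ∧ ∀ x, |ψ x - φ x| ≤ ε := by
  obtain ⟨hL, M, hM⟩ := hφ
  have hc := hL.continuous
  have hloc : LocallyIntegrable φ volume := hc.locallyIntegrable
  let cv : (E d → ℝ) → E d → ℝ := fun χ => φ ⋆[ContinuousLinearMap.lsmul ℝ ℝ, volume] χ
  have hcv : ∀ χ x, cv χ x = ∫ t, φ (x - t) * χ t := fun χ x => convolution_lsmul_swap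
  have hint : ∀ χ : E d → ℝ, Continuous χ → HasCompactSupport χ → ∀ x,
      Integrable (fun t => φ (x - t) * χ t) := fun χ h1 h2 x =>
    Continuous.integrable_of_hasCompactSupport (by fun_prop) h2.mul_left
  have hbd : ∀ χ : E d → ℝ, Continuous χ → HasCompactSupport χ → ∀ x,
      |cv χ x| ≤ M * ∫ t, |χ t| := by
    intro χ h1 h2 x
    rw [hcv, ← integral_const_mul, ← Real.norm_eq_abs]
    refine norm_integral_le_of_norm_le
      ((h1.integrable_of_hasCompactSupport h2).abs.const_mul M) (Eventually.of_forall fun t => ?_)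
    rw [Real.norm_eq_abs, abs_mul]
    exact mul_le_mul_of_nonneg_right (hM _) (abs_nonneg _)
  let 𝒮 : Set (E d → ℝ) := {g | ∃ χ : E d → ℝ, ContDiff ℝ (⊤ : ℕ∞) χ ∧ HasCompactSupport χ ∧ g = cv χ}
  have h𝒮 := tg_of_class 𝒮 (by
    rintro _ ⟨χ, h1, h2, rfl⟩
    have hd := fun x => h2.hasFDerivAt_convolution_right (ContinuousLinearMap.lsmul ℝ ℝ) hloc
      (h1.of_le (by exact_mod_cast le_top)) x
    refine ⟨fun x => (hd x).differentiableAt, ⟨M * ∫ t, |χ t|, 0, fun x => by
      simpa using hbd χ h1.continuous h2 x⟩, fun e => Algebra.subset_adjoin ?_⟩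
    have h3 : ContDiff ℝ (⊤ : ℕ∞) (fderiv ℝ χ) := (contDiff_infty_iff_fderiv.1 h1).2
    refine ⟨fun a => fderiv ℝ χ a e, h3.clm_apply contDiff_const,
      h2.fderiv_apply (𝕜 := ℝ) e, ?_⟩
    funext x
    simp only [pd]
    rw [(hd x).fderiv, convolution_precompR_apply _ hloc (h2.fderiv ℝ) h3.continuous])
  let b : ContDiffBump (0 : E d) := ⟨ε / 2, ε, by positivity, by linarith⟩
  have hbc : Continuous (b.normed volume) := b.continuous_normed
  have hbs : HasCompactSupport (b.normed volume) := b.hasCompactSupport_normed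
  have hb1 : ∫ t, b.normed volume t = 1 := b.integral_normed
  have hbi : Integrable (b.normed volume) := b.integrable_normed
  refine ⟨cv (b.normed volume), ⟨?_, _, hbd _ hbc hbs⟩,
    h𝒮 _ (Algebra.subset_adjoin ⟨_, b.contDiff_normed, hbs, rfl⟩), fun x => ?_⟩
  · refine LipschitzWith.of_dist_le_mul fun x y => ?_
    rw [Real.dist_eq, hcv, hcv, ← integral_sub (hint _ hbc hbs x) (hint _ hbc hbs y),
      ← Real.norm_eq_abs]
    refine (norm_integral_le_of_norm_le (hbi.const_mul (dist x y))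
      (Eventually.of_forall fun t => ?_)).trans (by rw [integral_const_mul, hb1]; simp)
    rw [← sub_mul, norm_mul, Real.norm_of_nonneg (b.nonneg_normed t)]
    refine mul_le_mul_of_nonneg_right ?_ (b.nonneg_normed t)
    have := hL.dist_le_mul (x - t) (y - t)
    simpa [Real.dist_eq] using this
  · have e : φ x = ∫ t, φ x * b.normed volume t := by rw [integral_const_mul, hb1, mul_one]
    rw [hcv]
    conv_lhs => rw [e]
    rw [← integral_sub (hint _ hbc hbs x) (hbi.const_mul _), ← Real.norm_eq_abs]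
    refine (norm_integral_le_of_norm_le (hbi.const_mul ε)
      (Eventually.of_forall fun t => ?_)).trans (by rw [integral_const_mul, hb1]; simp)
    rw [← sub_mul, norm_mul, Real.norm_of_nonneg (b.nonneg_normed t)]
    by_cases ht : b.normed volume t = 0
    · simp [ht]
    refine mul_le_mul_of_nonneg_right ?_ (b.nonneg_normed t)
    have h1 : t ∈ Function.support (b.normed volume) := ht
    rw [b.support_normed_eq, mem_ball_zero_iff] at h1
    have := hL.dist_le_mul (x - t) x
    simp only [NNReal.coe_one, one_mul, dist_eq_norm, sub_sub_cancel_left, norm_neg] at this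
    exact this.trans h1.le

theorem gaussAPI : GaussAPI := fun _ =>
  ⟨gam_prob, hessB_gam, gam_int_sq, gam_sq, gam_int_norm, gam_norm, gam_conv,
    fun _ _ _ _ _ h hν => h.moment hν, fun _ hφ _ hε => hφ.mollify hε⟩

end Crest.Agent.LCS
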