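import Crest.Agent.LCS.Poincare
import Crest.Agent.LCS.Gauss

/-! JOB A4: facts about the smoothed gradient and the ideal ladder kernel. -/

set_option autoImplicit false
open MeasureTheory Filter Topology

namespace Crest.Agent.LCS

variable {d : ℕ}

theorem HessB.mono {W : E d → ℝ} {lo hi lo' : ℝ} (h : HessB W lo hi) (hl : lo' ≤ lo) :
    HessB W lo' hi :=
  ⟨h.1, fun x k => ⟨(mul_le_mul_of_nonneg_right hl (sq_nonneg _)).trans (h.2 x k).1, (h.2 x k).2⟩⟩

theorem pg_inner (e : E d) : PG (fun y : E d => inner ℝ e y) :=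
  PG.id.of_le ‖e‖ fun y => by simpa using abs_real_inner_le_norm e y

theorem var_le {W : E d → ℝ} {lo hi : ℝ} (hlo : 0 < lo) (h : HessB W lo hi) {f : E d → ℝ}
    (hf : ContDiff ℝ 1 f) (hp : PG f) {L : ℝ} (hL : ∀ y, ‖fderiv ℝ f y‖ ≤ L) :
    ∫ y, f y ^ 2 ∂(gibbs W) - (∫ y, f y ∂(gibbs W)) ^ 2 ≤ lo⁻¹ * L ^ 2 := by
  have := h.prob hlo
  have hp' : PG (fderiv ℝ f) := ⟨L, 0, fun y => by simpa using hL y⟩
  have hdc : Continuous (fderiv ℝ f) := hf.continuous_fderiv (by simp)
  refine (po d W lo hi hlo h f hf hp hp').trans (mul_le_mul_of_nonneg_left ?_ (by positivity))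
  calc _ ≤ ∫ _, L ^ 2 ∂(gibbs W) := integral_mono
        (h.integrable hlo (by fun_prop) (PG.pow (hp'.of_le 1 fun y => by simp) 2))
        (integrable_const _) fun y => pow_le_pow_left₀ (norm_nonneg _) (hL y) 2
    _ = L ^ 2 := by simp

theorem cov_le {W : E d → ℝ} {lo hi : ℝ} (hlo : 0 < lo) (h : HessB W lo hi) {f g : E d → ℝ}
    (hf : ContDiff ℝ 1 f) (hp : PG f) {L : ℝ} (hL : ∀ y, ‖fderiv ℝ f y‖ ≤ L)
    (hg : ContDiff ℝ 1 g) (hq : PG g) {L' : ℝ} (hL' : ∀ y, ‖fderiv ℝ g y‖ ≤ L') :
    |∫ y, f y * g y ∂(gibbs W) - (∫ y, f y ∂(gibbs W)) * ∫ y, g y ∂(gibbs W)| ≤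
      lo⁻¹ * (L * L') := by
  have := h.prob hlo
  have hfc := hf.continuous
  have hgc := hg.continuous
  have v1 := var_le hlo h hf hp hL
  have v2 := var_le hlo h hg hq hL'
  have hL0 : 0 ≤ L := (norm_nonneg _).trans (hL 0)
  have hL0' : 0 ≤ L' := (norm_nonneg _).trans (hL' 0)
  have i1 := h.integrable hlo hfc hp
  have i2 := h.integrable hlo hgc hq
  have i3 := h.integrable hlo (f := fun y => f y ^ 2) (by fun_prop) (hp.pow 2)
  have i4 := h.integrable hlo (f := fun y => g y ^ 2) (by fun_prop) (hq.pow 2)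
  have i5 := h.integrable hlo (f := fun y => f y * g y) (by fun_prop) (hp.mul hq)
  set mf := ∫ y, f y ∂(gibbs W)
  set mg := ∫ y, g y ∂(gibbs W)
  set A := ∫ y, f y ^ 2 ∂(gibbs W) - mf ^ 2
  set B := ∫ y, g y ^ 2 ∂(gibbs W) - mg ^ 2
  set C := ∫ y, f y * g y ∂(gibbs W) - mf * mg
  have key : ∀ s t : ℝ, 0 ≤ A * (t * t) + 2 * C * s * t + B * (s * s) := by
    intro s t
    set c := t * mf + s * mg with hc
    have h1 : 0 ≤ ∫ y, (t ^ 2 * f y ^ 2 + 2 * s * t * (f y * g y) + s ^ 2 * g y ^ 2 -
        2 * c * t * f y - 2 * c * s * g y + c ^ 2) ∂(gibbs W) :=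
      integral_nonneg fun y => by
        have := sq_nonneg (t * f y + s * g y - c)
        simp only [Pi.zero_apply]; nlinarith
    have j1 : Integrable (fun y => t ^ 2 * f y ^ 2 + 2 * s * t * (f y * g y)) (gibbs W) :=
      (i3.const_mul _).add (i5.const_mul _)
    have j2 : Integrable (fun y => t ^ 2 * f y ^ 2 + 2 * s * t * (f y * g y) + s ^ 2 * g y ^ 2)
      (gibbs W) := j1.add (i4.const_mul _)
    have j3 : Integrable (fun y => t ^ 2 * f y ^ 2 + 2 * s * t * (f y * g y) + s ^ 2 * g y ^ 2 -
      2 * c * t * f y) (gibbs W) := j2.sub (i1.const_mul _)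
    have j4 : Integrable (fun y => t ^ 2 * f y ^ 2 + 2 * s * t * (f y * g y) + s ^ 2 * g y ^ 2 -
      2 * c * t * f y - 2 * c * s * g y) (gibbs W) := j3.sub (i2.const_mul _)
    rw [integral_add j4 (integrable_const _), integral_sub j3 (i2.const_mul _),
      integral_sub j2 (i1.const_mul _), integral_add j1 (i4.const_mul _),
      integral_add (i3.const_mul _) (i5.const_mul _)] at h1
    simp only [integral_const_mul, integral_const, probReal_univ, one_smul] at h1
    refine h1.trans (le_of_eq ?_)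
    simp only [A, B, C, hc]
    ring
  have hA : 0 ≤ A := by simpa using key 0 1
  have hB : 0 ≤ B := by simpa using key 1 0
  have hd := discrim_le_zero (a := A) (b := 2 * C) (c := B) fun t => by simpa using key 1 t
  rw [discrim] at hd
  refine abs_le_of_sq_le_sq' ?_ (by positivity) |> abs_le.2
  calc C ^ 2 ≤ A * B := by nlinarith
    _ ≤ (lo⁻¹ * L ^ 2) * (lo⁻¹ * L' ^ 2) := by gcongr
    _ = _ := by ring

theorem post_lip {U : E d → ℝ} {lo β a : ℝ} (hlo : 0 ≤ lo) (h : HessB U lo β) (ha : 0 < a)
    {f : E d → ℝ} (hf : ContDiff ℝ 1 f) (hp : PG f) {L : ℝ} (hL : ∀ y, ‖fderiv ℝ f y‖ ≤ L)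
    (x x' : E d) :
    |∫ y, f y ∂(post U x a) - ∫ y, f y ∂(post U x' a)| ≤ L / (1 + a * lo) * ‖x - x'‖ := by
  obtain ⟨h1, h2⟩ := postAPI d U β a (h.mono hlo) ha f hf.continuous hp
  have hL0 : 0 ≤ L := (norm_nonneg _).trans (hL 0)
  refine Convex.norm_image_sub_le_of_norm_fderiv_le (𝕜 := ℝ) (s := Set.univ)
    (f := fun x => ∫ y, f y ∂(post U x a)) (fun z _ => h1 z) (fun z _ => ?_) convex_univ
    (Set.mem_univ x') (Set.mem_univ x)
  refine ContinuousLinearMap.opNorm_le_bound _ (by positivity) fun k => ?_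
  rw [h2, Real.norm_eq_abs, abs_mul, abs_of_pos (inv_pos.2 ha)]
  have := cov_le (lo := lo + 1 / a) (by positivity) (h.add_quad z a).1 hf hp hL
    (g := fun y => inner ℝ k y) (innerSL ℝ k).contDiff (pg_inner k) (L' := ‖k‖) fun y => by
      have : fderiv ℝ (fun y => inner ℝ k y) y = innerSL ℝ k := (innerSL ℝ k).fderiv
      rw [this, innerSL_apply_norm]
  refine (mul_le_mul_of_nonneg_left this (by positivity)).trans (le_of_eq ?_)
  field_simp
  ring

theorem gLip : GLip := by
  intro d U β a hβ h ha x y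
  set e := gv U a x - gv U a y with he
  have hgc : ContDiff ℝ 1 (gradient U) := contDiff_gradient h.1
  have hint : ∀ z, Integrable (gradient U) (post U z a) := fun z =>
    h.post_integrable ha z hgc.continuous (h.pg_grad le_rfl)
  have h1 := post_lip le_rfl h ha (f := fun y => inner ℝ e (gradient U y))
    ((innerSL ℝ e).contDiff.comp hgc)
    ((h.pg_grad le_rfl).of_le ‖e‖ fun y => abs_real_inner_le_norm e _)
    (L := ‖e‖ * β) (fun y => by
      have := ((innerSL ℝ e).hasFDerivAt.comp y (hgc.differentiable (by simp) y).hasFDerivAt).fderiv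
      refine (congrArg norm this).le.trans ((ContinuousLinearMap.opNorm_comp_le _ _).trans ?_)
      rw [innerSL_apply_norm]
      have := h.norm_le le_rfl y
      rw [abs_of_nonneg hβ] at this
      gcongr) x y
  rw [integral_inner (hint x), integral_inner (hint y), ← inner_sub_right] at h1
  change |inner ℝ e e| ≤ _ at h1
  rw [real_inner_self_eq_norm_sq, abs_of_nonneg (sq_nonneg _)] at h1
  simp only [mul_zero, add_zero, div_one] at h1
  rcases (norm_nonneg e).eq_or_lt with h0 | h0
  · rw [← h0]; positivity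
  · nlinarith

theorem gibbs_map_affine {W : E d → ℝ} (hW : Continuous W) (m : E d) {c : ℝ} (hc : 0 < c) :
    (gibbs (fun y => W (m + c • y))).map (fun y => m + c • y) = gibbs W := by
  set T : E d → E d := fun y => m + c • y with hT
  have hTm : Measurable T := by fun_prop
  set κ : ENNReal := ENNReal.ofReal |(c ^ Module.finrank ℝ (E d))⁻¹| with hκ
  have hκ0 : κ ≠ 0 := by
    rw [hκ]; exact (ENNReal.ofReal_pos.2 (abs_pos.2 (by positivity))).ne'
  have hκ1 : κ ≠ ⊤ := ENNReal.ofReal_ne_top
  have hvol : (volume : Measure (E d)).map T = κ • volume := by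
    have : T = (fun y => m + y) ∘ fun y => c • y := rfl
    rw [this, ← Measure.map_map (by fun_prop) (by fun_prop), Measure.map_addHaar_smul _ hc.ne',
      Measure.map_smul, map_add_left_eq_self]
  have hm : Measurable fun y => ENNReal.ofReal (Real.exp (-W y)) := by fun_prop
  have hν : ((volume : Measure (E d)).withDensity fun y => ENNReal.ofReal (Real.exp (-W (T y)))).map T
      = κ • (volume : Measure (E d)).withDensity fun y => ENNReal.ofReal (Real.exp (-W y)) := by
    ext s hs
    rw [Measure.map_apply hTm hs, withDensity_apply _ (hTm hs), Measure.smul_apply,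
      withDensity_apply _ hs, ← setLIntegral_map hs hm hTm, hvol, Measure.restrict_smul,
      lintegral_smul_measure]
  unfold gibbs Crest.OracleSampling.target
  simp only
  rw [Measure.map_smul, hν, smul_smul]
  congr 1
  have := congrArg (fun μ => μ Set.univ) hν
  simp only [Measure.map_apply hTm MeasurableSet.univ, Set.preimage_univ, Measure.smul_apply,
    smul_eq_mul] at this
  rw [this, ENNReal.mul_inv (Or.inl hκ0) (Or.inl hκ1), mul_comm, ← mul_assoc,
    ENNReal.mul_inv_cancel hκ0 hκ1, one_mul]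

theorem gScale : GScale := by
  intro d V m v h hv
  have hs : 0 < √v := Real.sqrt_pos.2 hv
  have hss : √v ^ 2 = v := Real.sq_sqrt hv.le
  have hVc := h.1.continuous
  have hH : HessB (mkU V m v) 0 (2 * v) := by
    have h1 : ContDiff ℝ 2 fun y => V (m + y) := h.1.comp (contDiff_const.add contDiff_id)
    have e : mkU V m v = (fun y => V (m + y)) ∘ (√v • ContinuousLinearMap.id ℝ (E d)) := rfl
    refine ⟨by rw [e]; exact h1.comp (ContinuousLinearMap.contDiff _), fun x k => ?_⟩
    have e2 : iteratedFDeriv ℝ 2 (mkU V m v) x ![k, k] =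
        iteratedFDeriv ℝ 2 V (m + √v • x) ![√v • k, √v • k] := by
      rw [e, ContinuousLinearMap.iteratedFDeriv_comp_right _ h1 _ le_rfl,
        ContinuousMultilinearMap.compContinuousLinearMap_apply, iteratedFDeriv_comp_add_left]
      congr 1
      funext i
      fin_cases i <;> rfl
    have := h.2 (m + √v • x) (√v • k)
    rw [norm_smul, mul_pow, Real.norm_of_nonneg hs.le, hss] at this
    rw [e2]
    exact ⟨by simpa using this.1, by linarith [this.2]⟩
  refine ⟨hH, fun x a ha => ?_⟩
  have hmap : (post (mkU V m v) x a).map (fun y => m + √v • y) = post V (m + √v • x) (v * a) := by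
    unfold post
    rw [← gibbs_map_affine (W := fun y => V y + ‖y - (m + √v • x)‖ ^ 2 / (2 * (v * a)))
      (by fun_prop) m hs]
    congr 2
    funext y
    have : m + √v • y - (m + √v • x) = √v • (y - x) := by module
    rw [this, norm_smul, mul_pow, Real.norm_of_nonneg hs.le, hss, mkU]
    field_simp
  refine ⟨hmap, ?_⟩
  have hg : ∀ y, gradient (mkU V m v) y = √v • gradient V (m + √v • y) := by
    intro y
    have h1 : HasFDerivAt (fun y : E d => m + √v • y) (√v • ContinuousLinearMap.id ℝ (E d)) y :=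
      ((hasFDerivAt_id y).const_smul √v).const_add m
    have h2 := ((h.1.differentiable (by simp) (m + √v • y)).hasFDerivAt.comp y h1).fderiv
    refine ext_inner_right ℝ fun k => ?_
    rw [← fderiv_eq_inner, real_inner_smul_left, ← fderiv_eq_inner]
    have h3 : fderiv ℝ (mkU V m v) y = _ := h2
    rw [h3]; simp
  unfold gv
  rw [← hmap, integral_map (by fun_prop) (contDiff_gradient h.1).continuous.aestronglyMeasurable,
    ← integral_smul]
  simp only [hg]

theorem pg_sub (x : E d) : PG (fun y : E d => y - x) := by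
  simpa [sub_eq_add_neg] using (PG.id (Y := E d)).add (PG.const (-x))

theorem mom_le {W : E d → ℝ} {lo hi : ℝ} (hlo : 0 < lo) (h : HessB W lo hi) (x : E d) :
    ∫ y, ‖y - x‖ ∂(gibbs W) ≤ ‖gradient W x‖ / lo + √(d : ℝ) / √lo := by
  have := h.prob hlo
  have hgc : Continuous (gradient W) := (contDiff_gradient h.1).continuous
  have hpg := h.pg_grad hlo.le
  have hpk : ∀ k : Fin d, PG (fun y : E d => (y - x) k) := fun k => (pg_sub x).of_le 1 fun y => by
    simpa using PiLp.norm_apply_le (y - x) k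
  have hpk' : ∀ k : Fin d, PG (fun y : E d => gradient W y k) := fun k => hpg.of_le 1 fun y => by
    simpa using PiLp.norm_apply_le (gradient W y) k
  have h1 : ∀ k : Fin d, ∫ y, (y - x) k * gradient W y k ∂(gibbs W) = 1 := by
    intro k
    have hl : ∀ y : E d, fderiv ℝ (fun z : E d => (z - x) k) y = EuclideanSpace.proj k := fun y =>
      ((EuclideanSpace.proj (𝕜 := ℝ) k).hasFDerivAt.comp y ((hasFDerivAt_id y).sub_const x)).fderiv
    have h2 := h.ibp hlo (f := fun z : E d => (z - x) k)
      ((EuclideanSpace.proj (𝕜 := ℝ) k).contDiff.comp (contDiff_id.sub contDiff_const)) (hpk k)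
      (by
        have : fderiv ℝ (fun z : E d => (z - x) k) = fun _ => EuclideanSpace.proj k := funext hl
        rw [this]; exact PG.const _) (EuclideanSpace.single k 1)
    simp only [hl, fderiv_eq_inner, EuclideanSpace.inner_single_right] at h2
    simpa using h2.symm
  have h2 : ∫ y, inner ℝ (gradient W y) (y - x) ∂(gibbs W) = d := by
    have : (fun y => inner ℝ (gradient W y) (y - x)) = fun y => ∑ k, (y - x) k * gradient W y k := by
      funext y
      rw [PiLp.inner_apply]
      simp
    rw [this, integral_finsetSum _ fun k _ => h.integrable hlo (by fun_prop) ((hpk k).mul (hpk' k))]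
    simp only [h1]; simp
  have pn : PG (fun y : E d => ‖y - x‖) := (pg_sub x).of_le 1 fun y => by simp
  have i1 := h.integrable hlo (f := fun y => ‖y - x‖) (by fun_prop) pn
  have i2 := h.integrable hlo (f := fun y => ‖y - x‖ ^ 2) (by fun_prop) (pn.pow 2)
  have i3 := h.integrable hlo (f := fun y => inner ℝ (gradient W y) (y - x)) (by fun_prop)
    (((hpg.of_le (g := fun y => ‖gradient W y‖) 1 fun y => by simp).mul pn).of_le 1 fun y => by
      rw [one_mul, norm_mul, norm_norm, norm_norm]; exact abs_real_inner_le_norm _ _)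
  set m := ∫ y, ‖y - x‖ ∂(gibbs W) with hm
  set g := ‖gradient W x‖
  have h3 : ∫ y, (lo * (2 * m * ‖y - x‖ - m ^ 2)) ∂(gibbs W) ≤
      ∫ y, (inner ℝ (gradient W y) (y - x) + g * ‖y - x‖) ∂(gibbs W) := by
    refine integral_mono (((i1.const_mul _).sub (integrable_const _)).const_mul _)
      (i3.add (i1.const_mul _)) fun y => ?_
    have a1 := h.mono_grad y x
    rw [inner_sub_left] at a1
    have a2 := (abs_le.1 (abs_real_inner_le_norm (gradient W x) (y - x))).1
    have a3 : 2 * m * ‖y - x‖ - m ^ 2 ≤ ‖y - x‖ ^ 2 := by nlinarith [sq_nonneg (‖y - x‖ - m)]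
    have a4 := mul_le_mul_of_nonneg_left a3 hlo.le
    simp only
    linarith
  rw [integral_const_mul, integral_sub (i1.const_mul _) (integrable_const _), integral_const_mul,
    integral_add i3 (i1.const_mul _), integral_const_mul, h2, ← hm] at h3
  simp only [integral_const, probReal_univ, one_smul] at h3
  have hsl : 0 < √lo := Real.sqrt_pos.2 hlo
  have hg : 0 ≤ g := norm_nonneg _
  by_contra hc
  push Not at hc
  set r := √(d : ℝ) / √lo with hr
  have hr0 : 0 ≤ r := by positivity
  have hr2 : lo * r ^ 2 = d := by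
    rw [hr, div_pow, Real.sq_sqrt hlo.le, Real.sq_sqrt (Nat.cast_nonneg _)]; field_simp
  have h4 : g + lo * r < lo * m := by
    have := mul_lt_mul_of_pos_left hc hlo
    rwa [mul_add, mul_div_cancel₀ _ hlo.ne'] at this
  have h5 : r < m := by nlinarith
  nlinarith

theorem gam_map_affine (y : E d) {a : ℝ} (ha : 0 < a) :
    (gam d).map (fun z => y + √a • z) = gibbs (fun x => ‖x - y‖ ^ 2 / (2 * a)) := by
  have hs : 0 < √a := Real.sqrt_pos.2 ha
  rw [← gibbs_map_affine (W := fun x => ‖x - y‖ ^ 2 / (2 * a)) (by fun_prop) y hs, gam]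
  congr 2
  funext z
  rw [add_sub_cancel_left, norm_smul, mul_pow, Real.norm_of_nonneg hs.le, Real.sq_sqrt ha.le]
  field_simp

theorem hessB_quad (y : E d) (a : ℝ) : HessB (fun x : E d => ‖x - y‖ ^ 2 / (2 * a)) (1 / a) (1 / a) := by
  simpa using ((hessB_zero (d := d)).add_quad y a).1

/-- Bayes formula -/
theorem bayes {V : E d → ℝ} {lo hi a : ℝ} (hlo : 0 < lo) (h : HessB V lo hi) (ha : 0 < a) :
    ∃ κ : ℝ, ∀ H : E d × E d → ℝ, Continuous H → ∀ M : ℝ, (∀ q, |H q| ≤ M) →
      ∫ q, H (q.1 + √a • q.2, q.1) ∂((gibbs V).prod (gam d)) =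
        κ * ∫ x, ∫ y, Real.exp (-(V y + ‖y - x‖ ^ 2 / (2 * a))) * H (x, y) := by
  have := h.prob hlo
  have hVc := h.1.continuous
  set C := ∫ x : E d, Real.exp (-(‖x‖ ^ 2 / (2 * a))) with hC
  have hC' : ∀ y : E d, ∫ x : E d, Real.exp (-(‖x - y‖ ^ 2 / (2 * a))) = C := fun y =>
    integral_sub_right_eq_self (fun x : E d => Real.exp (-(‖x‖ ^ 2 / (2 * a)))) y
  refine ⟨(∫ y, Real.exp (-V y))⁻¹ * C⁻¹, fun H hH M hM => ?_⟩
  have i1 : Integrable (fun q : E d × E d => H (q.1 + √a • q.2, q.1)) ((gibbs V).prod (gam d)) :=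
    (integrable_const M).mono' (by fun_prop) (Eventually.of_forall fun q => hM _)
  have i2 : Integrable (fun q : E d × E d =>
      Real.exp (-(V q.2 + ‖q.2 - q.1‖ ^ 2 / (2 * a))) * H (q.1, q.2)) (volume.prod volume) := by
    have j := (h.integrable_exp' hlo).convolution_integrand (ContinuousLinearMap.mul ℝ ℝ)
      ((hessB_quad (0 : E d) a).integrable_exp' (by positivity))
    refine (j.mul_const M).mono' (by fun_prop) (Eventually.of_forall fun q => ?_)
    rw [norm_mul, Real.norm_of_nonneg (Real.exp_pos _).le, ContinuousLinearMap.mul_apply',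
      ← Real.exp_add, sub_zero, norm_sub_rev, neg_add]
    exact mul_le_mul_of_nonneg_left (hM _) (Real.exp_pos _).le
  rw [integral_prod _ i1, integral_integral_swap
    (f := fun x y => Real.exp (-(V y + ‖y - x‖ ^ 2 / (2 * a))) * H (x, y)) i2, h.integral_eq hlo, smul_eq_mul, mul_assoc]
  congr 1
  rw [← integral_const_mul]
  congr 1
  funext y
  have e1 : ∫ z, H (y + √a • z, y) ∂(gam d) =
      ∫ x, H (x, y) ∂((gam d).map (fun z => y + √a • z)) := by
    rw [integral_map (by fun_prop) (by fun_prop)]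
  simp only
  rw [e1, gam_map_affine y ha, (hessB_quad y a).integral_eq (by positivity), hC', smul_eq_mul,
    smul_eq_mul, mul_left_comm, ← integral_const_mul]
  congr 2
  funext x
  rw [smul_eq_mul, ← mul_assoc, ← Real.exp_add, norm_sub_rev, neg_add]

theorem BL.integrable {φ : E d → ℝ} (hφ : BL φ) {X : Type} [MeasurableSpace X] (μ : Measure X)
    [IsProbabilityMeasure μ] {T : X → E d} (hT : Measurable T) : Integrable (fun q => φ (T q)) μ := by
  obtain ⟨h1, M, hM⟩ := hφ
  exact (integrable_const M).mono' (h1.continuous.measurable.comp hT).aestronglyMeasurable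
    (Eventually.of_forall fun q => hM _)

theorem abs_integral_sub_le {X : Type} [MeasurableSpace X] (μ : Measure X) [IsProbabilityMeasure μ]
    {f g : X → ℝ} (hf : Integrable f μ) (hg : Integrable g μ) {c : ℝ} (h : ∀ x, |f x - g x| ≤ c) :
    |∫ x, f x ∂μ - ∫ x, g x ∂μ| ≤ c := by
  rw [← integral_sub hf hg, ← Real.norm_eq_abs]
  simpa using norm_integral_le_of_norm_le_const (μ := μ) (f := fun x => f x - g x)
    (Eventually.of_forall h)

theorem post_lip_BL {U : E d → ℝ} {lo β a : ℝ} (hlo : 0 ≤ lo) (h : HessB U lo β) (ha : 0 < a)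
    {φ : E d → ℝ} (hφ : BL φ) (w : E d) {c : ℝ} (hc : 0 ≤ c) (x x' : E d) :
    |∫ y, φ (w + c • y) ∂(post U x a) - ∫ y, φ (w + c • y) ∂(post U x' a)| ≤
      c / (1 + a * lo) * ‖x - x'‖ := by
  refine le_of_forall_pos_le_add fun ε hε => ?_
  obtain ⟨ψ, hψ, hψt, hψφ⟩ := hφ.mollify (half_pos hε)
  have hd := tg_diff hψt
  have h1 := post_lip hlo h ha (f := fun y => ψ (w + c • y))
    ((hψt.1.of_le (by exact_mod_cast le_top)).comp (contDiff_const.add (contDiff_id.const_smul c)))
    (by obtain ⟨M, hM⟩ := hψ.2; exact pg_of_bdd M fun y => hM _) (L := c) (fun y => by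
      have a1 : HasFDerivAt (fun y : E d => w + c • y) (c • ContinuousLinearMap.id ℝ (E d)) y :=
        ((hasFDerivAt_id y).const_smul c).const_add w
      have a2 := ((hd (w + c • y)).hasFDerivAt.comp y a1).fderiv
      refine (congrArg norm a2).le.trans ((ContinuousLinearMap.opNorm_comp_le _ _).trans ?_)
      have a3 : ‖fderiv ℝ ψ (w + c • y)‖ ≤ 1 := by simpa using norm_fderiv_le_of_lipschitz ℝ hψ.1
      have a4 : ‖c • ContinuousLinearMap.id ℝ (E d)‖ ≤ c := by
        rw [norm_smul, Real.norm_of_nonneg hc]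
        exact mul_le_of_le_one_right hc ContinuousLinearMap.norm_id_le
      calc _ ≤ 1 * c := by gcongr
        _ = c := one_mul c) x x'
  have h2 : ∀ z, |∫ y, ψ (w + c • y) ∂(post U z a) - ∫ y, φ (w + c • y) ∂(post U z a)| ≤ ε / 2 := by
    intro z
    have := (h.mono hlo).post_prob ha z
    exact abs_integral_sub_le _ (hψ.integrable _ (by fun_prop)) (hφ.integrable _ (by fun_prop))
      fun y => hψφ _
  have a1 := abs_le.1 (h2 x)
  have a2 := abs_le.1 (h2 x')
  have a3 := abs_le.1 h1
  rw [abs_le]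
  constructor <;> linarith [a1.1, a1.2, a2.1, a2.2, a3.1, a3.2]

theorem gFacts : GFacts := by
  intro d V hV
  have h1 : HessB V 1 2 := ⟨hV.1, fun x k => by simpa using hV.2.2.2 x k⟩
  have h0 : HessB V 0 2 := h1.mono zero_le_one
  have hg0 : gradient V 0 = 0 := hV.2.2.1
  refine ⟨h0, h1, fun a ha ha1 => ?_⟩
  have hVc := h1.1.continuous
  have hgc : Continuous (gradient V) := (contDiff_gradient h1.1).continuous
  have hsa : 0 < √a := Real.sqrt_pos.2 ha
  have hsa1 : √a ≤ 1 := Real.sqrt_le_one.2 ha1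
  have hasa : a ≤ √a := by nlinarith [Real.mul_self_sqrt ha.le]
  have hsd : 0 ≤ √(d : ℝ) := Real.sqrt_nonneg _
  have hlip : ∀ x y, ‖gradient V x - gradient V y‖ ≤ 2 * ‖x - y‖ := fun x y => by
    simpa using h0.lip le_rfl x y
  have hprob : ∀ x, IsProbabilityMeasure (post V x a) := h0.post_prob ha
  have hpn : ∀ x : E d, PG (fun y : E d => ‖y - x‖) := fun x => (pg_sub x).of_le 1 fun y => by simp
  have hin : ∀ x, Integrable (fun y => ‖y - x‖) (post V x a) := fun x =>
    h0.post_integrable ha x (by fun_prop) (hpn x)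
  have hmom : ∀ x, ∫ y, ‖y - x‖ ∂(post V x a) ≤ 2 * a * ‖x‖ + √a * √(d : ℝ) := by
    intro x
    refine (mom_le (by positivity) (h0.post (a := a) x) x).trans ?_
    rw [(h0.add_quad x a).2 x, sub_self, smul_zero, add_zero]
    have := hlip x 0
    rw [hg0, sub_zero, sub_zero] at this
    refine add_le_add ?_ (le_of_eq ?_)
    · rw [div_div_eq_mul_div, div_one]; nlinarith
    · rw [one_div, Real.sqrt_inv, div_inv_eq_mul, mul_comm]
  have hdiff : ∀ x, ‖gradient V x - gv V a x‖ ≤ 2 * (2 * a * ‖x‖ + √a * √(d : ℝ)) := by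
    intro x
    have := hprob x
    have e : gradient V x - gv V a x = ∫ y, (gradient V x - gradient V y) ∂(post V x a) := by
      rw [integral_sub (integrable_const _) (h0.post_integrable ha x hgc (h0.pg_grad le_rfl))]
      simp [gv]
    rw [e]
    refine (norm_integral_le_of_norm_le ((hin x).const_mul 2)
      (Eventually.of_forall fun y => ?_)).trans ?_
    · rw [norm_sub_rev y]; exact hlip x y
    · rw [integral_const_mul]; linarith [hmom x]
  have hVp := h1.prob one_pos
  have hpiv : IsProbabilityMeasure (piv V a) := Measure.isProbabilityMeasure_map (by fun_prop)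
  refine ⟨fun x => ?_, fun x => ?_, ?_, fun c s hc hc1 hs => ?_⟩
  · have a1 := gLip d V 2 a (by norm_num) h0 ha x 0
    have a2 := hdiff 0
    rw [hg0, zero_sub, norm_neg, norm_zero] at a2
    rw [sub_zero] at a1
    have a3 := norm_add_le (gv V a x - gv V a 0) (gv V a 0)
    rw [sub_add_cancel] at a3
    nlinarith
  · refine (hdiff x).trans ?_
    nlinarith [norm_nonneg x, mul_nonneg hsa.le hsd]
  · have i1 : Integrable (fun y : E d => ‖y‖) (gibbs V) := h1.integrable one_pos (by fun_prop) pg_norm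
    have i2 : Integrable (fun q : E d × E d => ‖q.1‖ + √a * ‖q.2‖) ((gibbs V).prod (gam d)) :=
      (i1.comp_fst _).add ((gam_int_norm.comp_snd _).const_mul _)
    have hle : ∀ q : E d × E d, ‖q.1 + √a • q.2‖ ≤ ‖q.1‖ + √a * ‖q.2‖ := fun q => by
      refine (norm_add_le _ _).trans ?_
      rw [norm_smul, Real.norm_of_nonneg hsa.le]
    have i3 : Integrable (fun q : E d × E d => ‖q.1 + √a • q.2‖) ((gibbs V).prod (gam d)) :=
      i2.mono' (by fun_prop) (Eventually.of_forall fun q => by simpa using hle q)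
    refine ⟨hpiv, (integrable_map_measure (by fun_prop) (by fun_prop)).2 i3, ?_⟩
    rw [piv, integral_map (by fun_prop) (by fun_prop)]
    refine (integral_mono i3 i2 hle).trans ?_
    rw [integral_add (i1.comp_fst _) ((gam_int_norm.comp_snd _).const_mul _), integral_const_mul,
      integral_fun_fst (fun y : E d => ‖y‖), integral_fun_snd (fun y : E d => ‖y‖)]
    have a1 := mom_le one_pos h1 0
    simp only [sub_zero, hg0, norm_zero, Real.sqrt_one, div_one, zero_add] at a1
    simp only [probReal_univ, one_smul]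
    have a2 := gam_norm (d := d)
    have a3 : 0 ≤ ∫ z, ‖z‖ ∂(gam d) := integral_nonneg fun z => norm_nonneg _
    nlinarith
  have hc2 : 0 ≤ c ^ 2 := sq_nonneg c
  have hc21 : c ^ 2 ≤ 1 := by nlinarith
  have hQ : ∀ φ : E d → ℝ, BL φ → ∀ x, ∫ y, φ y ∂(Qk V a c s x) =
      ∫ q, φ ((1 - c ^ 2) • x + c ^ 2 • q.1 + s • q.2) ∂((post V x a).prod (gam d)) := by
    intro φ hφ x
    rw [Qk, integral_map (by fun_prop) hφ.1.continuous.aestronglyMeasurable]
  have hL : ∀ φ : E d → ℝ, BL φ → ∀ x x',
      |∫ y, φ y ∂(Qk V a c s x) - ∫ y, φ y ∂(Qk V a c s x')| ≤ (1 - c ^ 2 * a / 2) * ‖x - x'‖ := by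
    intro φ hφ x x'
    have := hprob x
    have := hprob x'
    rw [hQ φ hφ, hQ φ hφ]
    have a1 := abs_integral_sub_le ((post V x a).prod (gam d))
      (f := fun q => φ ((1 - c ^ 2) • x + c ^ 2 • q.1 + s • q.2))
      (g := fun q => φ ((1 - c ^ 2) • x' + c ^ 2 • q.1 + s • q.2))
      (hφ.integrable _ (by fun_prop)) (hφ.integrable _ (by fun_prop))
      (c := (1 - c ^ 2) * ‖x - x'‖) fun q => by
        have := hφ.1.dist_le_mul ((1 - c ^ 2) • x + c ^ 2 • q.1 + s • q.2)
          ((1 - c ^ 2) • x' + c ^ 2 • q.1 + s • q.2)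
        rw [Real.dist_eq, dist_add_right, dist_add_right, dist_eq_norm, ← smul_sub, norm_smul,
          Real.norm_of_nonneg (by linarith)] at this
        simpa using this
    have ia : ∀ z, IsProbabilityMeasure (post V z a) → Integrable
        (fun q : E d × E d => φ ((1 - c ^ 2) • x' + c ^ 2 • q.1 + s • q.2))
        ((post V z a).prod (gam d)) := fun z _ => hφ.integrable _ (by fun_prop)
    have a2 : |∫ q, φ ((1 - c ^ 2) • x' + c ^ 2 • q.1 + s • q.2) ∂((post V x a).prod (gam d)) -
        ∫ q, φ ((1 - c ^ 2) • x' + c ^ 2 • q.1 + s • q.2) ∂((post V x' a).prod (gam d))| ≤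
        c ^ 2 / (1 + a * 1) * ‖x - x'‖ := by
      rw [integral_prod_symm _ (ia x (hprob x)), integral_prod_symm _ (ia x' (hprob x'))]
      refine abs_integral_sub_le _ (ia x (hprob x)).integral_prod_right
        (ia x' (hprob x')).integral_prod_right fun z => ?_
      have := post_lip_BL zero_le_one h1 ha hφ ((1 - c ^ 2) • x' + s • z) hc2 x x'
      simpa only [add_right_comm _ (s • z)] using this
    have a3 : c ^ 2 / (1 + a * 1) ≤ c ^ 2 - c ^ 2 * a / 2 := by
      rw [div_le_iff₀ (by positivity)]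
      nlinarith [mul_nonneg (mul_nonneg hc2 ha.le) (sub_nonneg.2 ha1)]
    have a4 := mul_le_mul_of_nonneg_right a3 (norm_nonneg (x - x'))
    have b1 := abs_le.1 a1
    have b2 := abs_le.1 a2
    rw [abs_le]
    constructor <;> linarith [b1.1, b1.2, b2.1, b2.2]
  have hQp : ∀ x, IsProbabilityMeasure (Qk V a c s x) := fun x => by
    have := hprob x
    exact Measure.isProbabilityMeasure_map (by fun_prop)
  refine ⟨fun x => ?_, hL, fun φ hφ => ?_⟩
  · have := hprob x
    have i2 : Integrable (fun q : E d × E d => ‖x‖ + ‖q.1 - x‖ + s * ‖q.2‖)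
        ((post V x a).prod (gam d)) :=
      ((integrable_const _).add ((hin x).comp_fst _)).add ((gam_int_norm.comp_snd _).const_mul _)
    have hle : ∀ q : E d × E d, ‖(1 - c ^ 2) • x + c ^ 2 • q.1 + s • q.2‖ ≤
        ‖x‖ + ‖q.1 - x‖ + s * ‖q.2‖ := fun q => by
      have e : (1 - c ^ 2) • x + c ^ 2 • q.1 = x + c ^ 2 • (q.1 - x) := by module
      rw [e]
      refine norm_add₃_le.trans ?_
      rw [norm_smul, norm_smul, Real.norm_of_nonneg hs, Real.norm_of_nonneg hc2]
      nlinarith [norm_nonneg (q.1 - x)]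
    have i3 : Integrable (fun q : E d × E d => ‖(1 - c ^ 2) • x + c ^ 2 • q.1 + s • q.2‖)
        ((post V x a).prod (gam d)) :=
      i2.mono' (by fun_prop) (Eventually.of_forall fun q => by simpa using hle q)
    refine ⟨hQp x, (integrable_map_measure (by fun_prop) (by fun_prop)).2 i3, ?_⟩
    rw [Qk, integral_map (by fun_prop) (by fun_prop)]
    refine (integral_mono i3 i2 hle).trans ?_
    have j1 : Integrable (fun q : E d × E d => ‖x‖ + ‖q.1 - x‖) ((post V x a).prod (gam d)) :=
      (integrable_const _).add ((hin x).comp_fst _)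
    rw [integral_add j1 ((gam_int_norm.comp_snd _).const_mul _),
      integral_add (integrable_const _) ((hin x).comp_fst _), integral_const_mul,
      integral_fun_fst (fun y : E d => ‖y - x‖), integral_fun_snd (fun y : E d => ‖y‖)]
    simp only [integral_const, probReal_univ, one_smul]
    have a1 := hmom x
    have a2 := mul_le_mul_of_nonneg_left (gam_norm (d := d)) hs
    nlinarith [norm_nonneg x, mul_nonneg hsa.le hsd, mul_nonneg hs (norm_nonneg x)]
  · obtain ⟨κ, hκ⟩ := bayes one_pos h1 ha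
    obtain ⟨M, hM⟩ := hφ.2
    have hφc := hφ.1.continuous
    set K : E d → ℝ := fun x => ∫ y, φ y ∂(Qk V a c s x) with hK
    have hKc : Continuous K := by
      refine (LipschitzWith.of_dist_le_mul (K := 1) fun x x' => ?_).continuous
      rw [Real.dist_eq, dist_eq_norm]
      refine (hL φ hφ x x').trans ?_
      have : 0 ≤ c ^ 2 * a / 2 := by positivity
      simp only [NNReal.coe_one]
      gcongr; linarith
    have hKM : ∀ x, |K x| ≤ M := fun x => by
      have := hQp x
      simpa using norm_integral_le_of_norm_le_const (μ := Qk V a c s x) (f := φ)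
        (Eventually.of_forall hM)
    set H : E d × E d → ℝ := fun q => ∫ z, φ ((1 - c ^ 2) • q.1 + c ^ 2 • q.2 + s • z) ∂(gam d)
      with hH
    have hHc : Continuous H := by
      refine continuous_of_dominated (bound := fun _ => M) (fun q => by fun_prop)
        (fun q => Eventually.of_forall fun z => hM _) (integrable_const _)
        (Eventually.of_forall fun z => by fun_prop)
    have hHM : ∀ q, |H q| ≤ M := fun q => by
      simpa using norm_integral_le_of_norm_le_const (μ := gam d)
        (f := fun z => φ ((1 - c ^ 2) • q.1 + c ^ 2 • q.2 + s • z)) (Eventually.of_forall fun z => hM _)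
    have e1 := hκ (fun q => K q.1) (by fun_prop) M fun q => hKM _
    have e2 := hκ H hHc M hHM
    have e3 : ∀ x, ∫ y, Real.exp (-(V y + ‖y - x‖ ^ 2 / (2 * a))) * K x =
        ∫ y, Real.exp (-(V y + ‖y - x‖ ^ 2 / (2 * a))) * H (x, y) := by
      intro x
      have := hprob x
      have hZ := (h0.post (a := a) x).Z_pos (by positivity)
      rw [integral_mul_const, hK]
      simp only
      rw [hQ φ hφ, integral_prod _ (hφ.integrable _ (by fun_prop)), post,
        (h0.post (a := a) x).integral_eq (by positivity), smul_eq_mul, ← mul_assoc,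
        mul_inv_cancel₀ hZ.ne', one_mul]
      rfl
    simp only [e3] at e1
    rw [piv, integral_map (by fun_prop) hKc.aestronglyMeasurable, e1, ← e2, piv,
      integral_map (by fun_prop) hφc.aestronglyMeasurable,
      integral_prod _ ((integrable_const M).mono' (by fun_prop) (Eventually.of_forall fun q => hHM _)),
      integral_prod _ (hφ.integrable _ (by fun_prop))]
    congr 1
    funext y
    have e4 := gam_conv (d := d) ((1 - c ^ 2) * √a) s
    have e5 : ((1 - c ^ 2) * √a) ^ 2 + s ^ 2 = a * (1 - c ^ 2) ^ 2 + s ^ 2 := by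
      rw [mul_pow, Real.sq_sqrt ha.le]; ring
    rw [e5] at e4
    have e6 := congrArg (fun μ => ∫ w, φ (y + w) ∂μ) e4
    rw [integral_map (by fun_prop) (by fun_prop), integral_map (by fun_prop) (by fun_prop),
      integral_prod _ (hφ.integrable _ (by fun_prop))] at e6
    simp only
    rw [← e6]
    congr 1
    funext z
    simp only [hH]
    congr 1
    funext z'
    congr 1
    module

end Crest.Agent.LCS
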