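import Crest.Agent.LCS.Pd
import Crest.Agent.LCS.So

/-! JOB C1, part 1: commutation identities. -/

set_option autoImplicit false
set_option linter.unusedSectionVars false
open MeasureTheory Function

namespace Crest.Agent.LCS
variable {d : ℕ}

structure Cx (U : E d → ℝ) : Prop where
  rr_tg : rr.HasTemperateGrowth
  rr_d : ∀ t, HasDerivAt rr (Real.pi * (1 + t ^ 2))⁻¹ t
  rr_lt : ∀ t, |rr t| < 1 / 2
  psi_tg : (psi U).HasTemperateGrowth
  S1 : ∀ k q, S U {k} q = gv U (aa q.1) q.2 k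
  heat : ∀ q : ℝ × E d, Real.pi * (1 + q.1 ^ 2) * pd ((1 : ℝ), (0 : E d)) (psi U) q =
      -rr q.1 * ∑ k, S U {k, k} q + rr q.1 * ∑ k, S U {k} q ^ 2
  Gf_tg : (Gf U).HasTemperateGrowth
  bO_tg : ∀ j, (bO U j).HasTemperateGrowth
  fld_tg : ∀ J τ v X, (fld U J τ v X).HasTemperateGrowth

theorem Cx.of (hP : PsiAPI) {U : E d → ℝ} {β : ℝ} (hU : HessB U 0 β) : Cx U := by
  obtain ⟨h1, h2, h3, -, h5⟩ := hP
  obtain ⟨a, b, c, -, e, f, g⟩ := h5 d U β hU
  exact ⟨h1, h2, h3, a, b, c, e, f, g⟩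

theorem act_comm {Y F : Type} [NormedAddCommGroup Y] [NormedSpace ℝ Y] [NormedAddCommGroup F]
    [NormedSpace ℝ F] {b b' : Y → Y} {f : Y → F} (hb : Differentiable ℝ b) (hb' : Differentiable ℝ b')
    (hf : f.HasTemperateGrowth) (z : Y) :
    act (VectorField.lieBracket ℝ b b') f z = act b (act b' f) z - act b' (act b f) z :=
  VectorField.fderiv_apply_lieBracket hf.1.contDiffAt
    (by simp; exact WithTop.coe_le_coe.2 le_top) (hb' z) (hb z)

theorem euc_decomp (x : E d) : x = ∑ k, x k • EuclideanSpace.single k (1 : ℝ) := by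
  ext i; simp [Finset.sum_apply, Pi.single_apply]

theorem clm_decomp2 (L : ℝ × E d →L[ℝ] ℝ) (a : ℝ) (x : E d) :
    L (a, x) = a * L (1, 0) + ∑ k, x k * L (ex k) := by
  have : (a, x) = a • ((1 : ℝ), (0 : E d)) + ∑ k, x k • ex k := by
    ext : 1
    · simp [ex, Prod.fst_sum]
    · simp only [ex, Prod.snd_add, Prod.smul_snd, smul_zero, zero_add, Prod.snd_sum]
      exact euc_decomp x
  rw [this, map_add, map_smul, map_sum]; simp

theorem clm_decomp3 (L : Z d →L[ℝ] ℝ) (x y : E d) :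
    L (0, (x, y)) = ∑ k, x k * L (ew k) + ∑ k, y k * L (eξ k) := by
  have : ((0 : ℝ), (x, y)) = ∑ k, x k • ew k + ∑ k, y k • eξ k := by
    ext : 1
    · simp [ew, eξ, Prod.fst_sum]
    · ext : 1
      · simp only [ew, eξ, Prod.snd_add, Prod.fst_add, Prod.smul_snd, Prod.smul_fst, smul_zero,
          Prod.snd_sum, Prod.fst_sum, Finset.sum_const_zero, add_zero]
        exact euc_decomp x
      · simp only [ew, eξ, Prod.snd_add, Prod.smul_snd, smul_zero,
          Prod.snd_sum, Finset.sum_const_zero, zero_add]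
        exact euc_decomp y
  rw [this, map_add, map_sum, map_sum]; simp

noncomputable def dirc : Bool → Fin d → Z d
  | true, k => ew k
  | false, k => eξ k

noncomputable def rho : Bool → Z d → ℝ
  | true, z => rr z.1
  | false, _ => 0

noncomputable def Vc (U : E d → ℝ) : Bool → Fin d → Z d → ℝ
  | true, k, z => z.2.1 k + rr z.1 * Gf U z k
  | false, k, z => z.2.2 k

/-- the adjoint of `pd (dirc c k)` -/
noncomputable def dl (U : E d → ℝ) (c : Bool) (k : Fin d) (F : Z d → ℝ) : Z d → ℝ :=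
  fun z => Vc U c k z * F z - pd (dirc c k) F z

noncomputable def SL (U : E d → ℝ) (μ : Multiset (Fin d)) : Z d → ℝ := lift (S U μ)

theorem dirc_fst (c : Bool) (k : Fin d) : (dirc c k).1 = 0 := by cases c <;> rfl

theorem tg_fst : (fun z : Z d => z.1).HasTemperateGrowth :=
  (ContinuousLinearMap.fst ℝ ℝ (E d × E d)).hasTemperateGrowth
theorem tg_w : (fun z : Z d => z.2.1).HasTemperateGrowth :=
  ((ContinuousLinearMap.fst ℝ (E d) (E d)).comp
    (ContinuousLinearMap.snd ℝ ℝ (E d × E d))).hasTemperateGrowth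
theorem tg_xi : (fun z : Z d => z.2.2).HasTemperateGrowth :=
  ((ContinuousLinearMap.snd ℝ (E d) (E d)).comp
    (ContinuousLinearMap.snd ℝ ℝ (E d × E d))).hasTemperateGrowth
theorem tg_coord {Y : Type} [NormedAddCommGroup Y] [NormedSpace ℝ Y] {f : Y → E d}
    (hf : f.HasTemperateGrowth) (k : Fin d) : (fun z => f z k).HasTemperateGrowth :=
  tg_clm (EuclideanSpace.proj k : E d →L[ℝ] ℝ) hf
theorem act_coord {Y : Type} [NormedAddCommGroup Y] [NormedSpace ℝ Y] (b : Y → Y) {f : Y → E d}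
    (hf : Differentiable ℝ f) (k : Fin d) : act b (fun z => f z k) = fun z => act b f z k :=
  act_clm (EuclideanSpace.proj k : E d →L[ℝ] ℝ) b hf

theorem act_wk (b : Z d → Z d) (k : Fin d) : act b (fun z => z.2.1 k) = fun z => (b z).2.1 k := by
  funext z
  exact congrArg (fun L : Z d →L[ℝ] ℝ => L (b z)) (((EuclideanSpace.proj k : E d →L[ℝ] ℝ).comp
    ((ContinuousLinearMap.fst ℝ (E d) (E d)).comp
    (ContinuousLinearMap.snd ℝ ℝ (E d × E d)))).fderiv (x := z))

theorem act_xik (b : Z d → Z d) (k : Fin d) : act b (fun z => z.2.2 k) = fun z => (b z).2.2 k := by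
  funext z
  exact congrArg (fun L : Z d →L[ℝ] ℝ => L (b z)) (((EuclideanSpace.proj k : E d →L[ℝ] ℝ).comp
    ((ContinuousLinearMap.snd ℝ (E d) (E d)).comp
    (ContinuousLinearMap.snd ℝ ℝ (E d × E d)))).fderiv (x := z))

namespace Cx
variable {U : E d → ℝ} (h : Cx U)
include h

theorem tg_r : (fun z : Z d => rr z.1).HasTemperateGrowth := h.rr_tg.comp tg_fst

theorem tg_rho (c : Bool) : (rho c : Z d → ℝ).HasTemperateGrowth := by
  cases c
  · exact HasTemperateGrowth.const 0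
  · exact h.tg_r

theorem tg_S (μ : Multiset (Fin d)) : (S U μ).HasTemperateGrowth := tg_pdm _ _ h.psi_tg

theorem tg_lift {F : ℝ × E d → ℝ} (hF : F.HasTemperateGrowth) : (lift F).HasTemperateGrowth :=
  hF.comp (tg_prodMk tg_fst (h.tg_r.fun_smul tg_w))

theorem tg_SL (μ : Multiset (Fin d)) : (SL U μ).HasTemperateGrowth := h.tg_lift (h.tg_S μ)

theorem tg_D : (bD U).HasTemperateGrowth := h.fld_tg 0 0 0 .D

theorem tg_V (c : Bool) (k : Fin d) : (Vc U c k).HasTemperateGrowth := by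
  cases c
  · exact tg_coord tg_xi k
  · exact (tg_coord tg_w k).fun_add (h.tg_r.fun_mul (tg_coord h.Gf_tg k))

theorem tg_dl (c : Bool) (k : Fin d) {F : Z d → ℝ} (hF : F.HasTemperateGrowth) :
    (dl U c k F).HasTemperateGrowth := ((h.tg_V c k).fun_mul hF).fun_sub (tg_pd _ hF)

theorem G_eq (z : Z d) (k : Fin d) : Gf U z k = SL U {k} z := by
  simp only [SL, lift, h.S1, Gf]

theorem hasFDerivAt_r (z : Z d) : HasFDerivAt (fun z : Z d => rr z.1)
    ((Real.pi * (1 + z.1 ^ 2))⁻¹ • ContinuousLinearMap.fst ℝ ℝ (E d × E d)) z :=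
  (h.rr_d z.1).comp_hasFDerivAt z (hasFDerivAt_fst (𝕜 := ℝ) (p := z))

theorem act_r (b : Z d → Z d) : act b (fun z : Z d => rr z.1) =
    fun z => (Real.pi * (1 + z.1 ^ 2))⁻¹ * (b z).1 := by
  funext z; simp [act, (h.hasFDerivAt_r z).fderiv]

theorem D_r : act (bD U) (fun z : Z d => rr z.1) = fun _ => 1 := by
  rw [h.act_r]; funext z
  have : Real.pi * (1 + z.1 ^ 2) ≠ 0 := by positivity
  simp only [bD]; field_simp

theorem pd_r (c : Bool) (k : Fin d) : pd (dirc c k) (fun z : Z d => rr z.1) = fun _ => 0 := by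
  rw [pd_eq_act, h.act_r]; simp [dirc_fst]

theorem pd_rho (c c' : Bool) (k : Fin d) : pd (dirc c k) (rho c' : Z d → ℝ) = fun _ => 0 := by
  cases c'
  · exact pd_const _ _
  · exact h.pd_r c k

theorem act_lift (b : Z d → Z d) {F : ℝ × E d → ℝ} (hF : Differentiable ℝ F) (z : Z d) :
    act b (lift F) z = (b z).1 * lift (pd ((1 : ℝ), (0 : E d)) F) z +
      ∑ k, (rr z.1 * (b z).2.1 k + (Real.pi * (1 + z.1 ^ 2))⁻¹ * (b z).1 * z.2.1 k) *
        lift (pd (ex k) F) z := by
  have hw : HasFDerivAt (fun z : Z d => z.2.1) ((ContinuousLinearMap.fst ℝ (E d) (E d)).comp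
    (ContinuousLinearMap.snd ℝ ℝ (E d × E d))) z := ((ContinuousLinearMap.fst ℝ (E d) (E d)).comp
    (ContinuousLinearMap.snd ℝ ℝ (E d × E d))).hasFDerivAt
  have h1 := (hasFDerivAt_fst (𝕜 := ℝ) (p := z)).prodMk ((h.hasFDerivAt_r z).fun_smul hw)
  have h2 := (hF (z.1, rr z.1 • z.2.1)).hasFDerivAt.comp z h1
  have e : lift F = F ∘ fun z : Z d => (z.1, rr z.1 • z.2.1) := rfl
  simp only [act]
  rw [e, h2.fderiv, ContinuousLinearMap.comp_apply, ContinuousLinearMap.prod_apply, clm_decomp2]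
  simp [lift, pd]

theorem pd_SL (c : Bool) (k : Fin d) (μ : Multiset (Fin d)) (z : Z d) :
    pd (dirc c k) (SL U μ) z = rho c z * SL U (k ::ₘ μ) z := by
  rw [pd_eq_act, SL, h.act_lift _ (tg_diff (h.tg_S μ)), dirc_fst]
  cases c
  · simp [dirc, eξ, rho]
  · simp only [dirc, ew, rho, SL, S, pdm_cons _ _ _ h.psi_tg]
    simp

theorem pd_V (c c' : Bool) (i k : Fin d) (z : Z d) :
    pd (dirc c i) (Vc U c' k) z =
      (if c = c' ∧ i = k then 1 else 0) + rho c z * rho c' z * SL U {i, k} z := by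
  cases c'
  · have : Vc U false k = fun z : Z d => z.2.2 k := rfl
    rw [this, pd_eq_act, act_xik]
    cases c <;> simp [dirc, ew, eξ, rho, eq_comm]
  · have : Vc U true k = fun z : Z d => z.2.1 k + rr z.1 * SL U {k} z := by
      funext z; simp [Vc, h.G_eq]
    rw [this, pd_add _ (tg_diff (tg_coord tg_w k)) (tg_diff (h.tg_r.fun_mul (h.tg_SL _))),
      pd_mul _ (tg_diff h.tg_r) (tg_diff (h.tg_SL _)), h.pd_r]
    simp only [h.pd_SL]
    rw [pd_eq_act, act_wk]
    cases c <;> simp [dirc, ew, eξ, rho, eq_comm, mul_assoc]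

theorem pd_dl (c c' : Bool) (i k : Fin d) {F : Z d → ℝ} (hF : F.HasTemperateGrowth) (z : Z d) :
    pd (dirc c i) (dl U c' k F) z = dl U c' k (pd (dirc c i) F) z +
      (if c = c' ∧ i = k then F z else 0) + rho c z * rho c' z * (SL U {i, k} z * F z) := by
  unfold dl
  rw [pd_sub _ (tg_diff ((h.tg_V c' k).fun_mul hF)) (tg_diff (tg_pd _ hF)),
    pd_mul _ (tg_diff (h.tg_V c' k)) (tg_diff hF), pd_comm hF]
  simp only [h.pd_V]
  split_ifs <;> ring

theorem dl_mul (c : Bool) (k : Fin d) {F G : Z d → ℝ} (hF : F.HasTemperateGrowth)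
    (hG : G.HasTemperateGrowth) (z : Z d) :
    dl U c k (fun z => F z * G z) z = dl U c k F z * G z - F z * pd (dirc c k) G z := by
  unfold dl
  rw [pd_mul _ (tg_diff hF) (tg_diff hG)]; ring

theorem dl_sum {ι : Type} (c : Bool) (k : Fin d) (s : Finset ι) {F : ι → Z d → ℝ}
    (hF : ∀ i ∈ s, (F i).HasTemperateGrowth) (z : Z d) :
    dl U c k (fun z => ∑ i ∈ s, F i z) z = ∑ i ∈ s, dl U c k (F i) z := by
  unfold dl
  rw [pd_sum _ _ fun i hi => tg_diff (hF i hi)]
  simp only [Finset.mul_sum, Finset.sum_sub_distrib]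

/-- heat equation, differentiated -/
theorem heat_pdm (s : Finset ℕ) (I : ℕ → Fin d) (q : ℝ × E d) :
    Real.pi * (1 + q.1 ^ 2) * pd ((1 : ℝ), (0 : E d)) (S U (s.val.map I)) q =
      rr q.1 * ∑ k, (∑ A ∈ s.powerset, S U (k ::ₘ A.val.map I) q * S U (k ::ₘ (s \ A).val.map I) q -
        S U (k ::ₘ k ::ₘ s.val.map I) q) := by
  have tfst : (fun q : ℝ × E d => q.1).HasTemperateGrowth :=
    (ContinuousLinearMap.fst ℝ ℝ (E d)).hasTemperateGrowth
  have hc : ∀ {g : ℝ → ℝ}, Differentiable ℝ g → ∀ (k : Fin d) (q : ℝ × E d),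
      pd (ex k) (fun q : ℝ × E d => g q.1) q = 0 := by
    intro g hg k q
    have := (hg q.1).hasDerivAt.comp_hasFDerivAt q (hasFDerivAt_fst (𝕜 := ℝ) (p := q))
    have e : (fun q : ℝ × E d => g q.1) = g ∘ Prod.fst := rfl
    simp [pd, e, this.fderiv, ex]
  have e : (fun q : ℝ × E d => Real.pi * (1 + q.1 ^ 2) * pd ((1 : ℝ), (0 : E d)) (psi U) q) =
      fun q => rr q.1 * ∑ k, ((S U {k} * S U {k}) + fun q => (-1) * S U {k, k} q) q := by
    funext q; rw [h.heat]; simp [Finset.sum_add_distrib, sq]; ring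
  have e2 := congrFun (congrArg (pdm ex (s.val.map I)) e) q
  have t1 : ∀ k, (S U {k} * S U {k}).HasTemperateGrowth := fun k => (h.tg_S _).mul (h.tg_S _)
  have t2 : ∀ k : Fin d, (fun q => (-1) * S U {k, k} q).HasTemperateGrowth := fun k =>
    (HasTemperateGrowth.const _).fun_mul (h.tg_S _)
  rw [pdm_mul_left ex _ (c := fun q : ℝ × E d => Real.pi * (1 + q.1 ^ 2))
      ((HasTemperateGrowth.const _).fun_mul ((HasTemperateGrowth.const _).fun_add (tfst.fun_pow 2)))
      (hc (g := fun t => Real.pi * (1 + t ^ 2)) (by fun_prop)) (tg_pd _ h.psi_tg),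
    pdm_pd _ _ _ h.psi_tg,
    pdm_mul_left ex _ (c := fun q : ℝ × E d => rr q.1) (h.rr_tg.comp tfst)
      (hc (tg_diff h.rr_tg)) (tg_sum _ fun k _ => (t1 k).add (t2 k)),
    pdm_sum ex _ _ fun k _ => (t1 k).add (t2 k)] at e2
  refine e2.trans ?_
  refine congrArg (fun x => rr q.1 * x) (Finset.sum_congr rfl fun k _ => ?_)
  rw [pdm_add _ _ (t1 k) (t2 k), pdm_leibniz _ _ _ (h.tg_S _) (h.tg_S _),
    pdm_mul_left ex _ (c := fun _ => (-1 : ℝ)) (HasTemperateGrowth.const _)
      (fun k z => by rw [pd_const]) (h.tg_S _)]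
  have hS : ∀ μ ν : Multiset (Fin d), pdm ex μ (S U ν) = S U (ν + μ) := fun μ ν => by
    rw [S, S, add_comm ν μ, pdm_add_ms _ _ _ h.psi_tg]
  simp only [hS, Pi.add_apply, Finset.sum_apply, Pi.mul_apply, Multiset.singleton_add]
  rw [show ({k, k} : Multiset (Fin d)) + s.val.map I = k ::ₘ k ::ₘ s.val.map I by
    simp [Multiset.insert_eq_cons]]
  ring

theorem D_SL {s : Finset ℕ} (hs : s.Nonempty) (I : ℕ → Fin d) (z : Z d) :
    act (bD U) (SL U (s.val.map I)) z = ∑ k, dl U true k (SL U (k ::ₘ s.val.map I)) z +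
      rr z.1 * ∑ A ∈ (s.powerset.erase ∅).erase s,
        ∑ k, SL U (k ::ₘ A.val.map I) z * SL U (k ::ₘ (s \ A).val.map I) z := by
  have hp : Real.pi * (1 + z.1 ^ 2) ≠ 0 := by positivity
  rw [SL, h.act_lift _ (tg_diff (h.tg_S _))]
  have e := h.heat_pdm s I (z.1, rr z.1 • z.2.1)
  simp only [bD, lift]
  rw [e, inv_mul_cancel₀ hp, Finset.sum_comm (s := (s.powerset.erase ∅).erase s), Finset.mul_sum,
    Finset.mul_sum, ← Finset.sum_add_distrib, ← Finset.sum_add_distrib]
  refine Finset.sum_congr rfl fun k _ => ?_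
  have m1 : ∅ ∈ s.powerset := by simp
  have m2 : s ∈ s.powerset.erase ∅ := by simp [hs.ne_empty]
  rw [← Finset.add_sum_erase _ _ m1, ← Finset.add_sum_erase _ _ m2]
  simp only [dl, h.pd_SL]
  simp only [Vc, rho, h.G_eq, SL, lift, S, ← pdm_cons _ _ _ h.psi_tg,
    Finset.sdiff_empty, Finset.sdiff_self, Finset.empty_val, Multiset.map_zero,
    Multiset.cons_zero, PiLp.neg_apply]
  ring

theorem D_G (k : Fin d) (z : Z d) :
    act (bD U) (SL U {k}) z = ∑ l, dl U true l (SL U {l, k}) z := by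
  have := h.D_SL (s := {0}) (by simp) (fun _ => k) z
  have e : ((({0} : Finset ℕ).powerset.erase ∅).erase {0}) = ∅ := by decide
  rw [e] at this
  simpa using this

theorem D_V (c : Bool) (k : Fin d) (z : Z d) :
    act (bD U) (Vc U c k) z = rho c z * ∑ l, dl U true l (SL U {l, k}) z := by
  cases c
  · have : Vc U false k = fun z : Z d => z.2.2 k := rfl
    rw [this, act_xik]; simp [bD, rho]
  · have : Vc U true k = fun z : Z d => z.2.1 k + rr z.1 * SL U {k} z := by
      funext z; simp [Vc, h.G_eq]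
    rw [this, act_add _ (tg_diff (tg_coord tg_w k)) (tg_diff (h.tg_r.fun_mul (h.tg_SL _))),
      act_mul _ (tg_diff h.tg_r) (tg_diff (h.tg_SL _)), h.D_r, act_wk]
    simp only [h.D_G, bD, rho, PiLp.neg_apply, h.G_eq]
    ring

theorem D_pd (c : Bool) (i : Fin d) {F : Z d → ℝ} (hF : F.HasTemperateGrowth) (z : Z d) :
    act (bD U) (pd (dirc c i) F) z = pd (dirc c i) (act (bD U) F) z +
      rho c z * ∑ j, SL U {i, j} z * pd (dirc true j) F z := by
  have e := act_comm (b := bD U) (b' := fun _ => dirc c i) (tg_diff h.tg_D)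
    (differentiable_const _) hF z
  rw [← pd_eq_act, ← pd_eq_act] at e
  have h1 : HasFDerivAt (fun z : Z d => Real.pi * (1 + z.1 ^ 2))
      ((Real.pi * (2 * z.1)) • ContinuousLinearMap.fst ℝ ℝ (E d × E d)) z := by
    have : HasDerivAt (fun t : ℝ => Real.pi * (1 + t ^ 2)) (Real.pi * (2 * z.1)) z.1 := by
      simpa using ((hasDerivAt_pow 2 z.1).const_add 1).const_mul Real.pi
    exact this.comp_hasFDerivAt z (hasFDerivAt_fst (𝕜 := ℝ) (p := z))
  have h2 := h1.prodMk ((tg_diff h.Gf_tg z).hasFDerivAt.fun_neg.prodMk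
    (hasFDerivAt_const (0 : E d) z))
  have e2 : VectorField.lieBracket ℝ (bD U) (fun _ => dirc c i) z =
      (0, (pd (dirc c i) (Gf U) z, 0)) := by
    have e3 : fderiv ℝ (bD U) z = _ := h2.fderiv
    simp [VectorField.lieBracket, e3, dirc_fst, pd]
  have e4 : ∀ j, pd (dirc c i) (Gf U) z j = rho c z * SL U {i, j} z := fun j => by
    have := congrFun (act_coord (fun _ => dirc c i) (tg_diff h.Gf_tg) j) z
    rw [pd_eq_act, ← this, ← pd_eq_act, funext fun z => h.G_eq z j, h.pd_SL]; rfl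
  simp only [act] at e ⊢
  rw [e2, clm_decomp3] at e
  simp only [e4, PiLp.zero_apply, zero_mul, Finset.sum_const_zero, add_zero] at e
  rw [Finset.mul_sum]
  simp only [pd, dirc, ← mul_assoc] at e ⊢
  linarith

theorem D_dl (c : Bool) (k : Fin d) {F : Z d → ℝ} (hF : F.HasTemperateGrowth) (z : Z d) :
    act (bD U) (dl U c k F) z = dl U c k (act (bD U) F) z +
      rho c z * ∑ l, dl U true l (fun z => SL U {l, k} z * F z) z := by
  have e : dl U c k F = fun z => Vc U c k z * F z - pd (dirc c k) F z := rfl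
  rw [e, act_sub _ (tg_diff ((h.tg_V c k).fun_mul hF)) (tg_diff (tg_pd _ hF)),
    act_mul _ (tg_diff (h.tg_V c k)) (tg_diff hF)]
  simp only [h.D_V, h.D_pd c k hF, h.dl_mul true _ (h.tg_SL _) hF, Finset.sum_sub_distrib,
    ← Finset.sum_mul]
  rw [show ∑ j, SL U {k, j} z * pd (dirc true j) F z = ∑ j, SL U {j, k} z * pd (dirc true j) F z from
    Finset.sum_congr rfl fun j _ => by rw [Multiset.pair_comm]]
  simp only [dl]
  ring

theorem H_eq {F : Z d → ℝ} (hF : F.HasTemperateGrowth) (z : Z d) :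
    act (bH U) F z = ∑ k, dl U false k (pd (dirc true k) F) z -
      ∑ k, dl U true k (pd (dirc false k) F) z := by
  simp only [act, bH]
  rw [clm_decomp3, ← Finset.sum_sub_distrib, ← Finset.sum_add_distrib]
  refine Finset.sum_congr rfl fun k _ => ?_
  simp only [dl, pd_comm hF (dirc false k), Vc, PiLp.neg_apply, PiLp.add_apply, PiLp.smul_apply,
    smul_eq_mul]
  simp only [pd, dirc]
  ring

theorem O_succ (j : ℕ) {F : Z d → ℝ} (hF : F.HasTemperateGrowth) (z : Z d) :
    act (bO U (j + 1)) F z = act (bD U) (act (bO U j) F) z - act (bO U j) (act (bD U) F) z :=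
  act_comm (tg_diff h.tg_D) (tg_diff (h.bO_tg j)) hF z

theorem O_one {F : Z d → ℝ} (hF : F.HasTemperateGrowth) (z : Z d) :
    act (bO U 1) F z =
      rr z.1 * ∑ k, dl U false k (fun z => ∑ j, SL U {k, j} z * pd (dirc true j) F z) z -
      rr z.1 * ∑ l, dl U true l (fun z => ∑ k, SL U {l, k} z * pd (dirc false k) F z) z := by
  rw [h.O_succ 0 hF]
  have e : act (bO U 0) F = fun z => ∑ k, dl U false k (pd (dirc true k) F) z -
      ∑ k, dl U true k (pd (dirc false k) F) z := funext (h.H_eq hF)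
  have tD := tg_act h.tg_D hF
  have e' : act (bO U 0) (act (bD U) F) z = _ := h.H_eq tD z
  rw [e, e', act_sub _ (tg_diff (tg_sum _ fun k _ => h.tg_dl _ _ (tg_pd _ hF)))
    (tg_diff (tg_sum _ fun k _ => h.tg_dl _ _ (tg_pd _ hF))),
    act_sum _ _ fun k _ => tg_diff (h.tg_dl _ _ (tg_pd _ hF)),
    act_sum _ _ fun k _ => tg_diff (h.tg_dl _ _ (tg_pd _ hF))]
  simp only [h.D_dl _ _ (tg_pd _ hF), funext (h.D_pd _ _ hF), rho, zero_mul, add_zero]
  have e1 : ∀ k, dl U false k (fun z => pd (dirc true k) (act (bD U) F) z +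
      rr z.1 * ∑ j, SL U {k, j} z * pd (dirc true j) F z) z =
      dl U false k (pd (dirc true k) (act (bD U) F)) z +
      rr z.1 * dl U false k (fun z => ∑ j, SL U {k, j} z * pd (dirc true j) F z) z := by
    intro k
    have t : (fun z => ∑ j, SL U {k, j} z * pd (dirc true j) F z).HasTemperateGrowth :=
      tg_sum _ fun j _ => (h.tg_SL _).fun_mul (tg_pd _ hF)
    unfold dl
    rw [pd_add _ (tg_diff (tg_pd _ tD)) (tg_diff (h.tg_r.fun_mul t)),
      pd_mul _ (tg_diff h.tg_r) (tg_diff t), h.pd_r]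
    ring
  simp only [e1, Finset.sum_add_distrib, ← Finset.mul_sum,
    h.dl_sum true _ _ fun k _ => (h.tg_SL _).fun_mul (tg_pd _ hF)]
  rw [Finset.sum_comm (f := fun k l => dl U true l (fun z => SL U {l, k} z * pd (dirc false k) F z) z)]
  ring

end Cx

end Crest.Agent.LCS
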