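import Crest.Agent.LCS.Psi
import Crest.Agent.LCS.Gauss
import Crest.Agent.LCS.WB1

/-! JOB B3: density of `mu`, integration by parts, transport, `L²` toolbox. -/

set_option autoImplicit false
set_option linter.unusedSectionVars false
open MeasureTheory Function

namespace Crest.Agent.LCS
variable {d : ℕ}

namespace B3

theorem lint_affine {g : E d → ENNReal} (hg : Measurable g) (b : E d) {s : ℝ} (hs : s ≠ 0) :
    ∫⁻ z, g (b + s • z) = ENNReal.ofReal |(s ^ d)⁻¹| * ∫⁻ w, g w := by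
  have h1 : Measurable fun u : E d => g (b + u) := hg.comp (measurable_const_add b)
  have h2 := lintegral_map (μ := (volume : Measure (E d))) h1 (measurable_const_smul s)
  rw [Measure.map_addHaar_smul _ hs, lintegral_smul_measure, lintegral_add_left_eq_self] at h2
  simp only [finrank_euclideanSpace, Fintype.card_fin, smul_eq_mul] at h2
  exact h2.symm

theorem map_conv {ρ₁ ρ₂ : E d → ENNReal} (h₁ : Measurable ρ₁) (h₂ : Measurable ρ₂) (r : ℝ) {s : ℝ}
    (hs : s ≠ 0) :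
    ((volume.withDensity ρ₁).prod (volume.withDensity ρ₂)).map (fun q : E d × E d => r • q.1 + s • q.2) =
      volume.withDensity (fun w => ∫⁻ y, ρ₁ y * (ENNReal.ofReal |(s ^ d)⁻¹| * ρ₂ (s⁻¹ • (w - r • y)))) := by
  refine Measure.ext_of_lintegral _ fun φ hφ => ?_
  have hm : Measurable fun q : E d × E d => r • q.1 + s • q.2 := by fun_prop
  have hK : Measurable fun p : E d × E d =>
      ρ₁ p.2 * (ENNReal.ofReal |(s ^ d)⁻¹| * ρ₂ (s⁻¹ • (p.1 - r • p.2))) := by fun_prop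
  rw [lintegral_map hφ hm, prod_withDensity h₁ h₂,
    lintegral_withDensity_eq_lintegral_mul _ (by fun_prop) (by exact hφ.comp hm),
    lintegral_prod _ (Measurable.aemeasurable (by fun_prop)),
    lintegral_withDensity_eq_lintegral_mul _ hK.lintegral_prod_right' hφ]
  simp only [Pi.mul_apply, Function.comp]
  have e1 : ∀ y : E d, ∫⁻ z, ρ₁ y * ρ₂ z * φ (r • y + s • z) =
      ∫⁻ w, ρ₁ y * (ENNReal.ofReal |(s ^ d)⁻¹| * ρ₂ (s⁻¹ • (w - r • y))) * φ w := by
    intro y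
    have := lint_affine (g := fun w => ρ₁ y * ρ₂ (s⁻¹ • (w - r • y)) * φ w) (by fun_prop) (r • y) hs
    simp only [add_sub_cancel_left, inv_smul_smul₀ hs] at this
    rw [this, ← lintegral_const_mul _ (by fun_prop)]
    congr 1; funext w; ring
  simp only [e1]
  rw [lintegral_lintegral_swap (Measurable.aemeasurable (by fun_prop))]
  congr 1; funext w
  rw [lintegral_mul_const _ (by fun_prop)]

/-- total potential -/
noncomputable def Phi (U : E d → ℝ) (z : Z d) : ℝ :=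
  ‖z.2.1‖ ^ 2 / 2 + psi U (z.1, rr z.1 • z.2.1) + ‖z.2.2‖ ^ 2 / 2

noncomputable def c1 (U : E d → ℝ) : ℝ := (∫ y, Real.exp (-(U y + ‖y - 0‖ ^ 2 / (2 * 1))))⁻¹
noncomputable def c2 (d : ℕ) : ℝ := (∫ y : E d, Real.exp (-(‖y‖ ^ 2 / 2)))⁻¹

theorem c2_pos : 0 < c2 d := inv_pos.2 (hessB_gam.Z_pos one_pos)

theorem c1_pos {U : E d → ℝ} {β : ℝ} (h : HessB U 0 β) : 0 < c1 U :=
  inv_pos.2 ((h.post (a := 1) 0).Z_pos (by norm_num))

theorem exp_neg_psi {U : E d → ℝ} {β : ℝ} (h : HessB U 0 β) (q : ℝ × E d) :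
    Real.exp (-psi U q) = (√(aa q.1) ^ d)⁻¹ *
      ∫ y, Real.exp (-(U y + ‖y - q.2‖ ^ 2 / (2 * aa q.1))) := by
  have ha := aa_pos q.1
  have hZ := (h.post (a := aa q.1) q.2).Z_pos (by positivity)
  unfold psi
  rw [neg_add, neg_neg, Real.exp_add, Real.exp_log hZ, mul_comm]
  congr 1
  rw [Real.exp_neg]; congr 1
  rw [← Real.exp_log (Real.sqrt_pos.2 ha), ← Real.exp_nat_mul, Real.log_sqrt ha.le]
  congr 1; ring

theorem marg_eq {U : E d → ℝ} {β : ℝ} (h : HessB U 0 β) {r : ℝ} (hr : |r| < 1 / 2) :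
    ((post U 0 1).prod (gam d)).map (fun q => r • q.1 + √(1 - r ^ 2) • q.2) =
      volume.withDensity (fun w => ENNReal.ofReal (c1 U * c2 d *
        Real.exp (-(‖w‖ ^ 2 / 2 + psi U (tt r, r • w))))) := by
  have ha : aa (tt r) = 1 - r ^ 2 := by rw [aa, rr_tt hr]
  have ha0 : 0 < 1 - r ^ 2 := ha ▸ aa_pos _
  have hs : 0 < √(1 - r ^ 2) := Real.sqrt_pos.2 ha0
  have hP := h.post (a := 1) 0
  unfold post gam
  rw [hP.gibbs_eq (by norm_num), hessB_gam.gibbs_eq one_pos, map_conv hP.dens_meas hessB_gam.dens_meas _ hs.ne']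
  congr 1; funext w
  have hi := (h.post (a := 1 - r ^ 2) (r • w)).integrable_exp' (by positivity)
  rw [neg_add, Real.exp_add, exp_neg_psi h]
  simp only [ha]
  rw [← integral_const_mul, ← integral_const_mul, ← integral_const_mul,
    ofReal_integral_eq_lintegral_ofReal (((hi.const_mul _).const_mul _).const_mul _)
      (Filter.Eventually.of_forall fun y => by
        have := c1_pos h; have := c2_pos (d := d); simp only [Pi.zero_apply]; positivity)]
  congr 1; funext y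
  change ENNReal.ofReal (c1 U * _) * (_ * ENNReal.ofReal (c2 d * _)) = _
  have := c1_pos h; have := c2_pos (d := d)
  rw [← ENNReal.ofReal_mul (by positivity), ← ENNReal.ofReal_mul (by positivity), abs_of_pos (by positivity)]
  congr 1
  have e : Real.exp (-(U y + ‖y - 0‖ ^ 2 / (2 * 1))) *
      Real.exp (-(‖(√(1 - r ^ 2))⁻¹ • (w - r • y)‖ ^ 2 / 2)) =
      Real.exp (-(‖w‖ ^ 2 / 2)) * Real.exp (-(U y + ‖y - r • w‖ ^ 2 / (2 * (1 - r ^ 2)))) := by
    rw [← Real.exp_add, ← Real.exp_add]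
    congr 1
    rw [norm_smul, mul_pow, Real.norm_eq_abs, sq_abs, inv_pow, Real.sq_sqrt ha0.le, sub_zero,
      norm_sub_sq_real, norm_sub_sq_real, norm_smul, norm_smul, inner_smul_right, inner_smul_right,
      real_inner_comm w y, mul_pow, mul_pow, Real.norm_eq_abs, sq_abs]
    field_simp; ring
  calc _ = c1 U * c2 d * (√(1 - r ^ 2) ^ d)⁻¹ * (Real.exp (-(U y + ‖y - 0‖ ^ 2 / (2 * 1))) *
      Real.exp (-(‖(√(1 - r ^ 2))⁻¹ • (w - r • y)‖ ^ 2 / 2))) := by ring
    _ = _ := by rw [e]; ring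

theorem tg_Phi {U : E d → ℝ} {β : ℝ} (h : HessB U 0 β) : (Phi U).HasTemperateGrowth := by
  have h1 := (tg_psi h).comp (tg_liftArg (d := d))
  simp only [Function.comp_def] at h1
  have h2 := (tg_normsq (tg_w (d := d))).fun_mul (HasTemperateGrowth.const (2 : ℝ)⁻¹)
  have h3 := (tg_normsq (tg_xi (d := d))).fun_mul (HasTemperateGrowth.const (2 : ℝ)⁻¹)
  simp only [← div_eq_mul_inv] at h2 h3
  exact (h2.fun_add h1).fun_add h3

noncomputable def cc (U : E d → ℝ) : ℝ := c1 U * c2 d * c2 d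

theorem cc_pos {U : E d → ℝ} {β : ℝ} (h : HessB U 0 β) : 0 < cc U :=
  mul_pos (mul_pos (c1_pos h) c2_pos) c2_pos

theorem mu_eq {U : E d → ℝ} {β : ℝ} (h : HessB U 0 β) {r : ℝ} (hr : |r| < 1 / 2) :
    mu U r = (volume.prod volume).withDensity (fun q => ENNReal.ofReal (cc U *
      Real.exp (-Phi U (tt r, q)))) := by
  have hc : Continuous (psi U) := tg_cont (tg_psi h)
  rw [mu, marg_eq h hr]
  unfold gam
  rw [hessB_gam.gibbs_eq one_pos, prod_withDensity (Measurable.ennreal_ofReal (by fun_prop))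
    hessB_gam.dens_meas]
  congr 1; funext q
  change _ * ENNReal.ofReal (c2 d * _) = _
  have := c1_pos h; have := c2_pos (d := d)
  rw [← ENNReal.ofReal_mul (by positivity)]
  congr 1
  simp only [Phi, rr_tt hr, cc, neg_add, Real.exp_add]
  ring

theorem dens_meas {U : E d → ℝ} {β : ℝ} (h : HessB U 0 β) (t : ℝ) :
    Measurable (fun q : E d × E d => ENNReal.ofReal (cc U * Real.exp (-Phi U (t, q)))) := by
  have hc : Continuous (Phi U) := tg_cont (tg_Phi h)
  exact Measurable.ennreal_ofReal (by fun_prop)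

theorem Ex_eq {U : E d → ℝ} {β : ℝ} (h : HessB U 0 β) {r : ℝ} (hr : |r| < 1 / 2) (F : Z d → ℝ) :
    Ex U r F = cc U * ∫ q, F (tt r, q) * Real.exp (-Phi U (tt r, q)) ∂(volume.prod volume) := by
  rw [Ex, mu_eq h hr, integral_withDensity_eq_integral_toReal_smul (dens_meas h _) (by simp),
    ← integral_const_mul]
  congr 1; funext q
  rw [ENNReal.toReal_ofReal (mul_nonneg (cc_pos h).le (Real.exp_pos _).le), smul_eq_mul]; ring

theorem exp_neg_psi_le {U : E d → ℝ} {β : ℝ} (h : HessB U 0 β) :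
    ∃ K g : ℝ, 0 ≤ K ∧ 0 ≤ g ∧ ∀ q : ℝ × E d, Real.exp (-psi U q) ≤ K * Real.exp (g * ‖q.2‖) := by
  set g := ‖gradient U 0‖
  have hi : Integrable fun z : E d => Real.exp (-(1 / 2) * ‖z‖ ^ 2 + g * ‖z‖) := by
    have := integrable_pg_gauss (d := d) (f := fun _ => (1 : ℝ)) aestronglyMeasurable_const (PG.const 1)
      (w := fun z => Real.exp (-(1 / 2) * ‖z‖ ^ 2 + g * ‖z‖)) (by fun_prop) (c := 1 / 2) (by norm_num)
      g 1 (fun y => by rw [abs_of_pos (Real.exp_pos _), one_mul])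
    simpa using this
  set K := ∫ z : E d, Real.exp (-(1 / 2) * ‖z‖ ^ 2 + g * ‖z‖)
  have hK : 0 ≤ K := integral_nonneg fun z => (Real.exp_pos _).le
  refine ⟨2 ^ d * (Real.exp (-U 0) * K), g, by positivity, norm_nonneg _, fun q => ?_⟩
  have ha := aa_pos q.1
  rw [exp_neg_psi h]
  have h1 : (√(aa q.1) ^ d)⁻¹ ≤ 2 ^ d := by
    rw [← inv_pow]
    refine pow_le_pow_left₀ (by positivity) ?_ _
    rw [inv_le_comm₀ (Real.sqrt_pos.2 ha) two_pos]
    exact Real.le_sqrt_of_sq_le (by linarith [aa_ge q.1])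
  have h2 : ∫ y, Real.exp (-(U y + ‖y - q.2‖ ^ 2 / (2 * aa q.1))) ≤
      Real.exp (-U 0) * K * Real.exp (g * ‖q.2‖) := by
    have e : K = ∫ y : E d, Real.exp (-(1 / 2) * ‖y - q.2‖ ^ 2 + g * ‖y - q.2‖) :=
      (integral_sub_right_eq_self (fun z : E d => Real.exp (-(1 / 2) * ‖z‖ ^ 2 + g * ‖z‖)) q.2).symm
    rw [e, ← integral_const_mul, ← integral_mul_const]
    refine integral_mono ((h.post (a := aa q.1) q.2).integrable_exp' (by positivity))
      (((hi.comp_sub_right q.2).const_mul _).mul_const _) fun y => ?_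
    have m1 := h.exp_le y
    rw [← Real.exp_add, Real.exp_le_exp] at m1
    simp only [← Real.exp_add, Real.exp_le_exp]
    have m2 : ‖y‖ ≤ ‖y - q.2‖ + ‖q.2‖ := by simpa using norm_add_le (y - q.2) q.2
    have m3 : ‖y - q.2‖ ^ 2 / 2 ≤ ‖y - q.2‖ ^ 2 / (2 * aa q.1) :=
      div_le_div_of_nonneg_left (sq_nonneg _) (by positivity) (by linarith [aa_le q.1])
    have m4 := mul_le_mul_of_nonneg_left m2 (norm_nonneg (gradient U 0))
    simp only [g] at *
    linarith
  calc _ ≤ 2 ^ d * (Real.exp (-U 0) * K * Real.exp (g * ‖q.2‖)) :=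
        mul_le_mul h1 h2 (integral_nonneg fun y => (Real.exp_pos _).le) (by positivity)
    _ = _ := by ring

/-- dominating function -/
noncomputable def Bd (n : ℕ) (g : ℝ) (q : E d × E d) : ℝ :=
  (Real.exp (-(1 / 2) * ‖q.1‖ ^ 2 + g * ‖q.1‖) * (1 + ‖q.1‖) ^ n) *
    (Real.exp (-(1 / 2) * ‖q.2‖ ^ 2 + 0 * ‖q.2‖) * (1 + ‖q.2‖) ^ n)

theorem integrable_Bd (n : ℕ) (g : ℝ) : Integrable (Bd (d := d) n g) (volume.prod volume) := by
  have hi : ∀ g : ℝ, Integrable fun z : E d =>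
      Real.exp (-(1 / 2) * ‖z‖ ^ 2 + g * ‖z‖) * (1 + ‖z‖) ^ n := fun g =>
    integrable_pg_gauss (d := d) (f := fun z => (1 + ‖z‖) ^ n) (by fun_prop)
      (((PG.const 1).add PG.id.nrm).npow n)
      (w := fun z => Real.exp (-(1 / 2) * ‖z‖ ^ 2 + g * ‖z‖)) (by fun_prop) (c := 1 / 2) (by norm_num)
      g 1 (fun y => by rw [abs_of_pos (Real.exp_pos _), one_mul])
  exact (hi g).mul_prod (hi 0)

theorem le_Bd {U : E d → ℝ} {β : ℝ} (h : HessB U 0 β) :
    ∃ K g : ℝ, 0 ≤ K ∧ ∀ (n : ℕ) (t : ℝ) (q : E d × E d),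
      (1 + ‖q‖) ^ n * Real.exp (-Phi U (t, q)) ≤ K * Bd n g q := by
  obtain ⟨K, g, hK, hg, hb⟩ := exp_neg_psi_le h
  refine ⟨K, g, hK, fun n t q => ?_⟩
  have h1 : (1 + ‖q‖) ^ n ≤ (1 + ‖q.1‖) ^ n * (1 + ‖q.2‖) ^ n := by
    rw [← mul_pow]
    refine pow_le_pow_left₀ (by positivity) ?_ _
    have a := norm_nonneg q.1; have b := norm_nonneg q.2
    rw [Prod.norm_def]
    rcases max_cases ‖q.1‖ ‖q.2‖ with ⟨e, _⟩ | ⟨e, _⟩ <;> rw [e] <;> nlinarith
  have h2 : Real.exp (-psi U (t, rr t • q.1)) ≤ K * Real.exp (g * ‖q.1‖) := by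
    refine (hb _).trans ?_
    have : ‖rr t • q.1‖ ≤ ‖q.1‖ := by
      rw [norm_smul]
      exact mul_le_of_le_one_left (norm_nonneg _) (by linarith [abs_rr_lt t, Real.norm_eq_abs (rr t)])
    gcongr
  have e : Real.exp (-Phi U (t, q)) = Real.exp (-(1 / 2) * ‖q.1‖ ^ 2) *
      Real.exp (-psi U (t, rr t • q.1)) * Real.exp (-(1 / 2) * ‖q.2‖ ^ 2) := by
    rw [← Real.exp_add, ← Real.exp_add, Phi]; congr 1; ring
  rw [e, Bd, zero_mul, add_zero, Real.exp_add]
  calc _ ≤ ((1 + ‖q.1‖) ^ n * (1 + ‖q.2‖) ^ n) * (Real.exp (-(1 / 2) * ‖q.1‖ ^ 2) *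
      (K * Real.exp (g * ‖q.1‖)) * Real.exp (-(1 / 2) * ‖q.2‖ ^ 2)) := by gcongr
    _ = _ := by ring

theorem pg_slice {F : Z d → ℝ} (hp : PG F) (t : ℝ) : PG fun q : E d × E d => F (t, q) :=
  hp.cmp (tg_pg (tg_prodMk (HasTemperateGrowth.const t) tg_id))

theorem integrable_vol {U : E d → ℝ} {β : ℝ} (h : HessB U 0 β) (t : ℝ) {F : E d × E d → ℝ}
    (hF : Continuous F) (hp : PG F) :
    Integrable (fun q => F q * Real.exp (-Phi U (t, q))) (volume.prod volume) := by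
  obtain ⟨K, g, hK, hb⟩ := le_Bd h
  obtain ⟨C, n, hC⟩ := hp
  have hc : Continuous (Phi U) := tg_cont (tg_Phi h)
  refine (((integrable_Bd n g).const_mul K).const_mul |C|).mono'
    (Continuous.aestronglyMeasurable (by fun_prop)) (Filter.Eventually.of_forall fun q => ?_)
  rw [norm_mul, Real.norm_of_nonneg (Real.exp_pos _).le]
  calc _ ≤ (|C| * (1 + ‖q‖) ^ n) * Real.exp (-Phi U (t, q)) := by
        gcongr
        exact (hC q).trans (mul_le_mul_of_nonneg_right (le_abs_self C) (by positivity))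
    _ ≤ _ := by rw [mul_assoc]; exact mul_le_mul_of_nonneg_left (hb n t q) (abs_nonneg C)

theorem mu_integrable {U : E d → ℝ} {β : ℝ} (h : HessB U 0 β) {r : ℝ} (hr : |r| < 1 / 2)
    {F : Z d → ℝ} (hF : Continuous F) (hp : PG F) : Integrable (fun q => F (tt r, q)) (mu U r) := by
  rw [mu_eq h hr, integrable_withDensity_iff (dens_meas h _) (by simp)]
  refine ((integrable_vol h (tt r) (F := fun q => F (tt r, q)) (by fun_prop)
    (pg_slice hp _)).const_mul (cc U)).congr (Filter.Eventually.of_forall fun q => ?_)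
  simp only
  rw [ENNReal.toReal_ofReal (mul_nonneg (cc_pos h).le (Real.exp_pos _).le)]; ring

theorem mu_prob {U : E d → ℝ} {β : ℝ} (h : HessB U 0 β) (r : ℝ) : IsProbabilityMeasure (mu U r) := by
  have := h.post_prob one_pos 0
  have : IsProbabilityMeasure (((post U 0 1).prod (gam d)).map
      (fun q => r • q.1 + √(1 - r ^ 2) • q.2)) :=
    Measure.isProbabilityMeasure_map (Measurable.aemeasurable (by fun_prop))
  unfold mu; infer_instance

theorem fderiv_slice {F : Z d → ℝ} (hF : Differentiable ℝ F) (t : ℝ) (q e : E d × E d) :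
    fderiv ℝ (fun q => F (t, q)) q e = pd ((0 : ℝ), e) F (t, q) := by
  have := ((hF (t, q)).hasFDerivAt.comp q (hasFDerivAt_prodMk_right (𝕜 := ℝ) t q)).fderiv
  simp only [Function.comp_def] at this
  rw [this]; simp [pd]

theorem ibp {U : E d → ℝ} {β : ℝ} (h : HessB U 0 β) {r : ℝ} (hr : |r| < 1 / 2) {F : Z d → ℝ}
    (hF : F.HasTemperateGrowth) (e : E d × E d) :
    Ex U r (fun z => pd ((0 : ℝ), e) (Phi U) z * F z - pd ((0 : ℝ), e) F z) = 0 := by
  have hΦ := tg_Phi h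
  set t := tt r
  have hg : ∀ q : E d × E d, HasFDerivAt (fun q => Real.exp (-Phi U (t, q)))
      (Real.exp (-Phi U (t, q)) • (-fderiv ℝ (fun q => Phi U (t, q)) q)) q := fun q =>
    (((tg_diff hΦ (t, q)).comp q (differentiableAt_const t |>.prodMk differentiableAt_id)).hasFDerivAt.neg).exp
  have sl : ∀ {G : Z d → ℝ}, G.HasTemperateGrowth →
      Integrable (fun q => G (t, q) * Real.exp (-Phi U (t, q))) (volume.prod volume) := fun hG =>
    integrable_vol h t (F := fun q => _) ((tg_cont hG).comp (by fun_prop)) (pg_slice (tg_pg hG) t)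
  have i1 := sl (tg_pd ((0 : ℝ), e) hF)
  have i2 := sl ((tg_pd ((0 : ℝ), e) hΦ).fun_mul hF)
  have i3 := sl hF
  have := integral_mul_fderiv_eq_neg_fderiv_mul_of_integrable
    (μ := (volume.prod volume : Measure (E d × E d)))
    (f := fun q => Real.exp (-Phi U (t, q))) (g := fun q => F (t, q)) (v := e)
    (i2.neg.congr (Filter.Eventually.of_forall fun q => by
      simp [(hg q).fderiv, fderiv_slice (tg_diff hΦ)]; ring))
    (i1.congr (Filter.Eventually.of_forall fun q => by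
      simp [fderiv_slice (tg_diff hF)]; ring))
    (i3.congr (Filter.Eventually.of_forall fun q => mul_comm _ _)) (fun q _ => (hg q).differentiableAt)
    (fun q _ => (tg_diff hF (t, q)).comp q (differentiableAt_const t |>.prodMk differentiableAt_id))
  rw [Ex_eq h hr]
  simp only [sub_mul]
  rw [integral_sub i2 i1]
  rw [← integral_neg] at this
  simp only [(hg _).fderiv, fderiv_slice (tg_diff hF), ContinuousLinearMap.smul_apply,
    ContinuousLinearMap.neg_apply, fderiv_slice (tg_diff hΦ), smul_eq_mul] at this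
  have e1 : ∫ q, pd ((0 : ℝ), e) F (t, q) * Real.exp (-Phi U (t, q)) ∂(volume.prod volume) =
      ∫ q, pd ((0 : ℝ), e) (Phi U) (t, q) * F (t, q) * Real.exp (-Phi U (t, q)) ∂(volume.prod volume) := by
    simp only [mul_comm (pd _ F _)]
    rw [this]; congr 1; funext q; ring
  rw [e1, sub_self, mul_zero]

theorem fderiv_Phi {U : E d → ℝ} {β : ℝ} (h : HessB U 0 β) (z e : Z d) :
    fderiv ℝ (Phi U) z e = inner ℝ z.2.1 e.2.1 + (e.1 * pd ((1 : ℝ), (0 : E d)) (psi U) (z.1, rr z.1 • z.2.1) +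
      ∑ k, (rr z.1 * e.2.1 k + (Real.pi * (1 + z.1 ^ 2))⁻¹ * e.1 * z.2.1 k) * Gf U z k) +
      inner ℝ z.2.2 e.2.2 := by
  have hw : HasFDerivAt (fun z : Z d => z.2.1) ((ContinuousLinearMap.fst ℝ (E d) (E d)).comp
    (ContinuousLinearMap.snd ℝ ℝ (E d × E d))) z := ((ContinuousLinearMap.fst ℝ (E d) (E d)).comp
    (ContinuousLinearMap.snd ℝ ℝ (E d × E d))).hasFDerivAt
  have hx : HasFDerivAt (fun z : Z d => z.2.2) ((ContinuousLinearMap.snd ℝ (E d) (E d)).comp
    (ContinuousLinearMap.snd ℝ ℝ (E d × E d))) z := ((ContinuousLinearMap.snd ℝ (E d) (E d)).comp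
    (ContinuousLinearMap.snd ℝ ℝ (E d × E d))).hasFDerivAt
  have ht : HasFDerivAt (fun z : Z d => z.1) (ContinuousLinearMap.fst ℝ ℝ (E d × E d)) z :=
    hasFDerivAt_fst
  have hr := (hasDerivAt_rr z.1).comp_hasFDerivAt z ht
  have h1 := (tg_diff (tg_psi h) (z.1, rr z.1 • z.2.1)).hasFDerivAt.comp z
    (ht.prodMk (hr.fun_smul hw))
  have h2 := ((hw.norm_sq.mul_const (2 : ℝ)⁻¹).fun_add h1).fun_add (hx.norm_sq.mul_const (2 : ℝ)⁻¹)
  have e0 : Phi U = fun z : Z d => ‖z.2.1‖ ^ 2 * (2 : ℝ)⁻¹ + psi U (z.1, rr z.1 • z.2.1) +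
      ‖z.2.2‖ ^ 2 * (2 : ℝ)⁻¹ := by funext z; simp [Phi, div_eq_mul_inv]
  rw [e0]
  erw [h2.fderiv]
  simp only [ContinuousLinearMap.add_apply, ContinuousLinearMap.smul_apply,
    ContinuousLinearMap.comp_apply, ContinuousLinearMap.prod_apply, innerSL_apply_apply,
    ContinuousLinearMap.coe_fst', ContinuousLinearMap.coe_snd', smul_eq_mul, nsmul_eq_mul,
    ContinuousLinearMap.smulRight_apply, Function.comp]
  rw [clm_decomp2]
  have e1 : ∀ k, fderiv ℝ (psi U) (z.1, rr z.1 • z.2.1) (ex k) = Gf U z k := by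
    intro k
    have := S_one_gv h k (z.1, rr z.1 • z.2.1)
    rw [S, ← Multiset.cons_zero, pdm_cons _ _ _ (tg_psi h), pdm_zero] at this
    exact this
  simp only [e1, pd, PiLp.add_apply, PiLp.smul_apply, smul_eq_mul]
  push_cast; ring

theorem pd_ew_Phi {U : E d → ℝ} {β : ℝ} (h : HessB U 0 β) (k : Fin d) (z : Z d) :
    pd (ew k) (Phi U) z = z.2.1 k + rr z.1 * Gf U z k := by
  rw [pd, fderiv_Phi h]
  simp [ew, EuclideanSpace.inner_single_right, Pi.single_apply]

theorem pd_exi_Phi {U : E d → ℝ} {β : ℝ} (h : HessB U 0 β) (k : Fin d) (z : Z d) :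
    pd (eξ k) (Phi U) z = z.2.2 k := by
  rw [pd, fderiv_Phi h]
  simp [eξ, EuclideanSpace.inner_single_right]

theorem ibp_w {U : E d → ℝ} {β : ℝ} (h : HessB U 0 β) {r : ℝ} (hr : |r| < 1 / 2) {F : Z d → ℝ}
    (hF : F.HasTemperateGrowth) (k : Fin d) :
    Ex U r (fun z => (z.2.1 k + rr z.1 * Gf U z k) * F z - pd (ew k) F z) = 0 := by
  have := ibp h hr hF (EuclideanSpace.single k 1, 0)
  simp only [← pd_ew_Phi h]
  exact this

theorem ibp_xi {U : E d → ℝ} {β : ℝ} (h : HessB U 0 β) {r : ℝ} (hr : |r| < 1 / 2) {F : Z d → ℝ}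
    (hF : F.HasTemperateGrowth) (k : Fin d) :
    Ex U r (fun z => z.2.2 k * F z - pd (eξ k) F z) = 0 := by
  have := ibp h hr hF (0, EuclideanSpace.single k 1)
  simp only [← pd_exi_Phi h]
  exact this

theorem le_of_sq_le_sq₀' {x a : ℝ} (h : x ^ 2 ≤ a ^ 2) (ha : 0 ≤ a) : x ≤ a :=
  (abs_le_of_sq_le_sq' h ha).2

theorem Ex_add {U : E d → ℝ} {β : ℝ} (h : HessB U 0 β) {r : ℝ} (hr : |r| < 1 / 2) {F G : Z d → ℝ}
    (hF : Continuous F) (hFp : PG F) (hG : Continuous G) (hGp : PG G) :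
    Ex U r (fun z => F z + G z) = Ex U r F + Ex U r G :=
  integral_add (mu_integrable h hr hF hFp) (mu_integrable h hr hG hGp)

theorem Ex_mono {U : E d → ℝ} {β : ℝ} (h : HessB U 0 β) {r : ℝ} (hr : |r| < 1 / 2) {F G : Z d → ℝ}
    (hF : Continuous F) (hFp : PG F) (hG : Continuous G) (hGp : PG G) (hle : ∀ z, F z ≤ G z) :
    Ex U r F ≤ Ex U r G :=
  integral_mono (mu_integrable h hr hF hFp) (mu_integrable h hr hG hGp) fun _ => hle _

theorem Ex_cmul (U : E d → ℝ) (r c : ℝ) (F : Z d → ℝ) :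
    Ex U r (fun z => c * F z) = c * Ex U r F := integral_const_mul _ _

theorem Ex_nonneg (U : E d → ℝ) (r : ℝ) {F : Z d → ℝ} (hF : ∀ z, 0 ≤ F z) : 0 ≤ Ex U r F :=
  integral_nonneg fun _ => hF _

theorem Ex_const {U : E d → ℝ} {β : ℝ} (h : HessB U 0 β) (r c : ℝ) : Ex U r (fun _ => c) = c := by
  have := mu_prob h r
  simp [Ex]

theorem Ex_sum {U : E d → ℝ} {β : ℝ} (h : HessB U 0 β) {r : ℝ} (hr : |r| < 1 / 2) {ι : Type}
    (s : Finset ι) {F : ι → Z d → ℝ} (hF : ∀ i ∈ s, (F i).HasTemperateGrowth) :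
    Ex U r (fun z => ∑ i ∈ s, F i z) = ∑ i ∈ s, Ex U r (F i) :=
  integral_finset_sum _ fun i hi => mu_integrable h hr (tg_cont (hF i hi)) (tg_pg (hF i hi))

theorem Ex_cs {U : E d → ℝ} {β : ℝ} (h : HessB U 0 β) {r : ℝ} (hr : |r| < 1 / 2) {F G : Z d → ℝ}
    (hF : Continuous F) (hFp : PG F) (hG : Continuous G) (hGp : PG G) :
    Ex U r (fun z => F z * G z) ^ 2 ≤ Ex U r (fun z => F z ^ 2) * Ex U r (fun z => G z ^ 2) := by
  have : ∀ t : ℝ, 0 ≤ Ex U r (fun z => F z ^ 2) * (t * t) + 2 * Ex U r (fun z => F z * G z) * t +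
      Ex U r (fun z => G z ^ 2) := by
    intro t
    have h0 := Ex_nonneg U r (F := fun z => (t * t * F z ^ 2 + 2 * t * (F z * G z)) + G z ^ 2)
      fun z => by nlinarith [sq_nonneg (t * F z + G z)]
    rw [Ex_add h hr (by fun_prop) (((PG.const _).mul (hFp.npow 2)).add ((PG.const _).mul (hFp.mul hGp)))
      (by fun_prop) (hGp.npow 2), Ex_add h hr (by fun_prop) ((PG.const _).mul (hFp.npow 2))
      (by fun_prop) ((PG.const _).mul (hFp.mul hGp)), Ex_cmul, Ex_cmul] at h0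
    linarith
  have := discrim_le_zero this
  unfold discrim at this; nlinarith

theorem hasDerivAt_tt {r : ℝ} (hr : |r| < 1 / 2) : HasDerivAt tt (Real.pi * (1 + tt r ^ 2)) r := by
  have hp := Real.pi_pos
  rw [abs_lt] at hr
  have hc : Real.cos (Real.pi * r) ≠ 0 :=
    (Real.cos_pos_of_mem_Ioo ⟨by nlinarith, by nlinarith⟩).ne'
  have := (Real.hasDerivAt_tan hc).comp r ((hasDerivAt_id r).const_mul Real.pi)
  refine this.congr_deriv ?_
  rw [tt, ← Real.inv_one_add_tan_sq hc]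
  field_simp

theorem transport {U : E d → ℝ} {β : ℝ} (h : HessB U 0 β) {Ψ : ℝ × Z d → ℝ}
    (hΨ : Ψ.HasTemperateGrowth) (r₀ ε s : ℝ) (hr : |r₀ + ε * s| < 1 / 2) :
    HasDerivAt (fun s' => Ex U (r₀ + ε * s') (fun z => Ψ (s', z)))
      (Ex U (r₀ + ε * s) (fun z => fderiv ℝ Ψ (s, z) (1, ε • bD U z))) s := by
  have hΦ := tg_Phi h
  have hΦc := tg_cont hΦ
  have hΨc := tg_cont hΨ
  let b : Z d → Z d := fun z => (ε * (Real.pi * (1 + z.1 ^ 2)), 0)
  have hb : b.HasTemperateGrowth := tg_prodMk ((HasTemperateGrowth.const ε).fun_mul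
    (tg_one_add_sq.comp tg_fst)) (HasTemperateGrowth.const _)
  let Θ : ℝ × Z d → ℝ := fun p => act (fun p : ℝ × Z d => ((1 : ℝ), b p.2)) Ψ p - Ψ p * act b (Phi U) p.2
  have hΘ : Θ.HasTemperateGrowth :=
    (tg_act (tg_prodMk (HasTemperateGrowth.const _) (hb.comp (tg_p2 tg_id))) hΨ).fun_sub
      (hΨ.fun_mul ((tg_act hb hΦ).comp (tg_p2 tg_id)))
  have hΘc := tg_cont hΘ
  have hl : ∀ s' : ℝ, HasDerivAt (fun s' => r₀ + ε * s') ε s' := fun s' => by
    simpa using ((hasDerivAt_id s').const_mul ε).const_add r₀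
  have hτ : ∀ s', |r₀ + ε * s'| < 1 / 2 → HasDerivAt (fun s' => tt (r₀ + ε * s'))
      (ε * (Real.pi * (1 + tt (r₀ + ε * s') ^ 2))) s' := fun s' hs' => by
    simpa [mul_comm, Function.comp_def] using (hasDerivAt_tt hs').comp s' (hl s')
  set B := |s| + |tt (r₀ + ε * s)| + 1
  have hev1 : ∀ᶠ s' in nhds s, |r₀ + ε * s'| < 1 / 2 :=
    ((hl s).continuousAt.abs).eventually_lt continuousAt_const hr
  have hev : {s' | |r₀ + ε * s'| < 1 / 2 ∧ |tt (r₀ + ε * s')| < B ∧ |s'| < B} ∈ nhds s :=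
    hev1.and ((((hτ s hr).continuousAt.abs).eventually_lt continuousAt_const
      (by simp only [B]; linarith [abs_nonneg s])).and
      ((continuousAt_id.abs).eventually_lt continuousAt_const
      (by simp only [B, id]; linarith [abs_nonneg (tt (r₀ + ε * s))])))
  obtain ⟨K, g, hK, hBd⟩ := le_Bd h
  obtain ⟨C, n, hC⟩ := tg_pg hΘ
  have sl : ∀ {G : ℝ × Z d → ℝ}, G.HasTemperateGrowth → (fun z => G (s, z)).HasTemperateGrowth :=
    fun hG => hG.comp (tg_prodMk (HasTemperateGrowth.const s) tg_id)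
  have key := (hasDerivAt_integral_of_dominated_loc_of_deriv_le (μ := volume.prod volume)
    (F := fun s' (q : E d × E d) => Ψ (s', (tt (r₀ + ε * s'), q)) * Real.exp (-Phi U (tt (r₀ + ε * s'), q)))
    (F' := fun s' q => Θ (s', (tt (r₀ + ε * s'), q)) * Real.exp (-Phi U (tt (r₀ + ε * s'), q)))
    (bound := fun q => |C| * (1 + B) ^ n * (K * Bd n g q)) hev
    (Filter.Eventually.of_forall fun s' => Continuous.aestronglyMeasurable (by fun_prop))
    (integrable_vol h _ (F := fun q => Ψ (s, (tt (r₀ + ε * s), q))) (by fun_prop)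
      (pg_slice (tg_pg (sl hΨ)) _))
    (Continuous.aestronglyMeasurable (by fun_prop))
    (Filter.Eventually.of_forall fun q s' hs' => ?_) (((integrable_Bd n g).const_mul K).const_mul _)
    (Filter.Eventually.of_forall fun q s' hs' => ?_)).2
  · have e1 : (fun s' => Ex U (r₀ + ε * s') (fun z => Ψ (s', z))) =ᶠ[nhds s] fun s' => cc U *
        ∫ q, Ψ (s', (tt (r₀ + ε * s'), q)) * Real.exp (-Phi U (tt (r₀ + ε * s'), q))
          ∂(volume.prod volume) := hev1.mono fun s' hs' => Ex_eq h hs' _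
    refine ((key.const_mul (cc U)).congr_of_eventuallyEq e1).congr_deriv ?_
    rw [← Ex_eq h hr (fun z => Θ (s, z))]
    have hx := Cx.of psiAPI h
    have hF := sl hΨ
    have hG : ∀ k, (fun z => Gf U z k).HasTemperateGrowth := fun k => tg_coord (tg_Gf h) k
    have e2 : (fun z => fderiv ℝ Ψ (s, z) (1, ε • bD U z)) = fun z => Θ (s, z) +
        ε * ∑ k, dl U true k (fun z => Gf U z k * Ψ (s, z)) z := by
      funext z
      have a1 : ((1 : ℝ), ε • bD U z) = ((1 : ℝ), b z) + ((0 : ℝ), ((0 : ℝ), (-(ε • Gf U z), (0 : E d)))) := by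
        simp [bD, b]
      have a2 : ∀ e : Z d, fderiv ℝ Ψ (s, z) (0, e) = fderiv ℝ (fun z => Ψ (s, z)) z e := by
        intro e
        have := ((tg_diff hΨ (s, z)).hasFDerivAt.comp z (hasFDerivAt_prodMk_right (𝕜 := ℝ) s z)).fderiv
        simp only [Function.comp_def] at this
        rw [this]; simp
      have a3 : ∀ k, pd (ew k) (fun z => Gf U z k) z = rr z.1 * S U {k, k} (z.1, rr z.1 • z.2.1) := by
        intro k
        have := hx.pd_SL true k {k} z
        simp only [hx.G_eq]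
        exact this
      have a4 := heat h (z.1, rr z.1 • z.2.1)
      have a5 : ∀ k, S U {k} (z.1, rr z.1 • z.2.1) = Gf U z k := fun k => S_one_gv h k _
      have hp : Real.pi * (1 + z.1 ^ 2) ≠ 0 := by have := Real.pi_pos; positivity
      have a6 : act b (Phi U) z = ε * ∑ k, ((z.2.1 k + rr z.1 * Gf U z k) * Gf U z k -
          rr z.1 * S U {k, k} (z.1, rr z.1 • z.2.1)) := by
        rw [act, fderiv_Phi h]
        simp only [b, Prod.fst_zero, Prod.snd_zero, inner_zero_right, zero_add, add_zero,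
          PiLp.zero_apply, mul_zero]
        rw [mul_assoc ε, a4]
        simp only [a5, Finset.mul_sum, ← Finset.sum_add_distrib, mul_add]
        refine Finset.sum_congr rfl fun k _ => ?_
        simp only [← mul_add]
        field_simp; ring
      rw [a1, map_add, a2, clm_decomp3]
      simp only [Θ, a6, dl, Vc, dirc, pd_mul _ (tg_diff (hG _)) (tg_diff hF), a3]
      simp only [act, pd, PiLp.zero_apply, zero_mul, Finset.sum_const_zero, add_zero, PiLp.neg_apply,
        PiLp.smul_apply, smul_eq_mul, Finset.mul_sum, sub_eq_add_neg, add_assoc, ← Finset.sum_neg_distrib,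
        ← Finset.sum_add_distrib]
      congr 1
      exact Finset.sum_congr rfl fun k _ => by ring
    have hd : ∀ k, (dl U true k (fun z => Gf U z k * Ψ (s, z))).HasTemperateGrowth :=
      fun k => hx.tg_dl _ _ ((hG k).fun_mul hF)
    have hs := (HasTemperateGrowth.const ε).fun_mul (tg_sum Finset.univ fun k _ => hd k)
    rw [e2, Ex_add h hr (tg_cont (sl hΘ)) (tg_pg (sl hΘ)) (tg_cont hs) (tg_pg hs), Ex_cmul,
      Ex_sum h hr _ fun k _ => hd k, Finset.sum_eq_zero, mul_zero, add_zero]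
    exact fun k _ => ibp_w h hr ((hG k).fun_mul hF) k
  · obtain ⟨-, h2, h3⟩ := hs'
    have hB : 0 ≤ B := (abs_nonneg _).trans h3.le
    rw [norm_mul, Real.norm_of_nonneg (Real.exp_pos _).le]
    have n1 : 1 + ‖(s', (tt (r₀ + ε * s'), q))‖ ≤ (1 + B) * (1 + ‖q‖) := by
      have : ‖(s', (tt (r₀ + ε * s'), q))‖ ≤ B + ‖q‖ := by
        have := norm_nonneg q
        simp only [Prod.norm_mk, Real.norm_eq_abs]
        exact max_le (by linarith) (max_le (by linarith) (by linarith))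
      nlinarith [norm_nonneg q, mul_nonneg hB (norm_nonneg q)]
    have n2 : ‖Θ (s', (tt (r₀ + ε * s'), q))‖ ≤ |C| * (1 + B) ^ n * (1 + ‖q‖) ^ n := by
      refine (hC _).trans ((mul_le_mul_of_nonneg_right (le_abs_self C) (by positivity)).trans ?_)
      rw [mul_assoc, ← mul_pow]; gcongr
    calc _ ≤ |C| * (1 + B) ^ n * (1 + ‖q‖) ^ n * Real.exp (-Phi U (tt (r₀ + ε * s'), q)) := by gcongr
      _ ≤ _ := by rw [mul_assoc]; exact mul_le_mul_of_nonneg_left (hBd n _ q) (by positivity)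
  · have c1 : HasDerivAt (fun s' => ((tt (r₀ + ε * s'), q) : Z d)) (b (tt (r₀ + ε * s'), q)) s' :=
      (hτ s' hs'.1).prodMk (hasDerivAt_const s' q)
    have c2 : HasDerivAt (fun s' : ℝ => ((s', (tt (r₀ + ε * s'), q)) : ℝ × Z d))
        (1, b (tt (r₀ + ε * s'), q)) s' := (hasDerivAt_id s').prodMk c1
    have c3 := ((tg_diff hΨ _).hasFDerivAt.comp_hasDerivAt s' c2).fun_mul
      (((tg_diff hΦ _).hasFDerivAt.comp_hasDerivAt s' c1).fun_neg.exp)
    refine c3.congr_deriv ?_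
    simp only [Θ, act, Function.comp]
    ring

theorem mu_zero {U : E d → ℝ} {β : ℝ} (h : HessB U 0 β) : mu U 0 = (gam d).prod (gam d) := by
  have := h.post_prob one_pos 0
  unfold mu
  congr 1
  have : (fun q : E d × E d => (0 : ℝ) • q.1 + √(1 - (0 : ℝ) ^ 2) • q.2) = Prod.snd := by
    funext q; simp
  rw [this, Measure.map_snd_prod]; simp

theorem norm_add_sq {U : E d → ℝ} {β : ℝ} (h : HessB U 0 β) {r : ℝ} (hr : |r| < 1 / 2)
    {f g : Z d → E d} {a b : ℝ} (hf : f.HasTemperateGrowth) (hg : g.HasTemperateGrowth) (ha : 0 ≤ a)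
    (hb : 0 ≤ b) (h1 : Ex U r (fun z => ‖f z‖ ^ 2) ≤ a ^ 2) (h2 : Ex U r (fun z => ‖g z‖ ^ 2) ≤ b ^ 2) :
    Ex U r (fun z => ‖f z + g z‖ ^ 2) ≤ (a + b) ^ 2 := by
  have fc := tg_cont hf; have gc := tg_cont hg
  have fp := (tg_pg hf).nrm; have gp := (tg_pg hg).nrm
  have cs := Ex_cs h hr fc.norm fp gc.norm gp
  have c2 : Ex U r (fun z => ‖f z‖ * ‖g z‖) ≤ a * b := by
    refine le_of_sq_le_sq₀' (cs.trans ?_) (by positivity)
    rw [mul_pow]
    exact mul_le_mul h1 h2 (Ex_nonneg U r fun z => by positivity) (by positivity)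
  have m := Ex_mono h hr (F := fun z => ‖f z + g z‖ ^ 2)
    (G := fun z => (‖f z‖ ^ 2 + 2 * (‖f z‖ * ‖g z‖)) + ‖g z‖ ^ 2) (by fun_prop)
    (tg_pg (tg_normsq (hf.fun_add hg))) (by fun_prop)
    (((fp.npow 2).add ((PG.const _).mul (fp.mul gp))).add (gp.npow 2)) fun z => by
      have := norm_add_le (f z) (g z)
      nlinarith [norm_nonneg (f z + g z), norm_nonneg (f z), norm_nonneg (g z)]
  rw [Ex_add h hr (by fun_prop) ((fp.npow 2).add ((PG.const _).mul (fp.mul gp))) (by fun_prop) (gp.npow 2),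
    Ex_add h hr (by fun_prop) (fp.npow 2) (by fun_prop) ((PG.const _).mul (fp.mul gp)), Ex_cmul] at m
  nlinarith

end B3

open B3

theorem measAPI : MeasAPI := fun _ _ _ h =>
  ⟨mu_zero h, fun r hr => ⟨mu_prob h r, fun _ hF => ⟨mu_integrable h hr (tg_cont hF) (tg_pg hF),
    ibp_w h hr hF, ibp_xi h hr hF⟩⟩, fun _ hΨ r₀ ε s hr => transport h hΨ r₀ ε s hr⟩

theorem exAPI : ExAPI := by
  intro d U β r h hr
  refine ⟨fun F G hF hG => ⟨Ex_add h hr (tg_cont hF) (tg_pg hF) (tg_cont hG) (tg_pg hG),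
    Ex_mono h hr (tg_cont hF) (tg_pg hF) (tg_cont hG) (tg_pg hG),
    Ex_cs h hr (tg_cont hF) (tg_pg hF) (tg_cont hG) (tg_pg hG)⟩, fun ι s F hF => Ex_sum h hr s hF,
    fun f a hf ha h1 => ⟨mu_integrable h hr (F := fun z => ‖f z‖) (tg_cont hf).norm (tg_pg hf).nrm, ?_,
      fun c => ?_, fun g b hg hb h2 => norm_add_sq h hr hf hg ha hb h1 h2⟩, fun ι s f a H => ?_⟩
  · have cs := Ex_cs h hr (tg_cont hf).norm (tg_pg hf).nrm (G := fun _ => 1) continuous_const (PG.const 1)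
    simp only [mul_one, one_pow, Ex_const h] at cs
    exact le_of_sq_le_sq₀' (cs.trans h1) ha
  · simp only [norm_smul, mul_pow, Ex_cmul, Real.norm_eq_abs]
    exact mul_le_mul_of_nonneg_left h1 (by positivity)
  · classical
    induction s using Finset.induction_on with
    | empty => simp [Ex_const h]
    | insert i s hi ih =>
      simp only [Finset.sum_insert hi]
      have H' := fun j hj => H j (Finset.mem_insert_of_mem hj)
      obtain ⟨a1, a2, a3⟩ := H i (Finset.mem_insert_self i s)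
      exact norm_add_sq h hr a1 (tg_sum s fun j hj => (H' j hj).1) a2
        (Finset.sum_nonneg fun j hj => (H' j hj).2.1) a3 (ih H')

end Crest.Agent.LCS
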