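import Crest.Agent.LCS.TL
import Crest.Agent.LCS.Meas
import Crest.Agent.LCS.GFacts

/-! JOB C4, first half: finite-difference formula for a scaled word. -/

set_option autoImplicit false
set_option linter.unusedSectionVars false
open MeasureTheory Function

namespace Crest.Agent.LCS
open TLx

namespace FDx

theorem exists_weights (N : ℕ) : ∃ c : ℕ → ℝ, ∀ j ≤ N,
    ∑ m ∈ Finset.range (N + 1), c m * (m : ℝ) ^ j = if j = 1 then 1 else 0 := by
  refine ⟨fun m => (Lagrange.basis (Finset.range (N + 1)) (fun i : ℕ => (i : ℝ)) m).coeff 1,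
    fun j hj => ?_⟩
  have h := Lagrange.eq_interpolate (s := Finset.range (N + 1)) (v := fun i : ℕ => (i : ℝ))
    (f := Polynomial.X ^ j) (fun a _ b _ h => Nat.cast_injective (R := ℝ) h)
    (by rw [Polynomial.degree_X_pow, Finset.card_range]; exact_mod_cast Nat.lt_succ_of_le hj)
  have h2 := congrArg (fun p : Polynomial ℝ => p.coeff 1) h
  simp only [Lagrange.interpolate_apply, Polynomial.finsetSum_coeff, Polynomial.coeff_C_mul,
    Polynomial.coeff_X_pow, Polynomial.eval_pow, Polynomial.eval_X] at h2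
  simp only [eq_comm (a := j), h2, mul_comm]

theorem pos_sum {J : ℕ} {b : Bool} {ι : Type} (s : Finset ι) {u : ι → Fam}
    (h : ∀ i ∈ s, Pos J b (u i)) : Pos J b (fun q U z => ∑ i ∈ s, u i q U z) := by
  classical
  induction s using Finset.induction_on with
  | empty => simpa using Pos.zero b
  | insert i s hi ih =>
    simp only [Finset.sum_insert hi]
    exact Pos.add (h i (Finset.mem_insert_self _ _))
      (ih fun j hj => h j (Finset.mem_insert_of_mem hj))

theorem hat_iter {J : ℕ} (X : Letter) {u : Fam} (q : Par0) (U : E q.d → ℝ)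
    (hU : HessB U 0 (2 * q.v)) (hu : (u q U).HasTemperateGrowth) (j : ℕ) :
    ((hat J X)^[j] u) q U = fun z => hsc q X ^ j • ((act (fld U J q.τ q.v X))^[j] (u q U)) z := by
  induction j with
  | zero => funext z; simp
  | succ j ih =>
    rw [Function.iterate_succ_apply', Function.iterate_succ_apply']
    funext z
    simp only [hat]
    rw [ih, act_csmul _ _ (tg_diff (tg_iter (tg_fld hU J q.τ q.v X) hu j)), smul_smul, pow_succ']

theorem pos_iter (hP : PosAPI) {J : ℕ} {b : Bool} (X : Letter) {u : Fam} (h : Pos J b u) (j : ℕ) :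
    Pos J b ((hat J X)^[j] u) := by
  induction j with
  | zero => exact h
  | succ j ih => rw [Function.iterate_succ_apply']; exact ((hP J).1 b _ ih).2.1 X

theorem pos_tay (hP : PosAPI) {J : ℕ} {b : Bool} (X : Letter) {u : Fam} (h : Pos J b u) (N : ℕ)
    (m : ℝ) : Pos J b (fun q U => tay (fld U J q.τ q.v X) N (m * hsc q X) (u q U)) := by
  refine Pos.congr (pos_sum (Finset.range (N + 1)) fun j _ =>
    Pos.smul (m ^ j / (j.factorial : ℝ)) (pos_iter hP X h j)) fun q U hU => ?_
  funext z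
  simp only [tay, hat_iter X q U hU (((hP J).1 b u h).1 q U hU), smul_smul]
  refine Finset.sum_congr rfl fun j _ => ?_
  congr 1
  rw [mul_pow]; ring

def shN : Letter → ℕ
  | .D => 1
  | .H => 0
  | .R => 0

theorem sh_hsc (q : Par0) (X : Letter) : sh X * hsc q X = shN X * q.τ := by
  cases X <;> simp [sh, hsc, shN]

theorem shN_le (X : Letter) : shN X ≤ 1 := by cases X <;> simp [shN]

theorem sh_nonneg (X : Letter) : 0 ≤ sh X := by cases X <;> simp [sh]

theorem hsc_nonneg (q : Par0) (X : Letter) : 0 ≤ hsc q X := by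
  have := q.hτ; have := q.hv; have := q.hvϖ
  cases X
  · exact q.hτ.le
  · exact q.hτ.le
  · exact mul_nonneg q.hτ.le (by linarith)

theorem hsc_le (q : Par0) (X : Letter) : hsc q X ≤ q.τ := by
  cases X
  · exact le_rfl
  · exact le_rfl
  · exact mul_le_of_le_one_right q.hτ.le q.hϖ

theorem tg_gv_sq {d : ℕ} {U : E d → ℝ} {β ρ : ℝ} (hU : HessB U 0 β) (hρ : |ρ| < 1 / 2) :
    (gv U (1 - ρ ^ 2)).HasTemperateGrowth := by
  have := tg_comp (tg_gv hU) (tg_prodMk (HasTemperateGrowth.const (tt ρ)) (tg_id (Y := E d)))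
  simpa only [aa, rr_tt hρ] using this

end FDx
open FDx

theorem fd (hP : PosAPI) : FD := by
  intro J ω
  induction ω with
  | nil =>
    refine ⟨Unit, Finset.univ, fun _ => 1, fun _ => 0, fun _ _ _ z => z.2.1, 0, le_rfl,
      fun i _ => ⟨Pos.w, by simp⟩, fun q U r hU hr hr' => ?_⟩
    have hr2 : |r| < 1 / 2 := by rw [abs_of_nonneg hr]; linarith
    simp [Ex, hword, Gh, Gf, aa, rr_tt hr2]
  | cons X ω ih =>
    obtain ⟨ι, s, β, n, u, C, hC, hs, hb⟩ := ih
    obtain ⟨c, hc⟩ := exists_weights (J + 1)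
    have hA : ∀ i, ∃ A : ℝ, 0 ≤ A ∧ (i ∈ s → ∀ (q : Par0) (U : E q.d → ℝ) (r : ℝ),
        HessB U 0 (2 * q.v) → |r| < 1 / 2 →
        Ex U r (fun z => ‖((act (fld U J q.τ q.v X))^[J + 1 + 1] (u i q U)) z‖ ^ 2) ≤
          (A * (√(q.d : ℝ) + q.ϖ / q.v * ‖gv U 1 0‖)) ^ 2) := by
      intro i
      by_cases hi : i ∈ s
      · obtain ⟨A, hA0, hA⟩ := ((hP J).1 true _ (hs i hi).1).2.2 X (J + 1 + 1)
        exact ⟨A, hA0, fun _ => hA⟩
      · exact ⟨0, le_rfl, fun h => absurd h hi⟩
    choose A hA0 hA using hA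
    obtain ⟨th, -, hB⟩ := (hP J).2.2.1 ω
    obtain ⟨B, hB0, hB⟩ := hB X (J + 1)
    set C₂ : ℝ := C + ((J : ℝ) + 1) ^ (J + 1 + 1) * (∑ i ∈ s, 2 * |β i| * A i + B) with hC₂
    have hS : 0 ≤ ∑ i ∈ s, 2 * |β i| * A i :=
      Finset.sum_nonneg fun i _ => by have := hA0 i; positivity
    have hC₂0 : 0 ≤ C₂ := by positivity
    have hcs : 0 ≤ ∑ m ∈ Finset.range (J + 1 + 1), |c m| * C₂ :=
      Finset.sum_nonneg fun m _ => by positivity
    refine ⟨ℕ × ι, Finset.range (J + 1 + 1) ×ˢ s, fun p => c p.1 * β p.2,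
      fun p => p.1 * shN X + n p.2,
      fun p q U => tay (fld U J q.τ q.v X) (J + 1) (p.1 * hsc q X) (u p.2 q U),
      C + (J + 1) + ∑ m ∈ Finset.range (J + 1 + 1), |c m| * C₂, by positivity, fun p hp => ?_,
      fun q U r hU hr hr' => ?_⟩
    · obtain ⟨h1, h2⟩ := Finset.mem_product.1 hp
      refine ⟨pos_tay hP X (hs _ h2).1 _ _, ?_⟩
      have h3 := (hs _ h2).2
      have h4 : p.1 * shN X ≤ J + 1 := by
        have := shN_le X; have := Finset.mem_range.1 h1; nlinarith
      have h5 : ((p.1 * shN X : ℕ) : ℝ) ≤ J + 1 := by exact_mod_cast h4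
      push_cast at h5 ⊢
      linarith
    have hτ := q.hτ
    have hv := q.hv
    have hϖ : 0 < q.ϖ := hv.trans_le q.hvϖ
    set K : ℝ := √(q.d : ℝ) + q.ϖ / q.v * ‖gv U 1 0‖ with hK
    have hK0 : 0 ≤ K := by positivity
    have hdK : √(q.d : ℝ) ≤ K := by
      have : 0 ≤ q.ϖ / q.v * ‖gv U 1 0‖ := by positivity
      linarith
    set b := fld U J q.τ q.v X with hbdef
    have tb : b.HasTemperateGrowth := tg_fld hU _ _ _ _
    have hr1 : r + (J + 1) * q.τ + C * q.τ ≤ 1 / 4 := by nlinarith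
    have hCτ : 0 ≤ C * q.τ := by positivity
    have hr2 : |r| < 1 / 2 := by
      rw [abs_of_nonneg hr]
      have : 0 ≤ ((J : ℝ) + 1) * q.τ := by positivity
      linarith
    -- the functions `Φ`
    set Φ : ℕ → ι → E q.d → E q.d := fun m i x => (β i * q.v⁻¹) •
      gv U (1 - (r + sh X * (m * hsc q X) + n i * q.τ) ^ 2)
        ((r + sh X * (m * hsc q X) + n i * q.τ) • x) with hΦ
    set W : ℕ → Z q.d → E q.d := fun m z => ∑ i ∈ s, Φ m i (tay b (J + 1) (m * hsc q X) (u i q U) z) -
      tay b (J + 1) (m * hsc q X) (hword J ω q U) z with hW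
    have hm : ∀ m ∈ Finset.range (J + 1 + 1), (W m).HasTemperateGrowth ∧
        Ex U r (fun z => ‖W m z‖ ^ 2) ≤ (C₂ * q.τ ^ (J + 1) * K) ^ 2 := by
      intro m hm
      have hmJ : (m : ℝ) ≤ J + 1 := by
        have := Finset.mem_range.1 hm
        exact_mod_cast Nat.lt_succ_iff.1 this
      have hT0 : 0 ≤ (m : ℝ) * hsc q X := mul_nonneg (Nat.cast_nonneg m) (hsc_nonneg q X)
      have hT1 : (m : ℝ) * hsc q X ≤ (J + 1) * q.τ :=
        mul_le_mul hmJ (hsc_le q X) (hsc_nonneg q X) (by positivity)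
      have hsh1 : sh X ≤ 1 := by cases X <;> simp [sh]
      have hsh : ∀ t, 0 ≤ t → t ≤ m * hsc q X → 0 ≤ sh X * t ∧ sh X * t ≤ (J + 1) * q.τ :=
        fun t h0 h1 => ⟨mul_nonneg (sh_nonneg X) h0,
          ((mul_le_of_le_one_left h0 hsh1).trans h1).trans hT1⟩
      obtain ⟨h1, h2⟩ := hsh _ hT0 le_rfl
      have hρ : ∀ i ∈ s, 0 ≤ r + sh X * (m * hsc q X) + n i * q.τ ∧
          r + sh X * (m * hsc q X) + n i * q.τ ≤ 1 / 4 := fun i hi => by
        have := mul_le_mul_of_nonneg_right (hs i hi).2 hτ.le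
        exact ⟨by positivity, by linarith⟩
      have tΦ : ∀ i ∈ s, (Φ m i).HasTemperateGrowth := fun i hi =>
        (HasTemperateGrowth.const _).fun_smul (tg_comp
          (tg_gv_sq hU (by rw [abs_of_nonneg (hρ i hi).1]; linarith [(hρ i hi).2]))
          ((HasTemperateGrowth.const _).fun_smul tg_id))
      have tu : ∀ i ∈ s, (u i q U).HasTemperateGrowth := fun i hi =>
        ((hP J).1 true _ (hs i hi).1).1 q U hU
      refine ⟨(tg_sum s fun i hi => tg_comp (tΦ i hi) (tg_tay tb (tu i hi) _ _)).fun_sub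
        (tg_tay tb (th q U hU) _ _), ?_⟩
      have key := tl1 measAPI exAPI q.d U _ hU J q.τ q.v X (J + 1) ι s (Φ m) (fun i => 2 * |β i|)
        (fun i => A i * K) (fun i => u i q U) (hword J ω q U) r (m * hsc q X)
        (C * q.τ ^ (J + 1) * K) (B * K) (fun i hi => ⟨tΦ i hi, tu i hi, by positivity,
          mul_nonneg (hA0 i) hK0, fun x y => ?_⟩) (th q U hU) (by positivity) (by positivity)
        (fun t ht => ?_) (hb q U _ hU (by linarith) (by linarith))
      · refine key.trans (pow_le_pow_left₀ ?_ ?_ 2)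
        · have : 0 ≤ ∑ i ∈ s, 2 * |β i| * (A i * K) :=
            Finset.sum_nonneg fun i _ => by have := hA0 i; positivity
          positivity
        · have e : ∑ i ∈ s, 2 * |β i| * (A i * K) + B * K = (∑ i ∈ s, 2 * |β i| * A i + B) * K := by
            rw [add_mul, Finset.sum_mul]
            congr 1
            exact Finset.sum_congr rfl fun i _ => by ring
          have h3 : |(m : ℝ) * hsc q X| ^ (J + 1 + 1) ≤ ((J : ℝ) + 1) ^ (J + 1 + 1) * q.τ ^ (J + 1) := by
            rw [abs_of_nonneg hT0]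
            calc _ ≤ (((J : ℝ) + 1) * q.τ) ^ (J + 1 + 1) := pow_le_pow_left₀ hT0 hT1 _
              _ = ((J : ℝ) + 1) ^ (J + 1 + 1) * (q.τ ^ (J + 1) * q.τ) := by rw [mul_pow, pow_succ q.τ (J + 1)]
              _ ≤ _ := by
                gcongr
                exact mul_le_of_le_one_right (by positivity) q.hτ1
          rw [e, hC₂]
          have h4 := mul_le_mul_of_nonneg_right h3
            (by positivity : 0 ≤ (∑ i ∈ s, 2 * |β i| * A i + B) * K)
          nlinarith
      · obtain ⟨a1, a2⟩ := hρ i hi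
        set ρ := r + sh X * (m * hsc q X) + n i * q.τ
        have := gLip q.d U (2 * q.v) (1 - ρ ^ 2) (by positivity) hU (by nlinarith) (ρ • x) (ρ • y)
        simp only [hΦ]
        rw [← smul_sub, norm_smul, Real.norm_eq_abs, abs_mul, abs_of_pos (inv_pos.2 hv)]
        rw [← smul_sub, norm_smul, Real.norm_eq_abs, abs_of_nonneg a1] at this
        calc _ ≤ |β i| * q.v⁻¹ * (2 * q.v * (1 * ‖x - y‖)) := by
              refine mul_le_mul_of_nonneg_left (this.trans ?_) (by positivity)
              gcongr; linarith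
          _ = _ := by field_simp
      · rw [Set.uIcc_of_le hT0] at ht
        obtain ⟨a1, a2⟩ := hsh t ht.1 ht.2
        have hr3 : |r + sh X * t| < 1 / 2 := by
          rw [abs_of_nonneg (by linarith)]; linarith
        refine ⟨hr3, fun i hi => hA i hi q U _ hU hr3, (hB q U _ hU hr3).trans ?_⟩
        gcongr
    have hsum := (exAPI q.d U _ r hU hr2).2.2.2 ℕ (Finset.range (J + 1 + 1))
      (fun m z => c m • W m z) (fun m => |c m| * (C₂ * q.τ ^ (J + 1) * K)) fun m hm' =>
        ⟨(HasTemperateGrowth.const _).fun_smul (hm m hm').1, by positivity,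
          ((exAPI q.d U _ r hU hr2).2.2.1 _ _ (hm m hm').1 (by positivity) (hm m hm').2).2.2.1 _⟩
    have e : ∀ z, ∑ p ∈ Finset.range (J + 1 + 1) ×ˢ s, (c p.1 * β p.2 * q.v⁻¹) •
        gv U (1 - (r + ((p.1 * shN X + n p.2 : ℕ) : ℝ) * q.τ) ^ 2)
          ((r + ((p.1 * shN X + n p.2 : ℕ) : ℝ) * q.τ) •
            tay b (J + 1) (p.1 * hsc q X) (u p.2 q U) z) - hword J (X :: ω) q U z =
        ∑ m ∈ Finset.range (J + 1 + 1), c m • W m z := by
      intro z
      simp only [hW, smul_sub, Finset.sum_sub_distrib]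
      congr 1
      · rw [Finset.sum_product]
        refine Finset.sum_congr rfl fun m _ => ?_
        rw [Finset.smul_sum]
        refine Finset.sum_congr rfl fun i _ => ?_
        have : r + ((m * shN X + n i : ℕ) : ℝ) * q.τ = r + sh X * (m * hsc q X) + n i * q.τ := by
          rw [mul_left_comm, sh_hsc]; push_cast; ring
        simp only [hΦ, this, smul_smul, mul_assoc]
      · simp only [tay, Finset.smul_sum, smul_smul]
        rw [Finset.sum_comm]
        simp only [← Finset.sum_smul]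
        have : ∀ j ∈ Finset.range (J + 1 + 1),
            (∑ m ∈ Finset.range (J + 1 + 1), c m * ((m * hsc q X) ^ j / (j.factorial : ℝ))) =
              if j = 1 then hsc q X else 0 := by
          intro j hj
          have h1 := hc j (Nat.lt_succ_iff.1 (Finset.mem_range.1 hj))
          have h2 : (∑ m ∈ Finset.range (J + 1 + 1), c m * ((m * hsc q X) ^ j / (j.factorial : ℝ))) =
              (∑ m ∈ Finset.range (J + 1 + 1), c m * (m : ℝ) ^ j) *
                (hsc q X ^ j / (j.factorial : ℝ)) := by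
            rw [Finset.sum_mul]
            exact Finset.sum_congr rfl fun m _ => by rw [mul_pow]; ring
          rw [h2, h1]
          split_ifs with h
          · simp [h]
          · simp
        rw [Finset.sum_congr rfl fun j hj => by rw [this j hj]]
        simp only [ite_smul, zero_smul, Finset.sum_ite_eq', Finset.mem_range]
        rw [if_pos (by omega)]
        rfl
    refine le_trans (le_of_eq (congrArg (Ex U r) (funext fun z =>
      congrArg (fun x => ‖x‖ ^ 2) (e z)))) ?_
    refine hsum.trans (pow_le_pow_left₀ (Finset.sum_nonneg fun m _ => by positivity) ?_ 2)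
    have e2 : ∑ m ∈ Finset.range (J + 1 + 1), |c m| * (C₂ * q.τ ^ (J + 1) * K) =
        (∑ m ∈ Finset.range (J + 1 + 1), |c m| * C₂) * q.τ ^ (J + 1) * K := by
      rw [Finset.sum_mul, Finset.sum_mul]
      exact Finset.sum_congr rfl fun m _ => by ring
    rw [e2]
    gcongr
    have : (0 : ℝ) ≤ C + (J + 1) := by positivity
    linarith

end Crest.Agent.LCS
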