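import Crest.Agent.LCS.Meas
import Crest.Agent.LCS.GFacts

/-! JOB C4, second half: unrolling position fields into expression trees. -/

set_option autoImplicit false
set_option linter.unusedSectionVars false
open MeasureTheory Function

namespace Crest.Agent.LCS
namespace C4b
open B3

abbrev T3 := ℝ × ℝ × ℝ

/-- `a • s + c` -/
def aff (a : ℝ) (c : T3) : Tr T3 → Tr T3
  | .leaf b => .leaf (a • b + c)
  | .add e κ v c' => .add (aff a c e) (a * κ) v c'

/-- `s + s'` -/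
def app (s : Tr T3) : Tr T3 → Tr T3
  | .leaf c => aff 1 c s
  | .add e κ v c => .add (app s e) κ v c

theorem ev3_aff {d : ℕ} (m y ξ : E d) (a : ℝ) (b c : T3) :
    ev3 m y ξ (a • b + c) = a • ev3 m y ξ b + ev3 m y ξ c := by
  simp only [ev3, Prod.fst_add, Prod.snd_add, Prod.smul_fst, Prod.smul_snd, smul_eq_mul, add_smul,
    mul_smul, smul_add]
  abel

theorem ev3_zero {d : ℕ} (m y ξ : E d) : ev3 m y ξ 0 = 0 := by simp [ev3]

theorem val_aff {d : ℕ} (V : E d → ℝ) (m y ξ : E d) (a : ℝ) (c : T3) (s : Tr T3) :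
    (aff a c s).val V (ev3 m y ξ) = a • s.val V (ev3 m y ξ) + ev3 m y ξ c := by
  induction s with
  | leaf b => exact ev3_aff m y ξ a b c
  | add e κ v c' ih _ => simp only [aff, Tr.val, ih, smul_add, mul_smul]; abel

theorem len_aff (a : ℝ) (c : T3) (s : Tr T3) : (aff a c s).len = s.len := by
  induction s with
  | leaf b => rfl
  | add e κ v c' ih _ => simp only [aff, Tr.len, ih]

theorem wt_aff (a : ℝ) (c : T3) (s : Tr T3) : (aff a c s).wt = |a| * s.wt := by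
  induction s with
  | leaf b => simp [aff, Tr.wt]
  | add e κ v c' ih _ => simp only [aff, Tr.wt, ih, abs_mul, mul_add]

theorem base_aff (a : ℝ) (c : T3) (s : Tr T3) : (aff a c s).base = a • s.base + c := by
  induction s with
  | leaf b => rfl
  | add e κ v c' ih _ => simp only [aff, Tr.base, ih]

theorem good_aff {Λ s η ω : ℝ} (a : ℝ) (c : T3) {t : Tr T3} (h : t.Good Λ s η ω) :
    (aff a c t).Good Λ s η ω := by
  induction t with
  | leaf b => trivial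
  | add e κ v c' ih _ => exact ⟨ih h.1, h.2⟩

theorem allSub_aff {P : T3 → Prop} (a : ℝ) (c : T3) {t : Tr T3} (h : t.AllSub P) :
    (aff a c t).AllSub P := by
  induction t with
  | leaf b => trivial
  | add e κ v c' ih _ => exact ⟨ih h.1, h.2⟩

theorem all_of_sub {B : Type} {P : B → Prop} {t : Tr B} (h : t.AllSub P) (hb : P t.base) : t.All P := by
  induction t with
  | leaf b => exact hb
  | add e κ v c' ih _ => exact ⟨ih h.1 hb, h.2⟩

theorem val_app {d : ℕ} (V : E d → ℝ) (m y ξ : E d) (s t : Tr T3) :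
    (app s t).val V (ev3 m y ξ) = s.val V (ev3 m y ξ) + t.val V (ev3 m y ξ) := by
  induction t with
  | leaf b => simp only [app, val_aff, one_smul, Tr.val]
  | add e κ v c' ih _ => simp only [app, Tr.val, ih, add_assoc]

theorem len_app (s t : Tr T3) : (app s t).len = s.len + t.len := by
  induction t with
  | leaf b => simp [app, len_aff, Tr.len]
  | add e κ v c' ih _ => simp only [app, Tr.len, ih, add_assoc]

theorem wt_app (s t : Tr T3) : (app s t).wt = s.wt + t.wt := by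
  induction t with
  | leaf b => simp [app, wt_aff, Tr.wt]
  | add e κ v c' ih _ => simp only [app, Tr.wt, ih, add_assoc]

theorem base_app (s t : Tr T3) : (app s t).base = s.base + t.base := by
  induction t with
  | leaf b => simp [app, base_aff, Tr.base]
  | add e κ v c' ih _ => simp only [app, Tr.base, ih]

theorem good_app {Λ s η ω : ℝ} {t t' : Tr T3} (h : t.Good Λ s η ω) (h' : t'.Good Λ s η ω) :
    (app t t').Good Λ s η ω := by
  induction t' with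
  | leaf b => exact good_aff _ _ h
  | add e κ v c' ih _ => exact ⟨ih h'.1, h'.2⟩

theorem allSub_app {P : T3 → Prop} {t t' : Tr T3} (h : t.AllSub P) (h' : t'.AllSub P) :
    (app t t').AllSub P := by
  induction t' with
  | leaf b => exact allSub_aff _ _ h
  | add e κ v c' ih _ => exact ⟨ih h'.1, h'.2⟩

theorem good_mono {B : Type} {Λ Λ' s η ω ω' : ℝ} (h0 : 0 < Λ) (hΛ : Λ ≤ Λ') (hs : 0 ≤ s) (hω : ω ≤ ω')
    {t : Tr B} (h : t.Good Λ s η ω) : t.Good Λ' s η ω' := by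
  induction t with
  | leaf b => trivial
  | add e κ v c ih1 ih2 =>
    obtain ⟨a1, a2, a3, a4, a5, a6, a7⟩ := h
    exact ⟨ih1 a1, (div_le_div_of_nonneg_left hs h0 hΛ).trans a2,
      a3.trans (mul_le_mul_of_nonneg_right hΛ hs), a4, a5.trans hΛ, a6.trans hω, ih2 a7⟩

theorem all_mono {B : Type} {P Q : B → Prop} (hPQ : ∀ b, P b → Q b) {t : Tr B} (h : t.All P) :
    t.All Q := by
  induction t with
  | leaf b => exact hPQ _ h
  | add e κ v c ih1 ih2 => exact ⟨ih1 h.1, ih2 h.2⟩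

theorem allSub_mono {B : Type} {P Q : B → Prop} (hPQ : ∀ b, P b → Q b) {t : Tr B} (h : t.AllSub P) :
    t.AllSub Q := by
  induction t with
  | leaf b => trivial
  | add e κ v c ih1 _ => exact ⟨ih1 h.1, all_mono hPQ h.2⟩

theorem wt_nonneg {B : Type} (t : Tr B) : 0 ≤ t.wt := by
  induction t with
  | leaf b => exact le_rfl
  | add e κ v c ih _ => exact add_nonneg ih (abs_nonneg _)

def Shape (C : ℝ) (q : Par0) (b : Bool) (s : Tr T3) : Prop :=
  (s.len : ℝ) ≤ C ∧ s.wt ≤ C * q.ϖ ∧ s.Good C q.v q.v (C * q.ϖ) ∧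
    s.base.1 = 0 ∧ Coef C s.base ∧ (b = false → s.base = 0) ∧
    s.AllSub (fun c => c.1 = 1 ∧ |c.2.1| ≤ C * q.τ ∧ |c.2.2| ≤ C * q.τ)

theorem varpi_pos (q : Par0) : 0 < q.ϖ := q.hv.trans_le q.hvϖ

theorem sub_mono {C C' : ℝ} (q : Par0) (h : C ≤ C') (c : T3)
    (hc : c.1 = 1 ∧ |c.2.1| ≤ C * q.τ ∧ |c.2.2| ≤ C * q.τ) :
    c.1 = 1 ∧ |c.2.1| ≤ C' * q.τ ∧ |c.2.2| ≤ C' * q.τ :=
  ⟨hc.1, hc.2.1.trans (mul_le_mul_of_nonneg_right h q.hτ.le),
    hc.2.2.trans (mul_le_mul_of_nonneg_right h q.hτ.le)⟩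

theorem good_mono' {C C' : ℝ} (q : Par0) (h1 : 1 ≤ C) (h : C ≤ C') {s : Tr T3}
    (hs : s.Good C q.v q.v (C * q.ϖ)) : s.Good C' q.v q.v (C' * q.ϖ) :=
  good_mono (by linarith) h q.hv.le (mul_le_mul_of_nonneg_right h (varpi_pos q).le) hs

theorem Shape.mono {C C' : ℝ} {q : Par0} {b : Bool} {s : Tr T3} (hs : Shape C q b s) (h1 : 1 ≤ C)
    (h : C ≤ C') : Shape C' q b s := by
  obtain ⟨a1, a2, a3, a4, a5, a6, a7⟩ := hs
  exact ⟨a1.trans h, a2.trans (mul_le_mul_of_nonneg_right h (varpi_pos q).le), good_mono' q h1 h a3,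
    a4, ⟨a5.1.trans h, a5.2.1.trans h, a5.2.2.trans h⟩, a6, allSub_mono (sub_mono q h) a7⟩

noncomputable def err (J p : ℕ) (C : ℝ) (q : Par0) (V : E q.d → ℝ) (m : E q.d) : ℝ :=
  C * q.ϖ * (q.τ ^ (J + 1) + (C * q.ϖ) ^ p) * (‖gv V q.v m‖ + √(q.d : ℝ))

theorem err_nonneg (J p : ℕ) {C : ℝ} (hC : 0 ≤ C) (q : Par0) (V : E q.d → ℝ) (m : E q.d) :
    0 ≤ err J p C q V m := by
  have := varpi_pos q; have := q.hτ
  unfold err; positivity

theorem err_add (J p : ℕ) {C C' : ℝ} (hC : 0 ≤ C) (hC' : 0 ≤ C') (q : Par0) (V : E q.d → ℝ) (m : E q.d) :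
    err J p C q V m + err J p C' q V m ≤ err J p (C + C') q V m := by
  have := varpi_pos q; have := q.hτ
  unfold err
  have a1 : (C * q.ϖ) ^ p ≤ ((C + C') * q.ϖ) ^ p := by gcongr; linarith
  have a2 : (C' * q.ϖ) ^ p ≤ ((C + C') * q.ϖ) ^ p := by gcongr; linarith
  calc _ ≤ C * q.ϖ * (q.τ ^ (J + 1) + ((C + C') * q.ϖ) ^ p) * (‖gv V q.v m‖ + √(q.d : ℝ)) +
        C' * q.ϖ * (q.τ ^ (J + 1) + ((C + C') * q.ϖ) ^ p) * (‖gv V q.v m‖ + √(q.d : ℝ)) := by gcongr
    _ = _ := by ring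

theorem err_mul (J p : ℕ) {K C : ℝ} (hK : 1 ≤ K) (hC : 0 ≤ C) (q : Par0) (V : E q.d → ℝ) (m : E q.d) :
    K * err J p C q V m ≤ err J p (K * C) q V m := by
  have := varpi_pos q; have := q.hτ
  unfold err
  have a1 : (C * q.ϖ) ^ p ≤ (K * C * q.ϖ) ^ p := by gcongr; nlinarith
  calc _ = K * C * q.ϖ * (q.τ ^ (J + 1) + (C * q.ϖ) ^ p) * (‖gv V q.v m‖ + √(q.d : ℝ)) := by ring
    _ ≤ _ := by gcongr

noncomputable def tv (q : Par0) (s : Tr T3) (V : E q.d → ℝ) (m : E q.d) : Z q.d → E q.d :=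
  fun z => s.val V (ev3 m (√q.v • z.2.1) (√q.v • z.2.2))

def Un (J : ℕ) (b : Bool) (p : ℕ) (u : ℝ → Fam) : Prop :=
  ∃ C τ₀ : ℝ, 1 ≤ C ∧ 0 < τ₀ ∧ τ₀ ≤ 1 / 4 ∧ ∀ q : Par0, q.τ ≤ τ₀ → C * q.ϖ ≤ 1 →
    ∀ r₀ : ℝ, 0 ≤ r₀ → r₀ ≤ q.τ → ∃ s : Tr T3, Shape C q b s ∧
      ∀ (V : E q.d → ℝ) (m : E q.d), HessB V 0 2 →
        (u r₀ q (mkU V m q.v)).HasTemperateGrowth ∧ (tv q s V m).HasTemperateGrowth ∧
        Ex (mkU V m q.v) r₀ (fun z => ‖√q.v • u r₀ q (mkU V m q.v) z - tv q s V m z‖ ^ 2) ≤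
          err J p C q V m ^ 2

variable {J : ℕ} {b : Bool} {p : ℕ}

theorem hessU (q : Par0) {V : E q.d → ℝ} (m : E q.d) (h : HessB V 0 2) :
    HessB (mkU V m q.v) 0 (2 * q.v) := (gScale _ V m q.v h q.hv).1

theorem Un.leaf (α β : ℝ) (hα : |α| ≤ 1) (hβ : |β| ≤ 1) (hb : b = false → α = 0 ∧ β = 0) :
    Un J b p (fun _ _ _ z => α • z.2.1 + β • z.2.2) := by
  refine ⟨1, 1 / 4, le_rfl, by norm_num, le_rfl, fun q _ _ r₀ _ _ => ⟨.leaf (0, α, β),
    ⟨by simp [Tr.len], by simpa [Tr.wt] using (varpi_pos q).le, trivial, rfl,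
      ⟨by simp [Tr.base], hα, hβ⟩, fun h => by simp [Tr.base, hb h], trivial⟩, fun V m h => ?_⟩⟩
  have e : tv q (.leaf (0, α, β)) V m = fun z => √q.v • (α • z.2.1 + β • z.2.2) := by
    funext z; simp only [tv, Tr.val, ev3, zero_smul, zero_add, smul_add]; rw [smul_comm α, smul_comm β]
  have ht : (fun z : Z q.d => α • z.2.1 + β • z.2.2).HasTemperateGrowth :=
    ((HasTemperateGrowth.const α).fun_smul tg_w).fun_add ((HasTemperateGrowth.const β).fun_smul tg_xi)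
  refine ⟨ht, by rw [e]; exact (HasTemperateGrowth.const _).fun_smul ht, ?_⟩
  simp only [e, sub_self, norm_zero, Ex_const (hessU q m h)]
  nlinarith [sq_nonneg (err J p 1 q V m)]

theorem Un.weaken {u : ℝ → Fam} (h : Un J false p u) : Un J b p u := by
  obtain ⟨C, τ₀, h1, h2, h3, H⟩ := h
  refine ⟨C, τ₀, h1, h2, h3, fun q a1 a2 r₀ a3 a4 => ?_⟩
  obtain ⟨s, ⟨b1, b2, b3, b4, b5, b6, b7⟩, hs⟩ := H q a1 a2 r₀ a3 a4
  exact ⟨s, ⟨b1, b2, b3, b4, b5, fun _ => b6 rfl, b7⟩, hs⟩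

theorem Un.add {u u' : ℝ → Fam} (h : Un J b p u) (h' : Un J b p u') :
    Un J b p (fun r q U z => u r q U z + u' r q U z) := by
  obtain ⟨C, τ₀, h1, h2, h3, H⟩ := h
  obtain ⟨C', τ₀', h1', h2', h3', H'⟩ := h'
  refine ⟨C + C', min τ₀ τ₀', by linarith, lt_min h2 h2', (min_le_left _ _).trans h3,
    fun q a1 a2 r₀ a3 a4 => ?_⟩
  have hϖ := varpi_pos q
  obtain ⟨s, ⟨b1, b2, b3, b4, b5, b6, b7⟩, hs⟩ := H q (a1.trans (min_le_left _ _)) (by nlinarith) r₀ a3 a4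
  obtain ⟨s', ⟨c1, c2, c3, c4, c5, c6, c7⟩, hs'⟩ :=
    H' q (a1.trans (min_le_right _ _)) (by nlinarith) r₀ a3 a4
  have hr : |r₀| < 1 / 2 := by
    rw [abs_of_nonneg a3]; linarith [min_le_left τ₀ τ₀']
  refine ⟨app s s', ⟨by rw [len_app]; push_cast; linarith, by rw [wt_app]; linarith,
    good_app (good_mono' q h1 (by linarith) b3) (good_mono' q h1' (by linarith) c3),
    by rw [base_app, Prod.fst_add, b4, c4, add_zero], ?_, fun hb => by rw [base_app, b6 hb, c6 hb, add_zero],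
    allSub_app (allSub_mono (sub_mono q (by linarith)) b7) (allSub_mono (sub_mono q (by linarith)) c7)⟩,
    fun V m hV => ?_⟩
  · rw [base_app]
    exact ⟨(abs_add_le _ _).trans (add_le_add b5.1 c5.1), (abs_add_le _ _).trans (add_le_add b5.2.1 c5.2.1),
      (abs_add_le _ _).trans (add_le_add b5.2.2 c5.2.2)⟩
  obtain ⟨d1, d2, d3⟩ := hs V m hV
  obtain ⟨e1, e2, e3⟩ := hs' V m hV
  have e : tv q (app s s') V m = fun z => tv q s V m z + tv q s' V m z := by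
    funext z; exact val_app _ _ _ _ _ _
  refine ⟨d1.fun_add e1, by rw [e]; exact d2.fun_add e2, ?_⟩
  have := norm_add_sq (hessU q m hV) hr (((HasTemperateGrowth.const _).fun_smul d1).fun_sub d2)
    (((HasTemperateGrowth.const _).fun_smul e1).fun_sub e2) (err_nonneg J p (by linarith) q V m)
    (err_nonneg J p (by linarith) q V m) d3 e3
  refine le_trans (le_of_eq ?_) (this.trans (pow_le_pow_left₀ (add_nonneg
    (err_nonneg J p (by linarith) q V m) (err_nonneg J p (by linarith) q V m))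
    (err_add J p (by linarith) (by linarith) q V m) 2))
  congr 1; funext z; simp only [e, smul_add]; congr 2; abel

theorem Un.scale {u : ℝ → Fam} (h : Un J b p u) (c : ℝ → Par0 → ℝ) {K : ℝ} (hK : 1 ≤ K)
    (hc : ∀ r q, 0 ≤ r → r ≤ q.τ → |c r q| ≤ K) :
    Un J b p (fun r q U z => c r q • u r q U z) := by
  obtain ⟨C, τ₀, h1, h2, h3, H⟩ := h
  have hKC : C ≤ K * C := by nlinarith
  refine ⟨K * C, τ₀, by linarith, h2, h3, fun q a1 a2 r₀ a3 a4 => ?_⟩
  have hϖ := varpi_pos q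
  obtain ⟨s, ⟨b1, b2, b3, b4, b5, b6, b7⟩, hs⟩ := H q a1 (by nlinarith) r₀ a3 a4
  have hcK := hc r₀ q a3 a4
  have hm : ∀ x : ℝ, |x| ≤ C → |c r₀ q * x| ≤ K * C := fun x hx => by
    rw [abs_mul]; exact mul_le_mul hcK hx (abs_nonneg _) (by linarith)
  refine ⟨aff (c r₀ q) 0 s, ⟨by rw [len_aff]; linarith, ?_, good_aff _ _ (good_mono' q h1 hKC b3),
    by simp [base_aff, b4], ?_, fun hb => by simp [base_aff, b6 hb],
    allSub_aff _ _ (allSub_mono (sub_mono q hKC) b7)⟩, fun V m hV => ?_⟩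
  · rw [wt_aff, mul_assoc]; exact mul_le_mul hcK b2 (wt_nonneg s) (by linarith)
  · rw [base_aff, add_zero]; exact ⟨hm _ b5.1, hm _ b5.2.1, hm _ b5.2.2⟩
  obtain ⟨d1, d2, d3⟩ := hs V m hV
  have e : tv q (aff (c r₀ q) 0 s) V m = fun z => c r₀ q • tv q s V m z := by
    funext z; simp only [tv, val_aff, ev3_zero, add_zero]
  refine ⟨(HasTemperateGrowth.const _).fun_smul d1,
    by rw [e]; exact (HasTemperateGrowth.const _).fun_smul d2, ?_⟩
  have e0 := err_nonneg J p (by linarith : 0 ≤ C) q V m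
  simp only [e, smul_comm (√q.v) (c r₀ q), ← smul_sub, norm_smul, mul_pow, Ex_cmul, Real.norm_eq_abs]
  calc _ ≤ K ^ 2 * err J p C q V m ^ 2 :=
        mul_le_mul (pow_le_pow_left₀ (abs_nonneg _) hcK 2) d3
          (Ex_nonneg _ _ fun z => by positivity) (by positivity)
    _ = (K * err J p C q V m) ^ 2 := by ring
    _ ≤ _ := pow_le_pow_left₀ (by positivity) (err_mul J p hK (by linarith) q V m) 2

theorem Un.approx {u u' : ℝ → Fam} (h : Un J b p u) (C' τ₀' : ℝ) (h1' : 0 ≤ C') (h2' : 0 < τ₀')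
    (H' : ∀ q : Par0, q.τ ≤ τ₀' → q.τ ≤ 1 / 4 → ∀ r₀ : ℝ, 0 ≤ r₀ → r₀ ≤ q.τ →
      ∀ (V : E q.d → ℝ) (m : E q.d), HessB V 0 2 → (u' r₀ q (mkU V m q.v)).HasTemperateGrowth ∧
        Ex (mkU V m q.v) r₀ (fun z => ‖√q.v • (u' r₀ q (mkU V m q.v) z - u r₀ q (mkU V m q.v) z)‖ ^ 2) ≤
          err J p C' q V m ^ 2) : Un J b p u' := by
  obtain ⟨C, τ₀, h1, h2, h3, H⟩ := h
  refine ⟨C' + C, min τ₀ τ₀', by linarith, lt_min h2 h2', (min_le_left _ _).trans h3,
    fun q a1 a2 r₀ a3 a4 => ?_⟩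
  have hϖ := varpi_pos q
  obtain ⟨s, hS, hs⟩ := H q (a1.trans (min_le_left _ _)) (by nlinarith) r₀ a3 a4
  have hr : |r₀| < 1 / 2 := by
    rw [abs_of_nonneg a3]; linarith [min_le_left τ₀ τ₀']
  refine ⟨s, hS.mono h1 (by linarith), fun V m hV => ?_⟩
  obtain ⟨d1, d2, d3⟩ := hs V m hV
  obtain ⟨e1, e3⟩ := H' q (a1.trans (min_le_right _ _)) (a1.trans ((min_le_left _ _).trans h3))
    r₀ a3 a4 V m hV
  refine ⟨e1, d2, ?_⟩
  have := norm_add_sq (hessU q m hV) hr ((HasTemperateGrowth.const _).fun_smul (e1.fun_sub d1))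
    (((HasTemperateGrowth.const _).fun_smul d1).fun_sub d2) (err_nonneg J p h1' q V m)
    (err_nonneg J p (by linarith) q V m) e3 d3
  refine le_trans (le_of_eq ?_) (this.trans (pow_le_pow_left₀ (add_nonneg
    (err_nonneg J p h1' q V m) (err_nonneg J p (by linarith) q V m))
    (err_add J p h1' (by linarith) q V m) 2))
  congr 1; funext z; rw [smul_sub]; congr 2; abel

theorem Un.congr {u u' : ℝ → Fam} (h : Un J b p u)
    (H' : ∀ (q : Par0) (r₀ : ℝ), |r₀| < 1 / 2 → ∀ U : E q.d → ℝ, HessB U 0 (2 * q.v) →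
      (u r₀ q U).HasTemperateGrowth → (u' r₀ q U).HasTemperateGrowth ∧
        ∀ y, u' r₀ q U (tt r₀, y) = u r₀ q U (tt r₀, y)) : Un J b p u' := by
  obtain ⟨C, τ₀, h1, h2, h3, H⟩ := h
  refine ⟨C, τ₀, h1, h2, h3, fun q a1 a2 r₀ a3 a4 => ?_⟩
  obtain ⟨s, hS, hs⟩ := H q a1 a2 r₀ a3 a4
  have hr : |r₀| < 1 / 2 := by rw [abs_of_nonneg a3]; linarith
  refine ⟨s, hS, fun V m hV => ?_⟩
  obtain ⟨d1, d2, d3⟩ := hs V m hV
  obtain ⟨e1, e2⟩ := H' q r₀ hr _ (hessU q m hV) d1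
  refine ⟨e1, d2, le_trans (le_of_eq ?_) d3⟩
  simp only [Ex, e2]

theorem Un.zero : Un J b p (fun _ _ _ _ => 0) := by
  simpa using Un.leaf (J := J) (b := b) (p := p) 0 0 (by simp) (by simp) (by simp)

theorem Un.sum {ι : Type} (s : Finset ι) {u : ι → ℝ → Fam} (h : ∀ i ∈ s, Un J b p (u i)) :
    Un J b p (fun r q U z => ∑ i ∈ s, u i r q U z) := by
  classical
  induction s using Finset.induction_on with
  | empty => simpa using Un.zero
  | insert i s hi ih =>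
    simp only [Finset.sum_insert hi]
    exact (h i (Finset.mem_insert_self i s)).add (ih fun j hj => h j (Finset.mem_insert_of_mem hj))

theorem tg_gv_r {d : ℕ} {U : E d → ℝ} {β r : ℝ} (h : HessB U 0 β) (hr : |r| < 1 / 2) :
    (gv U (1 - r ^ 2)).HasTemperateGrowth := by
  have := (tg_gv h).comp (tg_prodMk (HasTemperateGrowth.const (tt r)) (tg_id (Y := E d)))
  simp only [Function.comp_def, aa, rr_tt hr] at this
  exact this

theorem tg_gv_a {d : ℕ} {V : E d → ℝ} {a : ℝ} (h : HessB V 0 2) (ha : 0 < a) :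
    (gv V a).HasTemperateGrowth := by
  obtain ⟨h1, h2⟩ := gScale d V 0 a h ha
  have hs : √a ≠ 0 := (Real.sqrt_pos.2 ha).ne'
  have e : gv V a = fun y => (√a)⁻¹ • gv (mkU V 0 a) (1 - (0 : ℝ) ^ 2) ((√a)⁻¹ • y) := by
    funext y
    rw [(h2 _ _ (by norm_num)).2]
    simp [smul_smul, hs]
  rw [e]
  exact (HasTemperateGrowth.const _).fun_smul ((tg_gv_r h1 (by norm_num)).comp
    ((HasTemperateGrowth.const _).fun_smul tg_id))

theorem Un.node {u : ℝ → Fam} (h : Un J true p u) {n : ℝ} (hn : 0 ≤ n) :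
    Un J b (p + 1) (fun r q U z => (q.ϖ * q.v⁻¹) •
      gv U (1 - (r + n * q.τ) ^ 2) ((r + n * q.τ) • u r q U z)) := by
  obtain ⟨C, τ₀, h1, h2, h3, H⟩ := h
  have hC : 2 * C ≤ 2 * (1 + n) * C := by nlinarith
  refine ⟨2 * (1 + n) * C, min τ₀ (1 / (4 * (1 + n))), by linarith, lt_min h2 (by positivity),
    (min_le_left _ _).trans h3, fun q a1 a2 r₀ a3 a4 => ?_⟩
  have hϖ := varpi_pos q
  have hτ := q.hτ
  have hv := q.hv
  have hCϖ : C * q.ϖ ≤ 1 := by nlinarith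
  obtain ⟨s, ⟨b1, b2, b3, b4, b5, -, b7⟩, hs⟩ := H q (a1.trans (min_le_left _ _)) hCϖ r₀ a3 a4
  set r := r₀ + n * q.τ with hrdef
  have r0 : 0 ≤ r := by positivity
  have r1 : r ≤ (1 + n) * q.τ := by linarith
  have r2 : r ≤ 1 / 4 := by
    have := a1.trans (min_le_right _ _)
    rw [le_div_iff₀ (by positivity)] at this
    linarith
  have hr : |r| < 1 / 2 := by rw [abs_of_nonneg r0]; linarith
  have hr₀ : |r₀| < 1 / 2 := by rw [abs_of_nonneg a3]; nlinarith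
  have ha : 0 < 1 - r ^ 2 := by nlinarith
  have hm : ∀ x : ℝ, |x| ≤ C → |r * x| ≤ 2 * (1 + n) * C * q.τ := fun x hx => by
    rw [abs_mul, abs_of_nonneg r0]
    calc r * |x| ≤ ((1 + n) * q.τ) * C := mul_le_mul r1 hx (abs_nonneg _) (by positivity)
      _ ≤ _ := by nlinarith [mul_pos (mul_pos (by linarith : 0 < 1 + n) hτ) (by linarith : 0 < C)]
  refine ⟨.add (.leaf 0) q.ϖ (q.v * (1 - r ^ 2)) (aff r (1, 0, 0) s),
    ⟨by simp only [Tr.len]; push_cast; linarith,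
    by simp only [Tr.wt, zero_add, abs_of_pos hϖ]; nlinarith,
    ⟨trivial, ?_, by nlinarith [sq_nonneg r], by nlinarith [sq_nonneg r], by rw [len_aff]; linarith, ?_,
      good_aff _ _ (good_mono' q h1 (by linarith) b3)⟩, rfl,
    ⟨by simp [Tr.base]; positivity, by simp [Tr.base]; positivity, by simp [Tr.base]; positivity⟩,
    fun _ => rfl, ⟨trivial, all_of_sub (allSub_aff _ _ (allSub_mono (sub_mono q (by linarith)) b7)) ?_⟩⟩,
    fun V m hV => ?_⟩
  · rw [div_le_iff₀ (by linarith), mul_assoc]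
    exact le_mul_of_one_le_right hv.le (by nlinarith)
  · rw [wt_aff, abs_of_nonneg r0]
    nlinarith [wt_nonneg s]
  · rw [base_aff]
    exact ⟨by simp [b4], by simpa using hm _ b5.2.1, by simpa using hm _ b5.2.2⟩
  obtain ⟨d1, d2, d3⟩ := hs V m hV
  have hU := hessU q m hV
  have hσ : 0 < √q.v := Real.sqrt_pos.2 hv
  have e : tv q (.add (.leaf 0) q.ϖ (q.v * (1 - r ^ 2)) (aff r (1, 0, 0) s)) V m =
      fun z => q.ϖ • gv V (q.v * (1 - r ^ 2)) (r • tv q s V m z + m) := by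
    funext z; simp only [tv, Tr.val, val_aff, ev3_zero, zero_add]; simp [ev3]
  have t1 : (fun z => (q.ϖ * q.v⁻¹) • gv (mkU V m q.v) (1 - r ^ 2)
      (r • u r₀ q (mkU V m q.v) z)).HasTemperateGrowth :=
    (HasTemperateGrowth.const _).fun_smul ((tg_gv_r hU hr).comp
      ((HasTemperateGrowth.const _).fun_smul d1))
  have t2 : (fun z => q.ϖ • gv V (q.v * (1 - r ^ 2)) (r • tv q s V m z + m)).HasTemperateGrowth :=
    (HasTemperateGrowth.const _).fun_smul ((tg_gv_a hV (by positivity)).comp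
      (((HasTemperateGrowth.const _).fun_smul d2).fun_add (HasTemperateGrowth.const _)))
  refine ⟨t1, by rw [e]; exact t2, ?_⟩
  have t3 := tg_normsq (((HasTemperateGrowth.const (√q.v)).fun_smul t1).fun_sub t2)
  have t4 := (HasTemperateGrowth.const (q.ϖ ^ 2)).fun_mul
    (tg_normsq (((HasTemperateGrowth.const (√q.v)).fun_smul d1).fun_sub d2))
  rw [e]
  refine (Ex_mono hU hr₀ (tg_cont t3) (tg_pg t3) (tg_cont t4) (tg_pg t4) fun z => ?_).trans ?_
  · rw [((gScale _ V m q.v hV hv).2 _ _ ha).2, smul_smul, smul_smul,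
      show √q.v * (q.ϖ * q.v⁻¹) * √q.v = q.ϖ by
        rw [mul_comm (√q.v), mul_assoc, Real.mul_self_sqrt hv.le]; field_simp,
      ← smul_sub, norm_smul, ← mul_pow, Real.norm_of_nonneg hϖ.le]
    refine pow_le_pow_left₀ (by positivity) (mul_le_mul_of_nonneg_left ?_ hϖ.le) 2
    refine (gLip _ V 2 _ (by norm_num) hV (by positivity) _ _).trans ?_
    rw [show m + √q.v • r • u r₀ q (mkU V m q.v) z - (r • tv q s V m z + m) =
      r • (√q.v • u r₀ q (mkU V m q.v) z - tv q s V m z) by rw [smul_comm (√q.v), smul_sub]; abel,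
      norm_smul, Real.norm_of_nonneg r0]
    nlinarith [norm_nonneg (√q.v • u r₀ q (mkU V m q.v) z - tv q s V m z)]
  · rw [Ex_cmul]
    refine (mul_le_mul_of_nonneg_left d3 (by positivity)).trans ?_
    rw [← mul_pow]
    refine pow_le_pow_left₀ (mul_nonneg hϖ.le (err_nonneg J p (by linarith) q V m)) ?_ 2
    unfold err
    set C' := 2 * (1 + n) * C
    have f1 : (C * q.ϖ) ^ (p + 1) ≤ C' * (C' * q.ϖ) ^ (p + 1) :=
      le_trans (by gcongr; linarith) (le_mul_of_one_le_left (by positivity) (by linarith))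
    have f2 : C * q.ϖ * q.τ ^ (J + 1) ≤ C' * q.τ ^ (J + 1) := by gcongr; linarith
    calc _ = q.ϖ * (C * q.ϖ * q.τ ^ (J + 1) + (C * q.ϖ) ^ (p + 1)) * (‖gv V q.v m‖ + √(q.d : ℝ)) := by ring
      _ ≤ q.ϖ * (C' * q.τ ^ (J + 1) + C' * (C' * q.ϖ) ^ (p + 1)) * (‖gv V q.v m‖ + √(q.d : ℝ)) := by gcongr
      _ = _ := by ring

theorem gv_one_zero (q : Par0) {V : E q.d → ℝ} (m : E q.d) (h : HessB V 0 2) :
    ‖gv (mkU V m q.v) 1 0‖ = √q.v * ‖gv V q.v m‖ := by
  rw [((gScale _ V m q.v h q.hv).2 _ _ one_pos).2, norm_smul, Real.norm_of_nonneg (Real.sqrt_nonneg _)]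
  simp

theorem sqrt_v_le (q : Par0) : √q.v ≤ 1 := Real.sqrt_le_one.2 (q.hvϖ.trans q.hϖ)

theorem Un.gen0 (hP : PosAPI) (ω : List Letter) :
    Un J b 0 (fun _ q U z => q.ϖ • hword J ω q U z) := by
  obtain ⟨ht, ⟨C, hC, H⟩, -⟩ := (hP J).2.2.1 ω
  refine Un.zero.approx C 1 hC one_pos fun q _ a1 r₀ a3 a4 V m hV => ?_
  have hU := hessU q m hV
  have hϖ := varpi_pos q
  have hv := q.hv
  have hτ := q.hτ
  refine ⟨(HasTemperateGrowth.const _).fun_smul (ht q _ hU), ?_⟩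
  have := H q _ r₀ hU (by rw [abs_of_nonneg a3]; linarith)
  simp only [sub_zero, smul_smul, norm_smul, mul_pow, Ex_cmul]
  refine (mul_le_mul_of_nonneg_left this (by positivity)).trans ?_
  rw [← mul_pow, gv_one_zero q m hV, Real.norm_of_nonneg (by positivity)]
  refine pow_le_pow_left₀ (by positivity) ?_ 2
  unfold err
  have e1 : √q.v * (q.v⁻¹ * (√q.v * ‖gv V q.v m‖)) = ‖gv V q.v m‖ := by
    rw [mul_left_comm, ← mul_assoc (√q.v), Real.mul_self_sqrt hv.le]; field_simp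
  have e2 : √q.v * √(q.d : ℝ) ≤ √(q.d : ℝ) := mul_le_of_le_one_left (Real.sqrt_nonneg _) (sqrt_v_le q)
  calc _ = C * q.ϖ * 1 * (√q.v * (q.v⁻¹ * (√q.v * ‖gv V q.v m‖)) + √q.v * √(q.d : ℝ)) := by ring
    _ ≤ _ := by
      rw [e1, pow_zero]; gcongr
      linarith [pow_pos hτ (J + 1)]

theorem Un.genS (hP : PosAPI) (hF : FD) (ih : ∀ u, Pos J true u → Un J true p (fun _ => u))
    (ω : List Letter) : Un J b (p + 1) (fun _ q U z => q.ϖ • hword J ω q U z) := by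
  obtain ⟨ht, -⟩ := (hP J).2.2.1 ω
  obtain ⟨ι, s, β, n, u, C, hC, hu, H⟩ := hF J ω
  have h1 := Un.sum (J := J) (b := b) (p := p + 1) s (u := fun i r q U z => β i • ((q.ϖ * q.v⁻¹) •
      gv U (1 - (r + n i * q.τ) ^ 2) ((r + n i * q.τ) • u i q U z))) fun i hi =>
    ((ih _ (hu i hi).1).node (Nat.cast_nonneg (n i))).scale (fun _ _ => β i) (K := |β i| + 1)
      (by linarith [abs_nonneg (β i)]) (fun _ _ _ _ => by linarith)
  refine h1.approx C (1 / (4 * (1 + C))) hC (by positivity) fun q a0 a1 r₀ a3 a4 V m hV => ?_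
  have hU := hessU q m hV
  have hϖ := varpi_pos q
  have hv := q.hv
  have hτ := q.hτ
  refine ⟨(HasTemperateGrowth.const _).fun_smul (ht q _ hU), ?_⟩
  have := H q _ r₀ hU a3 (by rw [le_div_iff₀ (by positivity)] at a0; nlinarith)
  have e0 : ∀ z, ‖√q.v • (q.ϖ • hword J ω q (mkU V m q.v) z - ∑ i ∈ s, β i • ((q.ϖ * q.v⁻¹) •
      gv (mkU V m q.v) (1 - (r₀ + n i * q.τ) ^ 2) ((r₀ + n i * q.τ) • u i q (mkU V m q.v) z)))‖ ^ 2 =
      (√q.v * q.ϖ) ^ 2 * ‖∑ i ∈ s, (β i * q.v⁻¹) • gv (mkU V m q.v) (1 - (r₀ + n i * q.τ) ^ 2)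
        ((r₀ + n i * q.τ) • u i q (mkU V m q.v) z) - hword J ω q (mkU V m q.v) z‖ ^ 2 := by
    intro z
    rw [← mul_pow, norm_sub_rev (∑ i ∈ s, _), ← Real.norm_of_nonneg (by positivity : 0 ≤ √q.v * q.ϖ),
      ← norm_smul, mul_smul, smul_sub q.ϖ, Finset.smul_sum]
    congr 4
    refine Finset.sum_congr rfl fun i _ => ?_
    rw [smul_smul, smul_smul]; congr 1; ring
  simp only [e0, Ex_cmul]
  refine (mul_le_mul_of_nonneg_left this (by positivity)).trans ?_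
  rw [← mul_pow, gv_one_zero q m hV]
  refine pow_le_pow_left₀ (by positivity) ?_ 2
  unfold err
  have e1 : √q.v * (q.ϖ / q.v * (√q.v * ‖gv V q.v m‖)) ≤ ‖gv V q.v m‖ := by
    rw [mul_left_comm, ← mul_assoc (√q.v), Real.mul_self_sqrt hv.le, ← mul_assoc,
      div_mul_cancel₀ _ hv.ne']
    exact mul_le_of_le_one_left (norm_nonneg _) q.hϖ
  have e2 : √q.v * √(q.d : ℝ) ≤ √(q.d : ℝ) := mul_le_of_le_one_left (Real.sqrt_nonneg _) (sqrt_v_le q)
  calc _ = C * q.ϖ * q.τ ^ (J + 1) * (√q.v * (q.ϖ / q.v * (√q.v * ‖gv V q.v m‖)) +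
        √q.v * √(q.d : ℝ)) := by ring
    _ ≤ _ := by
      gcongr
      exact le_add_of_nonneg_right (by positivity)

theorem un_of_gen (hP : PosAPI) (hg : ∀ b ω, Un J b p (fun _ q U z => q.ϖ • hword J ω q U z)) {u : Fam}
    (h : Pos J b u) : Un J b p (fun _ => u) := by
  induction h with
  | w => simpa using Un.leaf (J := J) (b := true) (p := p) 1 0 (by simp) (by simp) (by simp)
  | xi => simpa using Un.leaf (J := J) (b := true) (p := p) 0 1 (by simp) (by simp) (by simp)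
  | gen b ω => exact hg b ω
  | zero b => exact Un.zero
  | add _ _ ih ih' => exact ih.add ih'
  | smul c _ ih =>
    exact ih.scale (fun _ _ => c) (K := |c| + 1) (by linarith [abs_nonneg c]) fun _ _ _ _ => by linarith
  | bdd c hc _ ih => exact ih.scale (fun _ q => c q) le_rfl fun _ q _ _ => hc q
  | rmul h ih =>
    refine (ih.scale (fun r _ => r) le_rfl fun r q a b => by
      rw [abs_of_nonneg a]; exact b.trans q.hτ1).congr fun q r₀ hr U hU ht => ?_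
    exact ⟨(tg_rr.comp tg_fst).fun_smul (((hP J).1 _ _ h).1 q U hU), fun y => by simp only [rr_tt hr]⟩
  | weaken _ ih => exact ih.weaken
  | congr _ hu ih => exact ih.congr fun q r₀ _ U hU ht => by rw [hu q U hU]; exact ⟨ht, fun _ => rfl⟩

theorem un_all (hP : PosAPI) (hF : FD) (p : ℕ) : ∀ (b : Bool) (u : Fam), Pos J b u →
    Un J b p (fun _ => u) := by
  induction p with
  | zero => exact fun b u h => un_of_gen hP (fun _ ω => Un.gen0 hP ω) h
  | succ p ih => exact fun b u h => un_of_gen hP (fun _ ω => Un.genS hP hF (ih true) ω) h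

end C4b

theorem unroll (hP : PosAPI) (hF : FD) : Unroll := by
  intro J b u h p
  obtain ⟨C, τ₀, h1, h2, -, H⟩ := C4b.un_all hP hF p b u h
  refine ⟨C, τ₀, h1, h2, fun q a1 a2 r₀ a3 a4 => ?_⟩
  obtain ⟨s, ⟨b1, b2, b3, b4, b5, b6, b7⟩, hs⟩ := H q a1 a2 r₀ a3 a4
  exact ⟨s, b1, b2, b3, b4, b5, b6, b7, fun V m hV => (hs V m hV).2⟩

end Crest.Agent.LCS
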