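import Crest.Agent.LCS.WB2

/-! JOB C1: dimension-free bounds for words. -/

set_option autoImplicit false
set_option linter.unusedSectionVars false
open MeasureTheory Function

namespace Crest.Agent.LCS

theorem Ex_cmul {d : ℕ} (U : E d → ℝ) (r c : ℝ) (F : Z d → ℝ) :
    Ex U r (fun z => c * F z) = c * Ex U r F := integral_const_mul _ _

section
variable (hA : AF) (hM : MeasAPI) (hE : ExAPI)

include hE in
theorem Ex_so (p : Pw) {r : ℝ} (hr : |r| < 1 / 2) (s : Finset ℕ) {F : TF}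
    (hF : ∀ I, (F p I).HasTemperateGrowth) (I : ℕ → Fin p.d) :
    Ex p.U r (fun z => so s (fun I' => F p I' z) I) = so s (fun I' => Ex p.U r (F p I')) I :=
  (hE _ _ _ _ p.hU hr).2.1 _ _ _ fun _ _ => hF _

include hA in
theorem af_Sh {α β : Finset ℕ} (hαβ : Disjoint α β) (hα : α.Nonempty) (hβ : β.Nonempty) :
    ∃ C : ℝ, 0 ≤ C ∧ ∀ (p : Pw) (z : Z p.d) (a : (ℕ → Fin p.d) → ℝ),
      (∀ I y, a (updateFinset I β y) = a I) → ∀ I,
      so β (fun I' => so α (fun I'' => Sh p ((α ∪ β).val.map I'') z * a I'') I' ^ 2) I ≤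
        C * so α (fun I' => a I' ^ 2) I := by
  obtain ⟨C, hC⟩ := hA α β hαβ hα hβ
  refine ⟨|C|, abs_nonneg _, fun p z a ha I => ?_⟩
  have h1 := hC p.d p.U p.v p.hv p.hv1 p.hU (z.1, rr z.1 • z.2.1) a ha I
  have h2 : 0 ≤ so α (fun I' => a I' ^ 2) I := so_nonneg (fun _ => sq_nonneg _) I
  have hv := p.hv
  simp only [Sh, SL, lift, mul_assoc, so_const_mul, mul_pow]
  rw [inv_pow, inv_mul_le_iff₀ (by positivity)]
  refine h1.trans ?_
  have := mul_le_mul_of_nonneg_right (le_abs_self C) (mul_nonneg (sq_nonneg p.v) h2)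
  nlinarith

include hA in
theorem af_mat : ∃ C : ℝ, 0 ≤ C ∧ ∀ (p : Pw) (z : Z p.d) (a : Fin p.d → ℝ),
    ∑ k, (∑ l, SL p.U {k, l} z * a l) ^ 2 ≤ C * ∑ l, a l ^ 2 := by
  obtain ⟨C, hC0, hC⟩ := af_Sh hA (α := {0}) (β := {1}) (by simp) (by simp) (by simp)
  refine ⟨C, hC0, fun p z a => ?_⟩
  rcases isEmpty_or_nonempty (Fin p.d) with h | ⟨⟨k0⟩⟩
  · simp
  have h1 := hC p z (fun I => a (I 0)) (fun I y => by rw [upF_of_notMem _ _ (by simp)])
    (fun _ => k0)
  simp only [so_singleton, map_pair (show (0 : ℕ) ≠ 1 by simp), update_self,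
    update_of_ne (show (1 : ℕ) ≠ 0 by simp)] at h1
  refine le_trans (Finset.sum_le_sum fun k _ => ?_) h1
  simp only [SL_eq, mul_assoc, ← Finset.mul_sum, mul_pow]
  have := p.hv; have := p.hv1
  have : p.v ^ 2 ≤ 1 := by nlinarith
  nlinarith [sq_nonneg (∑ l, Sh p {k, l} z * a l)]

include hM in
theorem Ex_dl (p : Pw) {r : ℝ} (hr : |r| < 1 / 2) (c : Bool) (k : Fin p.d) {F : Z p.d → ℝ}
    (hF : F.HasTemperateGrowth) : Ex p.U r (dl p.U c k F) = 0 := by
  have := ((hM _ _ _ p.hU).2.1 r hr).2 F hF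
  cases c
  · exact this.2.2 k
  · exact this.2.1 k

include hA hM hE in
theorem delta_bound : ∃ C : ℝ, 0 ≤ C ∧ ∀ (p : Pw) (r : ℝ), |r| < 1 / 2 → ∀ (c : Bool)
    (F : Fin p.d → Z p.d → ℝ), (∀ k, (F k).HasTemperateGrowth) →
    Ex p.U r (fun z => (∑ k, dl p.U c k (F k) z) ^ 2) ≤
      C * Ex p.U r (fun z => ∑ k, F k z ^ 2) +
        Ex p.U r (fun z => ∑ k, ∑ l, pd (dirc c l) (F k) z ^ 2) := by
  obtain ⟨C, hC0, hC⟩ := af_mat hA
  refine ⟨2 + C, by positivity, fun p r hr c F hF => ?_⟩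
  obtain ⟨e1, e2, -⟩ := hE _ _ _ _ p.hU hr
  set X : Z p.d → ℝ := fun z => ∑ k, dl p.U c k (F k) z with hX
  have tX : X.HasTemperateGrowth := tg_sum _ fun k _ => p.cx.tg_dl _ _ (hF k)
  have t1 : ∀ k, (dl p.U c k (fun z => F k z * X z)).HasTemperateGrowth := fun k =>
    p.cx.tg_dl _ _ ((hF k).fun_mul tX)
  have t2 : ∀ k l, (dl p.U c l (fun z => pd (dirc c k) (F l) z * F k z)).HasTemperateGrowth :=
    fun k l => p.cx.tg_dl _ _ ((tg_pd _ (hF l)).fun_mul (hF k))
  have t3 : (fun z => ∑ k, F k z ^ 2).HasTemperateGrowth := tg_sum _ fun k _ => (hF k).fun_pow 2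
  have t4 : (fun z => ∑ k, ∑ l, pd (dirc c l) (F k) z ^ 2).HasTemperateGrowth :=
    tg_sum _ fun k _ => tg_sum _ fun l _ => (tg_pd _ (hF k)).fun_pow 2
  have key : ∀ z, X z ^ 2 ≤ (∑ k, dl p.U c k (fun z => F k z * X z) z +
      ∑ k, ∑ l, dl p.U c l (fun z => pd (dirc c k) (F l) z * F k z) z) +
      ((2 + C) * ∑ k, F k z ^ 2 + ∑ k, ∑ l, pd (dirc c l) (F k) z ^ 2) := by
    intro z
    have h1 : ∀ k, pd (dirc c k) X z = ∑ l, dl p.U c l (pd (dirc c k) (F l)) z + F k z +
        rho c z * rho c z * ∑ l, SL p.U {k, l} z * F l z := by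
      intro k
      rw [hX, pd_sum _ _ fun k _ => tg_diff (p.cx.tg_dl _ _ (hF k))]
      simp only [p.cx.pd_dl _ _ _ _ (hF _), Finset.sum_add_distrib, ← Finset.mul_sum]
      simp
    have h2 : X z ^ 2 = ∑ k, dl p.U c k (fun z => F k z * X z) z +
        ∑ k, ∑ l, dl p.U c l (fun z => pd (dirc c k) (F l) z * F k z) z +
        (∑ k, ∑ l, pd (dirc c k) (F l) z * pd (dirc c l) (F k) z + ∑ k, F k z ^ 2 +
          rho c z * rho c z * ∑ k, F k z * ∑ l, SL p.U {k, l} z * F l z) := by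
      simp only [p.cx.dl_mul _ _ (hF _) tX, p.cx.dl_mul _ _ (tg_pd _ (hF _)) (hF _), h1,
        Finset.sum_sub_distrib, ← Finset.sum_mul, mul_add, Finset.sum_add_distrib]
      have : ∑ k, F k z * (rho c z * rho c z * ∑ l, SL p.U {k, l} z * F l z) =
          rho c z * rho c z * ∑ k, F k z * ∑ l, SL p.U {k, l} z * F l z := by
        rw [Finset.mul_sum]; exact Finset.sum_congr rfl fun k _ => by ring
      rw [this]
      simp only [mul_comm (F _ z) (∑ l, dl p.U c l _ z), ← sq]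
      simp only [hX]; ring
    have h3 : ∑ k, ∑ l, pd (dirc c k) (F l) z * pd (dirc c l) (F k) z ≤
        ∑ k, ∑ l, pd (dirc c l) (F k) z ^ 2 := by
      have a : ∑ k, ∑ l, pd (dirc c k) (F l) z ^ 2 = ∑ k, ∑ l, pd (dirc c l) (F k) z ^ 2 :=
        Finset.sum_comm
      have b : 2 * ∑ k, ∑ l, pd (dirc c k) (F l) z * pd (dirc c l) (F k) z ≤
          ∑ k, ∑ l, pd (dirc c k) (F l) z ^ 2 + ∑ k, ∑ l, pd (dirc c l) (F k) z ^ 2 := by
        simp only [Finset.mul_sum, ← Finset.sum_add_distrib]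
        refine Finset.sum_le_sum fun k _ => Finset.sum_le_sum fun l _ => ?_
        nlinarith [sq_nonneg (pd (dirc c k) (F l) z - pd (dirc c l) (F k) z)]
      linarith
    have h4 : |∑ k, F k z * ∑ l, SL p.U {k, l} z * F l z| ≤ (1 + C) * ∑ k, F k z ^ 2 := by
      have a := hC p z (fun l => F l z)
      have b : |∑ k, F k z * ∑ l, SL p.U {k, l} z * F l z| ≤
          ∑ k, F k z ^ 2 + ∑ k, (∑ l, SL p.U {k, l} z * F l z) ^ 2 := by
        rw [← Finset.sum_add_distrib]
        refine (Finset.abs_sum_le_sum_abs _ _).trans (Finset.sum_le_sum fun k _ => ?_)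
        rw [abs_le]
        constructor <;> nlinarith [sq_nonneg (F k z - ∑ l, SL p.U {k, l} z * F l z),
          sq_nonneg (F k z + ∑ l, SL p.U {k, l} z * F l z), sq_nonneg (F k z),
          sq_nonneg (∑ l, SL p.U {k, l} z * F l z)]
      linarith
    have h5 : 0 ≤ rho c z * rho c z ∧ rho c z * rho c z ≤ 1 := by
      refine ⟨mul_self_nonneg _, ?_⟩
      cases c
      · simp [rho]
      · have := abs_lt.1 (p.cx.rr_lt z.1)
        simp only [rho]; nlinarith
    have h6 : rho c z * rho c z * ∑ k, F k z * ∑ l, SL p.U {k, l} z * F l z ≤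
        (1 + C) * ∑ k, F k z ^ 2 := by
      refine (mul_le_mul_of_nonneg_left (le_abs_self _) h5.1).trans (le_trans ?_ h4)
      exact mul_le_of_le_one_left (abs_nonneg _) h5.2
    rw [h2]; linarith
  have t5 := tg_sum Finset.univ fun k _ => t1 k
  have t6 := tg_sum Finset.univ fun k _ => tg_sum Finset.univ fun l _ => t2 k l
  have t7 := (HasTemperateGrowth.const (2 + C)).fun_mul t3
  refine ((e1 _ _ (tX.fun_pow 2) ((t5.fun_add t6).fun_add (t7.fun_add t4))).2.1 key).trans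
    (le_of_eq ?_)
  rw [(e1 _ _ (t5.fun_add t6) (t7.fun_add t4)).1, (e1 _ _ t5 t6).1, (e1 _ _ t7 t4).1, Ex_cmul,
    e2 _ _ _ fun k _ => t1 k, e2 _ _ _ fun k _ => tg_sum Finset.univ fun l _ => t2 k l]
  simp only [e2 _ _ _ fun l _ => t2 _ l, Ex_dl hM p hr _ _ ((hF _).fun_mul tX),
    Ex_dl hM p hr _ _ ((tg_pd _ (hF _)).fun_mul (hF _))]
  simp

def Bd (s : Finset ℕ) (T : TF) : Prop := ∃ C : ℝ, 0 ≤ C ∧ ∀ (p : Pw) (r : ℝ), |r| < 1 / 2 →
  ∀ I, Ex p.U r (fun z => so s (fun I' => T p I' z ^ 2) I) ≤ C * p.d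

include hE in
theorem Bd.of_le {s s' : Finset ℕ} {T T' : TF} (h : Bd s T) (hT : ∀ p I, (T p I).HasTemperateGrowth)
    (hT' : ∀ p I, (T' p I).HasTemperateGrowth) (c : ℝ) (hc : 0 ≤ c)
    (hle : ∀ p z I, so s' (fun I' => T' p I' z ^ 2) I ≤ c * so s (fun I' => T p I' z ^ 2) I) :
    Bd s' T' := by
  obtain ⟨C, hC0, hC⟩ := h
  refine ⟨c * C, by positivity, fun p r hr I => ?_⟩
  refine (((hE _ _ _ _ p.hU hr).1 _ _ (tg_so _ (fun I => (hT' p I).fun_pow 2) I)
    ((HasTemperateGrowth.const c).fun_mul (tg_so _ (fun I => (hT p I).fun_pow 2) I))).2.1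
    fun z => hle p z I).trans ?_
  rw [Ex_cmul, mul_assoc]
  exact mul_le_mul_of_nonneg_left (hC p r hr I) hc

include hA hM hE in
theorem TT.bound_aux (N : ℕ) : ∀ {n : ℕ} {s : Finset ℕ} {T : TF}, TT n s T → n < N → Bd s T := by
  induction N with
  | zero => intro n s T _ h; omega
  | succ N IH =>
  intro n s T h
  induction h with
  | base s hs =>
    intro _
    obtain ⟨a, ha⟩ : s.Nonempty := Finset.card_pos.1 (by omega)
    have hβ : (s.erase a).Nonempty := Finset.card_pos.1 (by rw [Finset.card_erase_of_mem ha]; omega)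
    obtain ⟨C, hC0, hC⟩ := af_Sh hA (α := {a}) (β := s.erase a) (by simp) (by simp) hβ
    refine ⟨C, hC0, fun p r hr I => ?_⟩
    have := ((hM _ _ _ p.hU).2.1 r hr).1
    refine (((hE _ _ _ _ p.hU hr).1 _ _ (tg_so _ (fun I => (tg_Sh p _).fun_pow 2) I)
      (HasTemperateGrowth.const (C * p.d))).2.1 fun z => ?_).trans (by simp [Ex])
    have e : s = insert a (s.erase a) := (Finset.insert_erase ha).symm
    have hna : a ∉ s.erase a := by simp
    generalize s.erase a = β at *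
    subst e
    rw [so_insert hna]
    refine (Finset.sum_le_sum (g := fun _ => C) fun j _ => ?_).trans (by simp [mul_comm])
    have h1 := hC p z (fun J => if J a = j then 1 else 0)
      (fun J y => by rw [upF_of_notMem _ _ hna]) I
    simp only [so_singleton, update_self, ← Finset.insert_eq, map_insert_update hna, mul_ite,
      mul_one, mul_zero, Finset.sum_ite_eq', Finset.mem_univ, if_true, ite_pow, one_pow,
      zero_pow two_ne_zero] at h1
    rw [so_update hna]
    simpa only [map_insert_update hna] using h1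
  | @del n s T c t ht h _ =>
    intro hn
    obtain ⟨i, hi⟩ := Infinite.exists_notMem_finset (insert t s)
    obtain ⟨C1, h10, h1⟩ := IH h (by omega)
    obtain ⟨C2, h20, h2⟩ := IH (h.grad_mem c i hi) (by omega)
    obtain ⟨C, hC0, hC⟩ := delta_bound hA hM hE
    refine ⟨C * C1 + C2, by positivity, fun p r hr I => ?_⟩
    have b1 := h1 p r hr I
    have b2 := h2 p r hr I
    simp only [so_insert' ht] at b1
    simp only [so_insert' hi, so_insert' ht, grad, update_self, (h.dep p).update hi] at b2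
    rw [Ex_so hE p hr s (F := fun p I z => ∑ k, T p (update I t k) z ^ 2)
      fun I => tg_sum _ fun k _ => (h.tg p _).fun_pow 2] at b1
    rw [Ex_so hE p hr s (F := fun p I z => ∑ k, ∑ l, pd (dirc c l) (T p (update I t k)) z ^ 2)
      fun I => tg_sum _ fun k _ => tg_sum _ fun l _ => (tg_pd _ (h.tg p _)).fun_pow 2] at b2
    rw [Ex_so hE p hr s (F := fun p I z => (∑ k, dl p.U c k (T p (update I t k)) z) ^ 2)
      fun I => (tg_sum _ fun k _ => p.cx.tg_dl _ _ (h.tg p _)).fun_pow 2]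
    refine (so_mono (G := fun J => C * Ex p.U r (fun z => ∑ k, T p (update J t k) z ^ 2) +
      Ex p.U r (fun z => ∑ k, ∑ l, pd (dirc c l) (T p (update J t k)) z ^ 2))
      fun y => hC p r hr c _ fun k => h.tg p _).trans ?_
    rw [so_add, so_const_mul]
    nlinarith [mul_le_mul_of_nonneg_left b1 hC0]
  | @mul n T α β γ hαβ hαγ hβγ hα hβ h ih =>
    intro hn
    obtain ⟨C, hC0, hC⟩ := af_Sh hA hαβ hα hβ
    refine (ih hn).of_le hE h.tg (mul α β γ hαβ hαγ hβγ hα hβ h).tg C hC0 fun p z I => ?_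
    rw [Finset.union_comm β γ, Finset.union_comm α γ, so_union hβγ.symm, so_union hαγ.symm,
      ← so_const_mul]
    refine so_mono fun y => hC p z (fun I => T p I z) (fun J y => ?_) _
    rw [(h.dep p).upF (by simp [hαβ, hβγ.symm])]
  | bdd a M hc h ih =>
    intro hn
    refine (ih hn).of_le hE h.tg (h.bdd a M hc).tg (M ^ 2) (sq_nonneg _) fun p z I => ?_
    rw [← so_const_mul]
    refine so_mono fun y => ?_
    rw [mul_pow]
    exact mul_le_mul_of_nonneg_right (sq_le_sq' (abs_le.1 (hc p)).1 (abs_le.1 (hc p)).2)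
      (sq_nonneg _)
  | rmul h ih =>
    intro hn
    refine (ih hn).of_le hE h.tg h.rmul.tg 1 zero_le_one fun p z I => ?_
    rw [← so_const_mul]
    refine so_mono fun y => ?_
    rw [mul_pow]
    have := abs_lt.1 (p.cx.rr_lt z.1)
    exact mul_le_mul_of_nonneg_right (by nlinarith) (sq_nonneg _)
  | @add n s T T' h h' ih ih' =>
    intro hn
    obtain ⟨C, hC0, hC⟩ := ih hn
    obtain ⟨C', hC0', hC'⟩ := ih' hn
    refine ⟨2 * C + 2 * C', by positivity, fun p r hr I => ?_⟩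
    have t1 := (HasTemperateGrowth.const (2 : ℝ)).fun_mul
      (tg_so s (fun I => (h.tg p I).fun_pow 2) I)
    have t2 := (HasTemperateGrowth.const (2 : ℝ)).fun_mul
      (tg_so s (fun I => (h'.tg p I).fun_pow 2) I)
    have e1 := (hE _ _ _ _ p.hU hr).1
    refine ((e1 _ _ (tg_so _ (fun I => ((h.add h').tg p I).fun_pow 2) I) (t1.fun_add t2)).2.1
      fun z => ?_).trans ?_
    · rw [← so_const_mul, ← so_const_mul, ← so_add]
      exact so_mono fun y => by
        nlinarith [sq_nonneg (T p (updateFinset I s y) z - T' p (updateFinset I s y) z)]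
    · rw [(e1 _ _ t1 t2).1, Ex_cmul, Ex_cmul]
      linarith [hC p r hr I, hC' p r hr I]
  | zero n s => exact fun _ => ⟨0, le_rfl, fun p r hr I => by simp [Ex]⟩
  | @rename n s T π h ih =>
    intro hn
    obtain ⟨C, hC0, hC⟩ := ih hn
    refine ⟨C, hC0, fun p r hr I => ?_⟩
    have := hC p r hr (I ∘ π)
    refine le_trans (le_of_eq ?_) this
    congr 1; funext z
    exact so_rename π s (fun J => T p J z ^ 2) I
  | mono h hn ih => exact fun hn' => ih (by omega)

end

/-- membership at some level -/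
def TE (s : Finset ℕ) (T : TF) : Prop := ∃ n, TT n s T

structure Pre (s : Finset ℕ) (T : TF) : Prop where
  tg : ∀ p I, (T p I).HasTemperateGrowth
  dep : ∀ p, Dep s (T p)
  grad : ∀ c i, i ∉ s → TE (insert i s) (grad c i T)
  D : TE s (DD T)

namespace TE
variable {s : Finset ℕ} {T T' : TF}

theorem pre (h : TE s T) : Pre s T := by
  obtain ⟨n, h⟩ := h
  exact ⟨h.tg, h.dep, fun c i hi => ⟨n, h.grad_mem c i hi⟩, ⟨_, h.D_mem⟩⟩

theorem cast (h : TE s T) (hT : ∀ p I z, T' p I z = T p I z) : TE s T' := by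
  obtain ⟨n, h⟩ := h
  exact ⟨n, h.cast rfl hT⟩

theorem add (h : TE s T) (h' : TE s T') : TE s (fun p I z => T p I z + T' p I z) := by
  obtain ⟨n, h⟩ := h; obtain ⟨n', h'⟩ := h'
  exact ⟨max n n', (h.mono (le_max_left _ _)).add (h'.mono (le_max_right _ _))⟩

theorem sub (h : TE s T) (h' : TE s T') : TE s (fun p I z => T p I z - T' p I z) := by
  obtain ⟨n, h⟩ := h; obtain ⟨n', h'⟩ := h'
  exact ⟨max n n', (h.mono (le_max_left _ _)).sub (h'.mono (le_max_right _ _))⟩

theorem sum {ι : Type} (A : Finset ι) {F : ι → TF} (h : ∀ a ∈ A, TE s (F a)) :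
    TE s (fun p I z => ∑ a ∈ A, F a p I z) := by
  classical
  induction A using Finset.induction_on with
  | empty => exact ⟨0, (TT.zero 0 s).cast rfl fun p I z => by simp⟩
  | insert a A ha ih =>
    exact ((h a (by simp)).add (ih fun b hb => h b (by simp [hb]))).cast fun p I z => by
      rw [Finset.sum_insert ha]

end TE

namespace Pre
variable {s : Finset ℕ} {T : TF}

theorem H (h : Pre s T) : TE s (fun p I => act (bH p.U) (T p I)) := by
  obtain ⟨t, ht⟩ := Infinite.exists_notMem_finset s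
  obtain ⟨n1, h1⟩ := h.grad true t ht
  obtain ⟨n2, h2⟩ := h.grad false t ht
  refine (TE.sub ⟨_, h1.del false t ht⟩ ⟨_, h2.del true t ht⟩).cast fun p I z => ?_
  simp only [p.cx.H_eq (h.tg p I), LCS.grad, update_self, (h.dep p).update ht]

theorem O (j : ℕ) : ∀ {T : TF}, Pre s T →
    TE s (fun p I z => p.v⁻¹ * act (bO p.U (j + 1)) (T p I) z) := by
  induction j with
  | zero =>
    intro T h
    obtain ⟨t, ht⟩ := Infinite.exists_notMem_finset s
    obtain ⟨n1, h1⟩ := h.grad true t ht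
    obtain ⟨n2, h2⟩ := h.grad false t ht
    refine (TE.sub ⟨_, (h1.del_smat false ht).rmul⟩ ⟨_, (h2.del_smat true ht).rmul⟩).cast
      fun p I z => ?_
    have t1 : ∀ c k, (fun z => ∑ j, Sh p {k, j} z * pd (dirc c j) (T p I) z).HasTemperateGrowth :=
      fun c k => tg_sum _ fun j _ => (tg_Sh p _).fun_mul (tg_pd _ (h.tg p I))
    simp only [zero_add, p.cx.O_one (h.tg p I), LCS.grad, update_self, (h.dep p).update ht, SL_eq,
      mul_assoc, ← Finset.mul_sum, dl_cmul _ _ _ _ (t1 _ _)]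
    have := p.hv.ne'
    field_simp
  | succ j ih =>
    intro T h
    refine ((ih h).pre.D.sub (ih h.D.pre)).cast fun p I z => ?_
    simp only [DD]
    rw [p.cx.O_succ _ (h.tg p I), act_cmul _ _ (tg_diff (tg_act (p.cx.bO_tg _) (h.tg p I))), mul_sub]

theorem R (J : ℕ) (h : Pre s T) : TE s (fun p I => act (bR p.U J p.τ p.v) (T p I)) := by
  refine (TE.sum (Finset.range (J + 1)) (F := fun j p I z => lam j * (p.τ ^ (j - 1) *
    (p.v⁻¹ * act (bO p.U j) (T p I) z))) fun j _ => ?_).cast fun p I z => ?_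
  · cases j with
    | zero => exact ⟨0, (TT.zero 0 s).cast rfl fun p I z => by simp [lam]⟩
    | succ j =>
      obtain ⟨n, hn⟩ := O j h
      exact ⟨n, (hn.bdd (fun p => p.τ ^ (j + 1 - 1)) 1 fun p => by
        rw [abs_of_nonneg (pow_nonneg p.hτ _)]; exact pow_le_one₀ p.hτ p.hτ1).cmul _⟩
  · simp only [act, bR, map_smul, map_sum, smul_eq_mul, Finset.mul_sum]
    exact Finset.sum_congr rfl fun j _ => by ring

theorem letter (J : ℕ) (X : Letter) (h : Pre s T) :
    TE s (fun p I => act (fld p.U J p.τ p.v X) (T p I)) := by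
  cases X
  · exact h.D
  · exact h.H
  · exact h.R J

end Pre

theorem tg_word (p : Pw) (J : ℕ) (ω : List Letter) :
    (word p.U J p.τ p.v ω (Gh p.U p.v)).HasTemperateGrowth := by
  induction ω with
  | nil => exact (HasTemperateGrowth.const p.v⁻¹).fun_smul p.cx.Gf_tg
  | cons X ω ih => exact tg_act (p.cx.fld_tg _ _ _ _) ih

theorem word_pre (J : ℕ) (ω : List Letter) :
    Pre {0} (fun p I z => word p.U J p.τ p.v ω (Gh p.U p.v) z (I 0)) ∧
    (ω ≠ [] → TE {0} (fun p I z => word p.U J p.τ p.v ω (Gh p.U p.v) z (I 0))) := by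
  induction ω with
  | nil =>
    refine ⟨?_, fun h => absurd rfl h⟩
    have e : (fun (p : Pw) (I : ℕ → Fin p.d) z => word p.U J p.τ p.v [] (Gh p.U p.v) z (I 0)) =
        fun p I => Sh p (({0} : Finset ℕ).val.map I) := by
      funext p I z
      simp [word, Gh, Sh, p.cx.G_eq]
    rw [e]
    exact ⟨fun p I => tg_Sh p _, fun p I I' hI => by rw [map_congr' hI],
      fun c i hi => ⟨0, TT.base_grad (by simp) c i hi⟩, ⟨1, TT.base_D (by simp)⟩⟩
  | cons X ω ih =>
    have : TE {0} (fun p I z => word p.U J p.τ p.v (X :: ω) (Gh p.U p.v) z (I 0)) :=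
      (ih.1.letter J X).cast fun p I z => by
        rw [act_coord _ (tg_diff (tg_word p J ω))]; rfl
    exact ⟨this.pre, fun _ => this⟩

theorem wb (hP : PsiAPI) (hA : AF) (hM : MeasAPI) (hE : ExAPI) : WB := by
  intro J ω hω
  obtain ⟨n, hn⟩ := (word_pre J ω).2 hω
  obtain ⟨C, -, hC⟩ := hn.bound_aux hA hM hE (n + 1) (Nat.lt_succ_self n)
  refine ⟨C, fun d U v τ r hd hv hv1 hτ hτ1 hU hr => ?_⟩
  have := hC ⟨d, U, v, τ, hv, hv1, hτ, hτ1, hU, Cx.of hP hU⟩ r hr (fun _ => ⟨0, hd⟩)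
  simpa only [so_singleton, update_self, EuclideanSpace.real_norm_sq_eq] using this

end Crest.Agent.LCS
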