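import Crest.Agent.LCS.F12
import Crest.Agent.LCS.WB
import Crest.Agent.LCS.AF
import Crest.Agent.LCS.TL
import Crest.Agent.LCS.Pos
import Crest.Agent.LCS.Unroll
import Crest.Agent.LCS.Unroll2
import Crest.Agent.LCS.Impl
import Crest.Agent.LCS.Final

/-! Assembly of the unconditional versions. -/

namespace Crest.Agent.LCS

theorem posAPI' : PosAPI :=
  posAPI psiAPI measAPI exAPI (wb psiAPI (af psiAPI po) measAPI exAPI) (tl1 measAPI exAPI) gaussAPI

theorem f1' : F1 := f1 (unroll posAPI' (fd posAPI')) posAPI' (tl2 measAPI exAPI)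
theorem f2' : F2 := f2 (unroll posAPI' (fd posAPI')) posAPI' (tl2 measAPI exAPI)

end Crest.Agent.LCS
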