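import Mathlib
import Crest.Prelude.Def_OracleSampling

/-! Row 285 (S0430): definitions and job statements. -/

set_option autoImplicit false
open MeasureTheory

namespace Crest.Agent.LCS

abbrev E (d : ℕ) := EuclideanSpace ℝ (Fin d)

/-! ## 0. Measures -/
section Meas
variable {d : ℕ}

/-- Gibbs probability measure `∝ exp (-W)` (this is `OracleSampling.target`). -/
noncomputable def gibbs (W : E d → ℝ) : Measure (E d) := Crest.OracleSampling.target d W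

/-- standard Gaussian -/
noncomputable def gam (d : ℕ) : Measure (E d) := gibbs (fun z : E d => ‖z‖ ^ 2 / 2)

/-- `C²` with Hessian in `[lo, hi]` -/
def HessB (W : E d → ℝ) (lo hi : ℝ) : Prop :=
  ContDiff ℝ 2 W ∧ ∀ x h : E d, lo * ‖h‖ ^ 2 ≤ iteratedFDeriv ℝ 2 W x ![h, h] ∧
    iteratedFDeriv ℝ 2 W x ![h, h] ≤ hi * ‖h‖ ^ 2

/-- polynomial growth -/
def PG {Y F : Type} [NormedAddCommGroup Y] [NormedAddCommGroup F] (f : Y → F) : Prop :=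
  ∃ (C : ℝ) (n : ℕ), ∀ y, ‖f y‖ ≤ C * (1 + ‖y‖) ^ n

/-- posterior `∝ exp (-U y - |y-x|²/(2a))` -/
noncomputable def post (U : E d → ℝ) (x : E d) (a : ℝ) : Measure (E d) :=
  gibbs (fun y => U y + ‖y - x‖ ^ 2 / (2 * a))

/-- smoothed gradient -/
noncomputable def gv (U : E d → ℝ) (a : ℝ) (x : E d) : E d := ∫ y, gradient U y ∂(post U x a)

/-- `N(m, a² I)` -/
noncomputable def gaussN (m : E d) (a : ℝ) : Measure (E d) := (gam d).map (fun z => m + a • z)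

/-- ideal ladder kernel -/
noncomputable def Qk (U : E d → ℝ) (a c s : ℝ) (x : E d) : Measure (E d) :=
  ((post U x a).prod (gam d)).map (fun q => (1 - c ^ 2) • x + c ^ 2 • q.1 + s • q.2)

/-- `gibbs V * N(0, a I)` -/
noncomputable def piv (V : E d → ℝ) (a : ℝ) : Measure (E d) :=
  ((gibbs V).prod (gam d)).map (fun q => q.1 + √a • q.2)

/-- rescaled potential -/
noncomputable def mkU (V : E d → ℝ) (m : E d) (v : ℝ) : E d → ℝ := fun y => V (m + √v • y)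

/-- bounded 1-Lipschitz test function -/
def BL (φ : E d → ℝ) : Prop := LipschitzWith 1 φ ∧ ∃ M : ℝ, ∀ x, |φ x| ≤ M

/-- W1-closeness in dual form -/
def DL (μ ν : Measure (E d)) (ε : ℝ) : Prop :=
  ∀ φ : E d → ℝ, BL φ → |∫ x, φ x ∂μ - ∫ x, φ x ∂ν| ≤ ε

end Meas

/-- JOB A1 (Gibbs.lean) -/
def GibbsAPI : Prop := ∀ (d : ℕ) (W : E d → ℝ) (lo hi : ℝ), 0 < lo → HessB W lo hi →
  IsProbabilityMeasure (gibbs W) ∧
  0 < ∫ y, Real.exp (-W y) ∧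
  (∀ (F : Type) [NormedAddCommGroup F] [NormedSpace ℝ F] (f : E d → F), Continuous f → PG f →
    Integrable f (gibbs W) ∧ Integrable (fun y => Real.exp (-W y) • f y) ∧
    ∫ y, f y ∂(gibbs W) = (∫ y, Real.exp (-W y))⁻¹ • ∫ y, Real.exp (-W y) • f y) ∧
  gibbs W = volume.withDensity
    (fun y => ENNReal.ofReal ((∫ y, Real.exp (-W y))⁻¹ * Real.exp (-W y))) ∧
  (∀ f : E d → ℝ, ContDiff ℝ 1 f → PG f → PG (fderiv ℝ f) → ∀ e : E d,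
    ∫ y, fderiv ℝ f y e ∂(gibbs W) = ∫ y, f y * fderiv ℝ W y e ∂(gibbs W))

/-- JOB A1 (Gibbs.lean): elementary consequences of the Hessian bounds -/
def HessAPI : Prop := ∀ (d : ℕ) (W : E d → ℝ) (lo hi : ℝ), 0 ≤ lo → HessB W lo hi →
  (∀ x y, ‖gradient W x - gradient W y‖ ≤ |hi| * ‖x - y‖) ∧
  (∀ x y, W x + inner ℝ (gradient W x) (y - x) + lo / 2 * ‖y - x‖ ^ 2 ≤ W y) ∧
  (∀ x y, lo * ‖x - y‖ ^ 2 ≤ inner ℝ (gradient W x - gradient W y) (x - y)) ∧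
  ContDiff ℝ 1 (gradient W) ∧ (∀ x, ‖fderiv ℝ (gradient W) x‖ ≤ |hi|) ∧
  PG W ∧ PG (gradient W) ∧ PG (fderiv ℝ W) ∧
  (∀ x h, fderiv ℝ W x h = inner ℝ (gradient W x) h) ∧
  (∀ (x : E d) (a : ℝ), 0 < a →
    HessB (fun y => W y + ‖y - x‖ ^ 2 / (2 * a)) (lo + 1 / a) (hi + 1 / a) ∧
    ∀ y, gradient (fun y => W y + ‖y - x‖ ^ 2 / (2 * a)) y = gradient W y + a⁻¹ • (y - x))

/-- JOB A1 (Gibbs.lean): differentiation of posterior means in the centre -/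
def PostAPI : Prop := ∀ (d : ℕ) (U : E d → ℝ) (β a : ℝ), HessB U 0 β → 0 < a →
  ∀ f : E d → ℝ, Continuous f → PG f →
    Differentiable ℝ (fun x => ∫ y, f y ∂(post U x a)) ∧
    ∀ x h : E d, fderiv ℝ (fun x => ∫ y, f y ∂(post U x a)) x h =
      a⁻¹ * (∫ y, f y * inner ℝ h y ∂(post U x a) -
        (∫ y, f y ∂(post U x a)) * ∫ y, inner ℝ h y ∂(post U x a))

/-- JOB A2 (Gauss.lean) -/
def GaussAPI : Prop := ∀ d : ℕ,
  IsProbabilityMeasure (gam d) ∧ HessB (fun z : E d => ‖z‖ ^ 2 / 2) 1 1 ∧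
  Integrable (fun z : E d => ‖z‖ ^ 2) (gam d) ∧ ∫ z, ‖z‖ ^ 2 ∂(gam d) = d ∧
  Integrable (fun z : E d => ‖z‖) (gam d) ∧ ∫ z, ‖z‖ ∂(gam d) ≤ √(d : ℝ) ∧
  (∀ a b : ℝ, ((gam d).prod (gam d)).map (fun q => a • q.1 + b • q.2) =
    (gam d).map (fun z => √(a ^ 2 + b ^ 2) • z)) ∧
  -- moments from W1-closeness
  (∀ (μ ν : Measure (E d)) (ε : ℝ), IsProbabilityMeasure μ → IsProbabilityMeasure ν → DL μ ν ε →
    Integrable (fun y : E d => ‖y‖) ν →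
    Integrable (fun y : E d => ‖y‖) μ ∧ ∫ y, ‖y‖ ∂μ ≤ ∫ y, ‖y‖ ∂ν + ε) ∧
  -- mollification
  (∀ φ : E d → ℝ, BL φ → ∀ ε : ℝ, 0 < ε →
    ∃ ψ : E d → ℝ, BL ψ ∧ ψ.HasTemperateGrowth ∧ ∀ x, |ψ x - φ x| ≤ ε)

/-- JOB A3 (Poincare.lean) -/
def PO : Prop := ∀ (d : ℕ) (W : E d → ℝ) (lo hi : ℝ), 0 < lo → HessB W lo hi →
  ∀ f : E d → ℝ, ContDiff ℝ 1 f → PG f → PG (fderiv ℝ f) →
    ∫ y, f y ^ 2 ∂(gibbs W) - (∫ y, f y ∂(gibbs W)) ^ 2 ≤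
      lo⁻¹ * ∫ y, ‖fderiv ℝ f y‖ ^ 2 ∂(gibbs W)

/-- JOB A4 (GFacts.lean) -/
def GLip : Prop := ∀ (d : ℕ) (U : E d → ℝ) (β a : ℝ), 0 ≤ β → HessB U 0 β → 0 < a →
  ∀ x y, ‖gv U a x - gv U a y‖ ≤ β * ‖x - y‖

/-- JOB A4 (GFacts.lean) -/
def GScale : Prop := ∀ (d : ℕ) (V : E d → ℝ) (m : E d) (v : ℝ), HessB V 0 2 → 0 < v →
  HessB (mkU V m v) 0 (2 * v) ∧ ∀ (x : E d) (a : ℝ), 0 < a →
    (post (mkU V m v) x a).map (fun y => m + √v • y) = post V (m + √v • x) (v * a) ∧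
    gv (mkU V m v) a x = √v • gv V (v * a) (m + √v • x)

/-- JOB A4 (GFacts.lean) -/
def GFacts : Prop := ∀ (d : ℕ) (V : E d → ℝ), Crest.OracleSampling.Admissible d V →
  HessB V 0 2 ∧ HessB V 1 2 ∧
  ∀ a : ℝ, 0 < a → a ≤ 1 →
    (∀ x, ‖gv V a x‖ ≤ 2 * (‖x‖ + √(d : ℝ))) ∧
    (∀ x, ‖gradient V x - gv V a x‖ ≤ 6 * √a * (‖x‖ + √(d : ℝ))) ∧
    (IsProbabilityMeasure (piv V a) ∧ Integrable (fun y : E d => ‖y‖) (piv V a) ∧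
      ∫ y, ‖y‖ ∂(piv V a) ≤ 2 * √(d : ℝ)) ∧
    ∀ c s : ℝ, 0 ≤ c → c ≤ 1 → 0 ≤ s →
      (∀ x, IsProbabilityMeasure (Qk V a c s x) ∧
        Integrable (fun y : E d => ‖y‖) (Qk V a c s x) ∧
        ∫ y, ‖y‖ ∂(Qk V a c s x) ≤ ‖x‖ + (3 * √a + s) * (‖x‖ + √(d : ℝ))) ∧
      (∀ φ : E d → ℝ, BL φ → ∀ x x',
        |∫ y, φ y ∂(Qk V a c s x) - ∫ y, φ y ∂(Qk V a c s x')| ≤
          (1 - c ^ 2 * a / 2) * ‖x - x'‖) ∧
      (∀ φ : E d → ℝ, BL φ → ∫ x, (∫ y, φ y ∂(Qk V a c s x)) ∂(piv V a) =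
          ∫ y, φ y ∂(piv V (a * (1 - c ^ 2) ^ 2 + s ^ 2)))

/-! ## 1. Implementable kernels -/

/-- `Impl d q X K`: the kernel `K V : X → Measure (E d)` is realised by a measurable algorithm
with at most `q` gradient queries and Gaussian seeds. -/
inductive Impl (d : ℕ) : ℕ → (X : Type) → [MeasurableSpace X] →
    ((E d → ℝ) → X → Measure (E d)) → Prop
  | ret {X : Type} [MeasurableSpace X] (f : X → E d) (hf : Measurable f) :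
      Impl d 0 X (fun _ x => Measure.dirac (f x))
  | sample {X : Type} [MeasurableSpace X] {q : ℕ} {K : (E d → ℝ) → X × E d → Measure (E d)}
      (h : Impl d q (X × E d) K) :
      Impl d q X (fun V x => (gam d).bind (fun z => K V (x, z)))
  | query {X : Type} [MeasurableSpace X] {q : ℕ} {K : (E d → ℝ) → X × E d → Measure (E d)}
      (pt : X → E d) (hpt : Measurable pt) (h : Impl d q (X × E d) K) :
      Impl d (q + 1) X (fun V x => K V (x, gradient V (pt x)))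
  | mono {X : Type} [MeasurableSpace X] {q q' : ℕ} {K : (E d → ℝ) → X → Measure (E d)}
      (h : Impl d q X K) (hq : q ≤ q') : Impl d q' X K
  | congr {X : Type} [MeasurableSpace X] {q : ℕ} {K K' : (E d → ℝ) → X → Measure (E d)}
      (h : Impl d q X K) (hK : ∀ V, ContDiff ℝ 2 V → K' V = K V) : Impl d q X K'

/-- JOB P1 (Impl.lean) -/
def ImplAPI : Prop := ∀ d : ℕ,
  (∀ (q : ℕ) (X : Type) [MeasurableSpace X] (K : (E d → ℝ) → X → Measure (E d)), Impl d q X K →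
    ∀ V, ContDiff ℝ 2 V → Measurable (K V) ∧ ∀ x, IsProbabilityMeasure (K V x)) ∧
  (∀ (q : ℕ) (X Y : Type) [MeasurableSpace X] [MeasurableSpace Y]
    (K : (E d → ℝ) → X → Measure (E d)) (h : Y → X), Impl d q X K → Measurable h →
    Impl d q Y (fun V y => K V (h y))) ∧
  (∀ (q₁ q₂ : ℕ) (X : Type) [MeasurableSpace X] (K₁ : (E d → ℝ) → X → Measure (E d))
    (K₂ : (E d → ℝ) → X × E d → Measure (E d)), Impl d q₁ X K₁ → Impl d q₂ (X × E d) K₂ →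
    Impl d (q₁ + q₂) X (fun V x => (K₁ V x).bind (fun y => K₂ V (x, y)))) ∧
  (∀ (q : ℕ) (K : (E d → ℝ) → Unit → Measure (E d)), Impl d q Unit K →
    ∃ A : Crest.OracleSampling.QueryAlg d q, ∀ V, ContDiff ℝ 2 V →
      Crest.OracleSampling.outputLaw A V = K V ())

/-! ## 2. Expression trees `e + κ • gv V v c` -/

inductive Tr (B : Type) : Type
  | leaf (b : B) : Tr B
  | add (e : Tr B) (κ v : ℝ) (c : Tr B) : Tr B

namespace Tr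
variable {B : Type}

noncomputable def val {d : ℕ} (V : E d → ℝ) (ev : B → E d) : Tr B → E d
  | leaf b => ev b
  | add e κ v c => val V ev e + κ • gv V v (val V ev c)

def len : Tr B → ℕ
  | leaf _ => 0
  | add e _ _ _ => len e + 1

noncomputable def wt : Tr B → ℝ
  | leaf _ => 0
  | add e κ _ _ => wt e + |κ|

def base : Tr B → B
  | leaf b => b
  | add e _ _ _ => base e

/-- all bases satisfy `P` -/
def All (P : B → Prop) : Tr B → Prop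
  | leaf b => P b
  | add e _ _ c => All P e ∧ All P c

/-- all bases except the top-level one satisfy `P` -/
def AllSub (P : B → Prop) : Tr B → Prop
  | leaf _ => True
  | add e _ _ c => AllSub P e ∧ All P c

/-- all variances in `[s/Λ, Λ s]` and `≤ η`; all centres have `len ≤ Λ`, `wt ≤ ω` -/
def Good (Λ s η ω : ℝ) : Tr B → Prop
  | leaf _ => True
  | add e _ v c => Good Λ s η ω e ∧ s / Λ ≤ v ∧ v ≤ Λ * s ∧ v ≤ η ∧ (len c : ℝ) ≤ Λ ∧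
      wt c ≤ ω ∧ Good Λ s η ω c

end Tr

def ev3 {d : ℕ} (m y ξ : E d) (q : ℝ × ℝ × ℝ) : E d := q.1 • m + q.2.1 • y + q.2.2 • ξ

def Coef (C : ℝ) (q : ℝ × ℝ × ℝ) : Prop := |q.1| ≤ C ∧ |q.2.1| ≤ C ∧ |q.2.2| ≤ C

/-- JOB C5 (F12.lean): ladder-step scheme -/
def F1 : Prop := ∀ J p : ℕ, ∃ C τ₀ : ℝ, 1 ≤ C ∧ 0 < τ₀ ∧ ∀ (d : ℕ) (τ v ϖ : ℝ), 1 ≤ d →
  0 < τ → τ ≤ τ₀ → 0 < v → v ≤ ϖ → C * ϖ ≤ 1 →
  ∃ s : Tr (ℝ × ℝ × ℝ), (s.len : ℝ) ≤ C ∧ s.wt ≤ C * ϖ ∧ s.Good C v v (C * ϖ) ∧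
    s.All (Coef C) ∧
    ∀ V, Crest.OracleSampling.Admissible d V → ∀ (m : E d) (φ : E d → ℝ), BL φ →
      |∫ z, ∫ ξ, ∫ y, φ y ∂(gaussN (s.val V (ev3 m (√v • z) (√v • ξ))) (√3 / 2 * τ * √v))
          ∂(gam d) ∂(gam d) - ∫ y, φ y ∂(Qk V v τ (τ * √(v * (1 - τ ^ 2))) m)| ≤
        C * (τ ^ J + (C * ϖ) ^ p) * (‖m‖ + √(d : ℝ))

/-- JOB C5 (F12.lean): noise-compensation scheme -/
def F2 : Prop := ∀ J p : ℕ, ∃ C τ₀ : ℝ, 1 ≤ C ∧ 0 < τ₀ ∧ ∀ (d : ℕ) (τ v ϖ κ a : ℝ), 1 ≤ d →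
  0 < τ → τ ≤ τ₀ → 0 < v → v ≤ ϖ → C * ϖ ≤ 1 → ϖ ≤ τ → 0 < a → |κ| * √v ≤ τ * ϖ * a →
  ∃ s : Tr (ℝ × ℝ × ℝ), (s.len : ℝ) ≤ C ∧ s.wt ≤ C * |κ| * (|κ| * √v / a) / (τ ^ 2 * ϖ) ∧
    s.Good C v v (C * ϖ) ∧ s.All (Coef C) ∧ s.base = 0 ∧
    ∀ V, Crest.OracleSampling.Admissible d V → ∀ (m : E d) (φ : E d → ℝ), BL φ →
      |∫ y, ∫ ξ, φ (a • ξ + κ • (gv V (v * (1 - τ ^ 2)) y - gv V v m) +
            s.val V (ev3 m y (√v • ξ))) ∂(gam d) ∂(Qk V v τ (τ * √(v * (1 - τ ^ 2))) m) -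
          ∫ y, φ y ∂(gaussN 0 a)| ≤
        C * |κ| * (τ ^ J + (C * ϖ) ^ p) * (‖m‖ + √(d : ℝ))

/-- JOB P2 (Step.lean): one ladder step is implementable with tiny error and cheap cost -/
def StepThm : Prop := ∀ n : ℕ, ∃ (M B A : ℕ) (τ₀ : ℝ), 0 < τ₀ ∧ 1 ≤ A ∧
  (n + 2) * (B + A + 10) ≤ M ∧
  ∀ (d : ℕ) (τ v : ℝ), 1 ≤ d → 0 < τ → τ ≤ τ₀ → 0 < v → v ≤ τ ^ A →
    ∃ (q : ℕ) (K : (E d → ℝ) → E d → Measure (E d)), Impl d q (E d) K ∧ (q : ℝ) ≤ τ⁻¹ ^ B ∧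
      ∀ V, Crest.OracleSampling.Admissible d V → ∀ y : E d,
        DL (K V y) (Qk V v τ (τ * √(v * (1 - τ ^ 2))) y) (τ ^ M * (‖y‖ + √(d : ℝ)))

/-- JOB P3 (Final.lean): the statement S0430 -/
def Main : Prop := ∀ ε : ℝ, 0 < ε → ∃ C : ℝ, ∀ d : ℕ, 2 ≤ d →
  ∃ (q : ℕ) (A : Crest.OracleSampling.QueryAlg d q), (q : ℝ) ≤ C * (d : ℝ) ^ ε ∧
    ∀ V : Crest.OracleSampling.E d → ℝ, Crest.OracleSampling.Admissible d V →
      Crest.OracleSampling.Succeeds A V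

/-! ## 3. The calculus of the vector fields `D`, `H`, `R` -/

noncomputable def rr (t : ℝ) : ℝ := Real.arctan t / Real.pi
noncomputable def tt (r : ℝ) : ℝ := Real.tan (Real.pi * r)
noncomputable def aa (t : ℝ) : ℝ := 1 - rr t ^ 2

/-- directional derivative -/
noncomputable def pd {Y F : Type} [NormedAddCommGroup Y] [NormedSpace ℝ Y] [NormedAddCommGroup F]
    [NormedSpace ℝ F] (e : Y) (f : Y → F) : Y → F := fun z => fderiv ℝ f z e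

/-- action of a vector field -/
noncomputable def act {Y F : Type} [NormedAddCommGroup Y] [NormedSpace ℝ Y] [NormedAddCommGroup F]
    [NormedSpace ℝ F] (b : Y → Y) (f : Y → F) : Y → F := fun z => fderiv ℝ f z (b z)

/-- iterated directional derivative along a multiset of directions -/
noncomputable def pdm {Y κ : Type} [NormedAddCommGroup Y] [NormedSpace ℝ Y] (dir : κ → Y)
    (μ : Multiset κ) (f : Y → ℝ) : Y → ℝ := μ.toList.foldr (fun k g => pd (dir k) g) f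

/-- sum over all values of the slots in `s` -/
noncomputable def so {d : ℕ} {M : Type} [AddCommMonoid M] (s : Finset ℕ)
    (F : (ℕ → Fin d) → M) (I : ℕ → Fin d) : M :=
  ∑ y : (∀ _ : s, Fin d), F (Function.updateFinset I s y)

section Calc
variable {d : ℕ}

abbrev Z (d : ℕ) := ℝ × (E d × E d)

noncomputable def ex (k : Fin d) : ℝ × E d := (0, EuclideanSpace.single k 1)
noncomputable def ew (k : Fin d) : Z d := (0, (EuclideanSpace.single k 1, 0))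
noncomputable def eξ (k : Fin d) : Z d := (0, (0, EuclideanSpace.single k 1))

noncomputable def psi (U : E d → ℝ) : ℝ × E d → ℝ := fun q =>
  -Real.log (∫ y, Real.exp (-(U y + ‖y - q.2‖ ^ 2 / (2 * aa q.1)))) + (d : ℝ) / 2 * Real.log (aa q.1)

noncomputable def S (U : E d → ℝ) (μ : Multiset (Fin d)) : ℝ × E d → ℝ := pdm ex μ (psi U)

/-- `F(t, r(t) w)` -/
noncomputable def lift (F : ℝ × E d → ℝ) : Z d → ℝ := fun z => F (z.1, rr z.1 • z.2.1)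

noncomputable def Gf (U : E d → ℝ) : Z d → E d := fun z => gv U (aa z.1) (rr z.1 • z.2.1)
noncomputable def Gh (U : E d → ℝ) (v : ℝ) : Z d → E d := fun z => v⁻¹ • Gf U z

noncomputable def bD (U : E d → ℝ) : Z d → Z d :=
  fun z => (Real.pi * (1 + z.1 ^ 2), (-Gf U z, 0))
noncomputable def bH (U : E d → ℝ) : Z d → Z d :=
  fun z => (0, (z.2.2, -(z.2.1 + rr z.1 • Gf U z)))
noncomputable def bO (U : E d → ℝ) : ℕ → Z d → Z d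
  | 0 => bH U
  | j + 1 => VectorField.lieBracket ℝ (bD U) (bO U j)

/-- `lam i + i * lam (i+1) = -(-1)^i / i!` for `i ≥ 1`, `lam 0 = lam 1 = 0` -/
noncomputable def lam : ℕ → ℝ
  | 0 => 0
  | i + 1 => (-(-1) ^ i / (i.factorial : ℝ) - lam i) / (i : ℝ)

noncomputable def bR (U : E d → ℝ) (J : ℕ) (τ v : ℝ) : Z d → Z d :=
  fun z => v⁻¹ • ∑ j ∈ Finset.range (J + 1), (lam j * τ ^ (j - 1)) • bO U j z

inductive Letter | D | H | R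

noncomputable def fld (U : E d → ℝ) (J : ℕ) (τ v : ℝ) : Letter → Z d → Z d
  | .D => bD U
  | .H => bH U
  | .R => bR U J τ v

def sh : Letter → ℝ
  | .D => 1
  | .H => 0
  | .R => 0

noncomputable def word (U : E d → ℝ) (J : ℕ) (τ v : ℝ) (ω : List Letter) (f : Z d → E d) :
    Z d → E d := ω.foldr (fun X g => act (fld U J τ v X) g) f

noncomputable def mu (U : E d → ℝ) (r : ℝ) : Measure (E d × E d) :=
  (((post U 0 1).prod (gam d)).map (fun q => r • q.1 + √(1 - r ^ 2) • q.2)).prod (gam d)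

noncomputable def Ex (U : E d → ℝ) (r : ℝ) (F : Z d → ℝ) : ℝ := ∫ q, F (tt r, q) ∂(mu U r)

/-- Taylor polynomial of the flow of `b` -/
noncomputable def tay (b : Z d → Z d) (J : ℕ) (T : ℝ) (u : Z d → E d) : Z d → E d :=
  fun z => ∑ j ∈ Finset.range (J + 1), (T ^ j / (j.factorial : ℝ)) • ((act b)^[j] u) z

end Calc

/-- JOB B0 (Pd.lean): generic calculus of temperate functions -/
def PdAPI : Prop := ∀ (Y : Type) [NormedAddCommGroup Y] [NormedSpace ℝ Y] [FiniteDimensional ℝ Y],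
  (∀ (F : Type) [NormedAddCommGroup F] [NormedSpace ℝ F] (f : Y → F), f.HasTemperateGrowth →
    (fderiv ℝ f).HasTemperateGrowth ∧ PG f ∧ (∀ e, (pd e f).HasTemperateGrowth) ∧
    (∀ b : Y → Y, b.HasTemperateGrowth → (act b f).HasTemperateGrowth) ∧
    (∀ e e', pd e (pd e' f) = pd e' (pd e f))) ∧
  (∀ (κ : Type) (dir : κ → Y) (f : Y → ℝ), f.HasTemperateGrowth →
    (∀ μ, (pdm dir μ f).HasTemperateGrowth) ∧ pdm dir 0 f = f ∧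
    (∀ k μ, pdm dir (k ::ₘ μ) f = pd (dir k) (pdm dir μ f)) ∧
    (∀ μ ν, pdm dir (μ + ν) f = pdm dir μ (pdm dir ν f)) ∧
    (∀ μ e, pdm dir μ (pd e f) = pd e (pdm dir μ f)) ∧
    ∀ g : Y → ℝ, g.HasTemperateGrowth →
      (∀ μ, pdm dir μ (f + g) = pdm dir μ f + pdm dir μ g) ∧
      ∀ (s : Finset ℕ) (I : ℕ → κ), pdm dir (s.val.map I) (f * g) =
        ∑ A ∈ s.powerset, pdm dir (A.val.map I) f * pdm dir ((s \ A).val.map I) g) ∧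
  (∀ 𝒮 : Set (Y → ℝ), (∀ f ∈ 𝒮, Differentiable ℝ f ∧ PG f ∧
      ∀ e, pd e f ∈ Algebra.adjoin ℝ 𝒮) →
    ∀ f ∈ Algebra.adjoin ℝ 𝒮, f.HasTemperateGrowth)

/-- JOB B1 (Psi.lean) -/
def PsiAPI : Prop := rr.HasTemperateGrowth ∧ (∀ t, HasDerivAt rr (Real.pi * (1 + t ^ 2))⁻¹ t) ∧
  (∀ t, |rr t| < 1 / 2) ∧ (∀ r, |r| < 1 / 2 → rr (tt r) = r) ∧
  ∀ (d : ℕ) (U : E d → ℝ) (β : ℝ), HessB U 0 β →
    (psi U).HasTemperateGrowth ∧ (∀ k q, S U {k} q = gv U (aa q.1) q.2 k) ∧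
    (∀ q : ℝ × E d, Real.pi * (1 + q.1 ^ 2) * pd ((1 : ℝ), (0 : E d)) (psi U) q =
      -rr q.1 * ∑ k, S U {k, k} q + rr q.1 * ∑ k, S U {k} q ^ 2) ∧
    (fun q : ℝ × E d => gv U (aa q.1) q.2).HasTemperateGrowth ∧ (Gf U).HasTemperateGrowth ∧
    (∀ j, (bO U j).HasTemperateGrowth) ∧ ∀ J τ v X, (fld U J τ v X).HasTemperateGrowth

/-- JOB B2 (AF.lean): all flattenings of the cumulant tensors are `O(v)` -/
def AF : Prop := ∀ α β : Finset ℕ, Disjoint α β → α.Nonempty → β.Nonempty →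
  ∃ C : ℝ, ∀ (d : ℕ) (U : E d → ℝ) (v : ℝ), 0 < v → v ≤ 1 → HessB U 0 (2 * v) →
    ∀ (q : ℝ × E d) (a : (ℕ → Fin d) → ℝ), (∀ I y, a (Function.updateFinset I β y) = a I) →
    ∀ I, so β (fun I' => so α (fun I'' => S U ((α ∪ β).val.map I'') q * a I'') I' ^ 2) I ≤
      C * v ^ 2 * so α (fun I' => a I' ^ 2) I

/-- JOB B3 (Meas.lean) -/
def MeasAPI : Prop := ∀ (d : ℕ) (U : E d → ℝ) (β : ℝ), HessB U 0 β →
  mu U 0 = (gam d).prod (gam d) ∧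
  (∀ r, |r| < 1 / 2 → IsProbabilityMeasure (mu U r) ∧
    ∀ F : Z d → ℝ, F.HasTemperateGrowth →
      Integrable (fun q => F (tt r, q)) (mu U r) ∧
      (∀ k, Ex U r (fun z => (z.2.1 k + rr z.1 * Gf U z k) * F z - pd (ew k) F z) = 0) ∧
      (∀ k, Ex U r (fun z => z.2.2 k * F z - pd (eξ k) F z) = 0)) ∧
  ∀ Ψ : ℝ × Z d → ℝ, Ψ.HasTemperateGrowth → ∀ r₀ ε s : ℝ, |r₀ + ε * s| < 1 / 2 →
    HasDerivAt (fun s' => Ex U (r₀ + ε * s') (fun z => Ψ (s', z)))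
      (Ex U (r₀ + ε * s) (fun z => fderiv ℝ Ψ (s, z) (1, ε • bD U z))) s

/-- JOB B3 (Meas.lean): `L²` toolbox for `Ex` (follows from `MeasAPI` and `PdAPI`) -/
def ExAPI : Prop := ∀ (d : ℕ) (U : E d → ℝ) (β r : ℝ), HessB U 0 β → |r| < 1 / 2 →
  (∀ F G : Z d → ℝ, F.HasTemperateGrowth → G.HasTemperateGrowth →
    Ex U r (fun z => F z + G z) = Ex U r F + Ex U r G ∧
    ((∀ z, F z ≤ G z) → Ex U r F ≤ Ex U r G) ∧
    Ex U r (fun z => F z * G z) ^ 2 ≤ Ex U r (fun z => F z ^ 2) * Ex U r (fun z => G z ^ 2)) ∧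
  (∀ (ι : Type) (s : Finset ι) (F : ι → Z d → ℝ), (∀ i ∈ s, (F i).HasTemperateGrowth) →
    Ex U r (fun z => ∑ i ∈ s, F i z) = ∑ i ∈ s, Ex U r (F i)) ∧
  (∀ (f : Z d → E d) (a : ℝ), f.HasTemperateGrowth → 0 ≤ a →
    Ex U r (fun z => ‖f z‖ ^ 2) ≤ a ^ 2 →
    Integrable (fun q => ‖f (tt r, q)‖) (mu U r) ∧ Ex U r (fun z => ‖f z‖) ≤ a ∧
    (∀ c : ℝ, Ex U r (fun z => ‖c • f z‖ ^ 2) ≤ (|c| * a) ^ 2) ∧
    ∀ (g : Z d → E d) (b : ℝ), g.HasTemperateGrowth → 0 ≤ b →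
      Ex U r (fun z => ‖g z‖ ^ 2) ≤ b ^ 2 → Ex U r (fun z => ‖f z + g z‖ ^ 2) ≤ (a + b) ^ 2) ∧
  (∀ (ι : Type) (s : Finset ι) (f : ι → Z d → E d) (a : ι → ℝ),
    (∀ i ∈ s, (f i).HasTemperateGrowth ∧ 0 ≤ a i ∧ Ex U r (fun z => ‖f i z‖ ^ 2) ≤ a i ^ 2) →
    Ex U r (fun z => ‖∑ i ∈ s, f i z‖ ^ 2) ≤ (∑ i ∈ s, a i) ^ 2)

/-- JOB C1 (WB.lean): dimension-free bounds for words -/
def WB : Prop := ∀ (J : ℕ) (ω : List Letter), ω ≠ [] → ∃ C : ℝ, ∀ (d : ℕ) (U : E d → ℝ)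
  (v τ r : ℝ), 1 ≤ d → 0 < v → v ≤ 1 → 0 ≤ τ → τ ≤ 1 → HessB U 0 (2 * v) → |r| < 1 / 2 →
    Ex U r (fun z => ‖word U J τ v ω (Gh U v) z‖ ^ 2) ≤ C * d

/-- JOB C2 (TL.lean): Taylor polynomials of the flows, pathwise -/
def TL1 : Prop := ∀ (d : ℕ) (U : E d → ℝ) (β : ℝ), HessB U 0 β →
  ∀ (J' : ℕ) (τ v : ℝ) (X : Letter) (J : ℕ) (ι : Type) (s : Finset ι) (Φ : ι → E d → E d)
    (L A : ι → ℝ) (u : ι → Z d → E d) (h : Z d → E d) (r₀ T e₀ B : ℝ),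
    (∀ i ∈ s, (Φ i).HasTemperateGrowth ∧ (u i).HasTemperateGrowth ∧ 0 ≤ L i ∧ 0 ≤ A i ∧
      ∀ x y, ‖Φ i x - Φ i y‖ ≤ L i * ‖x - y‖) → h.HasTemperateGrowth → 0 ≤ e₀ → 0 ≤ B →
    (∀ t ∈ Set.uIcc 0 T, |r₀ + sh X * t| < 1 / 2 ∧
      (∀ i ∈ s, Ex U (r₀ + sh X * t)
        (fun z => ‖((act (fld U J' τ v X))^[J + 1] (u i)) z‖ ^ 2) ≤ A i ^ 2) ∧
      Ex U (r₀ + sh X * t) (fun z => ‖((act (fld U J' τ v X))^[J + 1] h) z‖ ^ 2) ≤ B ^ 2) →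
    Ex U (r₀ + sh X * T) (fun z => ‖∑ i ∈ s, Φ i (u i z) - h z‖ ^ 2) ≤ e₀ ^ 2 →
    Ex U r₀ (fun z => ‖∑ i ∈ s, Φ i (tay (fld U J' τ v X) J T (u i) z) -
        tay (fld U J' τ v X) J T h z‖ ^ 2) ≤
      (e₀ + |T| ^ (J + 1) * (∑ i ∈ s, L i * A i + B)) ^ 2

/-- JOB C2 (TL.lean): Taylor polynomials of the flows, in law -/
def TL2 : Prop := ∀ (d : ℕ) (U : E d → ℝ) (β : ℝ), HessB U 0 β →
  ∀ (J' : ℕ) (τ v : ℝ) (X : Letter) (J : ℕ) (φ : E d → ℝ) (L : ℝ) (u : Z d → E d) (r₀ T A : ℝ),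
    φ.HasTemperateGrowth → 0 ≤ L → (∀ x y, |φ x - φ y| ≤ L * ‖x - y‖) → u.HasTemperateGrowth →
    0 ≤ A →
    (∀ t ∈ Set.uIcc 0 T, |r₀ + sh X * t| < 1 / 2 ∧
      Ex U (r₀ + sh X * t) (fun z => ‖((act (fld U J' τ v X))^[J + 1] u) z‖ ^ 2) ≤ A ^ 2) →
    |Ex U r₀ (fun z => φ (tay (fld U J' τ v X) J T u z)) -
      Ex U (r₀ + sh X * T) (fun z => φ (u z))| ≤ |T| ^ (J + 1) * (L * A)

/-! ## 4. Position fields -/

structure Par0 where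
  d : ℕ
  v : ℝ
  τ : ℝ
  ϖ : ℝ
  hd : 1 ≤ d
  hv : 0 < v
  hvϖ : v ≤ ϖ
  hϖ : ϖ ≤ 1
  hτ : 0 < τ
  hτ1 : τ ≤ 1

abbrev Fam := (q : Par0) → (E q.d → ℝ) → Z q.d → E q.d

def hsc (q : Par0) : Letter → ℝ
  | .D => q.τ
  | .H => q.τ
  | .R => q.τ * q.ϖ

/-- scaled letter -/
noncomputable def hat (J : ℕ) (X : Letter) (u : Fam) : Fam :=
  fun q U z => hsc q X • act (fld U J q.τ q.v X) (u q U) z

/-- scaled word applied to `Gh` -/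
noncomputable def hword (J : ℕ) (ω : List Letter) : Fam :=
  ω.foldr (fun X u => hat J X u) (fun q U => Gh U q.v)

/-- `Pos J b u`: position fields; `b = false` means "no linear part". -/
inductive Pos (J : ℕ) : Bool → Fam → Prop
  | w : Pos J true (fun _ _ z => z.2.1)
  | xi : Pos J true (fun _ _ z => z.2.2)
  | gen (b : Bool) (ω : List Letter) : Pos J b (fun q U z => q.ϖ • hword J ω q U z)
  | zero (b : Bool) : Pos J b (fun _ _ _ => 0)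
  | add {b : Bool} {u u' : Fam} (h : Pos J b u) (h' : Pos J b u') :
      Pos J b (fun q U z => u q U z + u' q U z)
  | smul {b : Bool} {u : Fam} (c : ℝ) (h : Pos J b u) : Pos J b (fun q U z => c • u q U z)
  | bdd {b : Bool} {u : Fam} (c : Par0 → ℝ) (hc : ∀ q, |c q| ≤ 1) (h : Pos J b u) :
      Pos J b (fun q U z => c q • u q U z)
  | rmul {b : Bool} {u : Fam} (h : Pos J b u) : Pos J b (fun q U z => rr z.1 • u q U z)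
  | weaken {u : Fam} (h : Pos J false u) : Pos J true u
  | congr {b : Bool} {u u' : Fam} (h : Pos J b u)
      (hu : ∀ q U, HessB U 0 (2 * q.v) → u' q U = u q U) : Pos J b u'

/-- JOB C3 (Pos.lean) -/
def PosAPI : Prop := ∀ J : ℕ,
  (∀ b u, Pos J b u → (∀ q U, HessB U 0 (2 * q.v) → (u q U).HasTemperateGrowth) ∧
    (∀ X, Pos J b (hat J X u)) ∧
    ∀ (X : Letter) (n : ℕ), ∃ C : ℝ, 0 ≤ C ∧ ∀ (q : Par0) (U : E q.d → ℝ) (r : ℝ),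
      HessB U 0 (2 * q.v) → |r| < 1 / 2 →
      Ex U r (fun z => ‖((act (fld U J q.τ q.v X))^[n] (u q U)) z‖ ^ 2) ≤
        (C * (√(q.d : ℝ) + q.ϖ / q.v * ‖gv U 1 0‖)) ^ 2) ∧
  Pos J false (hat J .R (fun _ _ z => z.2.2)) ∧
  (∀ ω : List Letter, (∀ q U, HessB U 0 (2 * q.v) → (hword J ω q U).HasTemperateGrowth) ∧
    (∃ C : ℝ, 0 ≤ C ∧ ∀ (q : Par0) (U : E q.d → ℝ) (r : ℝ), HessB U 0 (2 * q.v) → |r| < 1 / 2 →
      Ex U r (fun z => ‖hword J ω q U z‖ ^ 2) ≤ (C * (√(q.d : ℝ) + q.v⁻¹ * ‖gv U 1 0‖)) ^ 2) ∧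
    ∀ (X : Letter) (n : ℕ), ∃ C : ℝ, 0 ≤ C ∧ ∀ (q : Par0) (U : E q.d → ℝ) (r : ℝ),
      HessB U 0 (2 * q.v) → |r| < 1 / 2 →
      Ex U r (fun z => ‖((act (fld U J q.τ q.v X))^[n + 1] (hword J ω q U)) z‖ ^ 2) ≤
        (C * √(q.d : ℝ)) ^ 2) ∧
  -- the `ξ`-component of `R` cancels the noise
  (∃ C : ℝ, 0 ≤ C ∧ ∀ (q : Par0) (U : E q.d → ℝ), HessB U 0 (2 * q.v) → q.τ < 1 / 2 →
      Ex U q.τ (fun z => ‖act (fld U J q.τ q.v .R) (fun z => z.2.2) z +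
        (Gh U q.v z - q.v⁻¹ • gv U 1 0)‖ ^ 2) ≤ (C * q.τ ^ J * √(q.d : ℝ)) ^ 2) ∧
  (∀ n : ℕ, ∃ C : ℝ, 0 ≤ C ∧ ∀ (q : Par0) (U : E q.d → ℝ) (r : ℝ), HessB U 0 (2 * q.v) →
      |r| < 1 / 2 → Ex U r (fun z => ‖((act (fld U J q.τ q.v .R))^[n] (fun z => z.2.2)) z‖ ^ 2) ≤
        (C * √(q.d : ℝ)) ^ 2)

/-- JOB C4 (Unroll.lean), first half: finite-difference formula for a scaled word -/
def FD : Prop := ∀ (J : ℕ) (ω : List Letter), ∃ (ι : Type) (s : Finset ι) (β : ι → ℝ) (n : ι → ℕ)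
  (u : ι → Fam) (C : ℝ), 0 ≤ C ∧ (∀ i ∈ s, Pos J true (u i) ∧ (n i : ℝ) ≤ C) ∧
  ∀ (q : Par0) (U : E q.d → ℝ) (r : ℝ), HessB U 0 (2 * q.v) → 0 ≤ r → r + C * q.τ ≤ 1 / 4 →
    Ex U r (fun z => ‖∑ i ∈ s, (β i * q.v⁻¹) •
        gv U (1 - (r + n i * q.τ) ^ 2) ((r + n i * q.τ) • u i q U z) - hword J ω q U z‖ ^ 2) ≤
      (C * q.τ ^ (J + 1) * (√(q.d : ℝ) + q.ϖ / q.v * ‖gv U 1 0‖)) ^ 2

/-- JOB C4 (Unroll.lean), second half -/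
def Unroll : Prop := ∀ (J : ℕ) (b : Bool) (u : Fam), Pos J b u → ∀ p : ℕ,
  ∃ C τ₀ : ℝ, 1 ≤ C ∧ 0 < τ₀ ∧ ∀ q : Par0, q.τ ≤ τ₀ → C * q.ϖ ≤ 1 → ∀ r₀ : ℝ, 0 ≤ r₀ → r₀ ≤ q.τ →
    ∃ s : Tr (ℝ × ℝ × ℝ), (s.len : ℝ) ≤ C ∧ s.wt ≤ C * q.ϖ ∧ s.Good C q.v q.v (C * q.ϖ) ∧
      s.base.1 = 0 ∧ Coef C s.base ∧ (b = false → s.base = 0) ∧
      s.AllSub (fun c => c.1 = 1 ∧ |c.2.1| ≤ C * q.τ ∧ |c.2.2| ≤ C * q.τ) ∧
      ∀ (V : E q.d → ℝ) (m : E q.d), HessB V 0 2 →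
        (fun z : Z q.d => s.val V (ev3 m (√q.v • z.2.1) (√q.v • z.2.2))).HasTemperateGrowth ∧
        Ex (mkU V m q.v) r₀ (fun z => ‖√q.v • u q (mkU V m q.v) z -
            s.val V (ev3 m (√q.v • z.2.1) (√q.v • z.2.2))‖ ^ 2) ≤
          (C * q.ϖ * (q.τ ^ (J + 1) + (C * q.ϖ) ^ p) * (‖gv V q.v m‖ + √(q.d : ℝ))) ^ 2

end Crest.Agent.LCS
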