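import Crest.Agent.LCS.Defs

/-! Operations on expression trees. -/

set_option autoImplicit false
set_option linter.unusedSectionVars false

namespace Crest.Agent.LCS
namespace Tr
variable {B B' : Type} {d : ℕ}

/-- replace the top-level base by `f base`, multiply the top-level weights by `c` -/
def top (f : B → B) (c : ℝ) : Tr B → Tr B
  | leaf b => leaf (f b)
  | add e κ v x => add (top f c e) (c * κ) v x

/-- append the top-level terms of the second tree, adding the bases -/
def app [Add B] (e : Tr B) : Tr B → Tr B
  | leaf b => top (· + b) 1 e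
  | add e' κ v x => add (app e e') κ v x

def mapB (f : B → B') : Tr B → Tr B'
  | leaf b => leaf (f b)
  | add e κ v x => add (mapB f e) κ v (mapB f x)

def sumR [Add B] [Zero B] (f : ℕ → Tr B) : ℕ → Tr B
  | 0 => leaf 0
  | n + 1 => app (sumR f n) (f n)

theorem wt_nonneg (e : Tr B) : 0 ≤ e.wt := by
  induction e with
  | leaf b => exact le_rfl
  | add e κ v x ih _ => simp only [wt]; positivity

theorem all_iff (P : B → Prop) (e : Tr B) : e.All P ↔ P e.base ∧ e.AllSub P := by
  induction e with
  | leaf b => simp [All, base, AllSub]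
  | add e κ v x ih _ => simp [All, base, AllSub, ih, and_assoc]

theorem All.imp {P Q : B → Prop} (h : ∀ b, P b → Q b) {e : Tr B} (he : e.All P) : e.All Q := by
  induction e with
  | leaf b => exact h b he
  | add e κ v x ih ih' => exact ⟨ih he.1, ih' he.2⟩

theorem AllSub.imp {P Q : B → Prop} (h : ∀ b, P b → Q b) {e : Tr B} (he : e.AllSub P) :
    e.AllSub Q := by
  induction e with
  | leaf b => trivial
  | add e κ v x ih _ => exact ⟨ih he.1, he.2.imp h⟩

theorem Good.imp {Λ Λ' s η η' ω ω' : ℝ} (h0 : 0 < Λ) (hs : 0 ≤ s) (hΛ : Λ ≤ Λ') (hη : η ≤ η')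
    (hω : ω ≤ ω') {e : Tr B} (he : e.Good Λ s η ω) : e.Good Λ' s η' ω' := by
  induction e with
  | leaf b => trivial
  | add e κ v x ih ih' =>
    obtain ⟨h1, h2, h3, h4, h5, h6, h7⟩ := he
    exact ⟨ih h1, (div_le_div_of_nonneg_left hs h0 hΛ).trans h2,
      h3.trans (mul_le_mul_of_nonneg_right hΛ hs), h4.trans hη, h5.trans hΛ, h6.trans hω, ih' h7⟩

@[simp] theorem len_top (f : B → B) (c : ℝ) (e : Tr B) : (top f c e).len = e.len := by
  induction e with
  | leaf b => rfl
  | add e κ v x ih _ => simp [top, len, ih]

@[simp] theorem wt_top (f : B → B) (c : ℝ) (e : Tr B) : (top f c e).wt = |c| * e.wt := by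
  induction e with
  | leaf b => simp [top, wt]
  | add e κ v x ih _ => simp [top, wt, ih, abs_mul, mul_add]

@[simp] theorem base_top (f : B → B) (c : ℝ) (e : Tr B) : (top f c e).base = f e.base := by
  induction e with
  | leaf b => rfl
  | add e κ v x ih _ => simp [top, base, ih]

@[simp] theorem allSub_top (P : B → Prop) (f : B → B) (c : ℝ) (e : Tr B) :
    (top f c e).AllSub P ↔ e.AllSub P := by
  induction e with
  | leaf b => rfl
  | add e κ v x ih _ => simp [top, AllSub, ih]

@[simp] theorem good_top (Λ s η ω : ℝ) (f : B → B) (c : ℝ) (e : Tr B) :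
    (top f c e).Good Λ s η ω ↔ e.Good Λ s η ω := by
  induction e with
  | leaf b => rfl
  | add e κ v x ih _ => simp [top, Good, ih]

theorem val_top (V : E d → ℝ) (ev : B → E d) (f : B → B) (c : ℝ) (e : Tr B) :
    (top f c e).val V ev = c • e.val V ev + (ev (f e.base) - c • ev e.base) := by
  induction e with
  | leaf b => simp [top, val, base]
  | add e κ v x ih _ => simp only [top, val, base, ih]; module

section App
variable [Add B]

@[simp] theorem len_app (e e' : Tr B) : (app e e').len = e.len + e'.len := by
  induction e' with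
  | leaf b => simp [app, len]
  | add e' κ v x ih _ => simp [app, len, ih, add_assoc]

@[simp] theorem wt_app (e e' : Tr B) : (app e e').wt = e.wt + e'.wt := by
  induction e' with
  | leaf b => simp [app, wt]
  | add e' κ v x ih _ => simp [app, wt, ih, add_assoc]

@[simp] theorem base_app (e e' : Tr B) : (app e e').base = e.base + e'.base := by
  induction e' with
  | leaf b => simp [app, base]
  | add e' κ v x ih _ => simp [app, base, ih]

@[simp] theorem allSub_app (P : B → Prop) (e e' : Tr B) :
    (app e e').AllSub P ↔ e.AllSub P ∧ e'.AllSub P := by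
  induction e' with
  | leaf b => simp [app, AllSub]
  | add e' κ v x ih _ => simp [app, AllSub, ih, and_assoc]

@[simp] theorem good_app (Λ s η ω : ℝ) (e e' : Tr B) :
    (app e e').Good Λ s η ω ↔ e.Good Λ s η ω ∧ e'.Good Λ s η ω := by
  induction e' with
  | leaf b => simp [app, Good]
  | add e' κ v x ih _ => simp [app, Good, ih, and_assoc]

theorem val_app (V : E d → ℝ) {ev : B → E d} (hev : ∀ b b', ev (b + b') = ev b + ev b')
    (e e' : Tr B) : (app e e').val V ev = e.val V ev + e'.val V ev := by
  induction e' with
  | leaf b => simp [app, val, val_top, hev]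
  | add e' κ v x ih _ => simp only [app, val, ih, add_assoc]

end App

@[simp] theorem len_mapB (f : B → B') (e : Tr B) : (mapB f e).len = e.len := by
  induction e with
  | leaf b => rfl
  | add e κ v x ih _ => simp [mapB, len, ih]

@[simp] theorem wt_mapB (f : B → B') (e : Tr B) : (mapB f e).wt = e.wt := by
  induction e with
  | leaf b => rfl
  | add e κ v x ih _ => simp [mapB, wt, ih]

@[simp] theorem base_mapB (f : B → B') (e : Tr B) : (mapB f e).base = f e.base := by
  induction e with
  | leaf b => rfl
  | add e κ v x ih _ => simp [mapB, base, ih]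

@[simp] theorem all_mapB (P : B' → Prop) (f : B → B') (e : Tr B) :
    (mapB f e).All P ↔ e.All (fun b => P (f b)) := by
  induction e with
  | leaf b => rfl
  | add e κ v x ih ih' => simp [mapB, All, ih, ih']

@[simp] theorem allSub_mapB (P : B' → Prop) (f : B → B') (e : Tr B) :
    (mapB f e).AllSub P ↔ e.AllSub (fun b => P (f b)) := by
  induction e with
  | leaf b => rfl
  | add e κ v x ih _ => simp [mapB, AllSub, ih]

@[simp] theorem good_mapB (Λ s η ω : ℝ) (f : B → B') (e : Tr B) :
    (mapB f e).Good Λ s η ω ↔ e.Good Λ s η ω := by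
  induction e with
  | leaf b => rfl
  | add e κ v x ih ih' => simp [mapB, Good, ih, ih']

theorem val_mapB (V : E d → ℝ) (ev : B' → E d) (f : B → B') (e : Tr B) :
    (mapB f e).val V ev = e.val V (fun b => ev (f b)) := by
  induction e with
  | leaf b => rfl
  | add e κ v x ih ih' => simp [mapB, val, ih, ih']

section Sum
variable [AddMonoid B] (f : ℕ → Tr B) (n : ℕ)

theorem len_sumR : (sumR f n).len = ∑ j ∈ Finset.range n, (f j).len := by
  induction n with
  | zero => rfl
  | succ n ih => simp [sumR, ih, Finset.sum_range_succ]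

theorem wt_sumR : (sumR f n).wt = ∑ j ∈ Finset.range n, (f j).wt := by
  induction n with
  | zero => rfl
  | succ n ih => simp [sumR, ih, Finset.sum_range_succ]

theorem base_sumR (h : ∀ j < n, (f j).base = 0) : (sumR f n).base = 0 := by
  induction n with
  | zero => rfl
  | succ n ih => simp [sumR, ih fun j hj => h j (by omega), h n (by omega)]

theorem allSub_sumR {P : B → Prop} (h : ∀ j < n, (f j).AllSub P) : (sumR f n).AllSub P := by
  induction n with
  | zero => trivial
  | succ n ih => simp [sumR, ih fun j hj => h j (by omega), h n (by omega)]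

theorem good_sumR {Λ s η ω : ℝ} (h : ∀ j < n, (f j).Good Λ s η ω) : (sumR f n).Good Λ s η ω := by
  induction n with
  | zero => trivial
  | succ n ih => simp [sumR, ih fun j hj => h j (by omega), h n (by omega)]

theorem val_sumR (V : E d → ℝ) {ev : B → E d} (hev : ∀ b b', ev (b + b') = ev b + ev b')
    (h0 : ev 0 = 0) : (sumR f n).val V ev = ∑ j ∈ Finset.range n, (f j).val V ev := by
  induction n with
  | zero => simpa [sumR, val] using h0
  | succ n ih => simp [sumR, val_app V hev, ih, Finset.sum_range_succ]

end Sum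

end Tr

theorem ev3_add {d : ℕ} (m y ξ : E d) (b b' : ℝ × ℝ × ℝ) :
    ev3 m y ξ (b + b') = ev3 m y ξ b + ev3 m y ξ b' := by
  simp only [ev3, Prod.fst_add, Prod.snd_add]; module

theorem ev3_smul {d : ℕ} (m y ξ : E d) (c : ℝ) (b : ℝ × ℝ × ℝ) :
    ev3 m y ξ (c • b) = c • ev3 m y ξ b := by
  simp only [ev3, Prod.smul_fst, Prod.smul_snd, smul_eq_mul]; module

theorem ev3_zero {d : ℕ} (m y ξ : E d) : ev3 m y ξ 0 = 0 := by simp [ev3]

end Crest.Agent.LCS
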