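import Crest.Agent.LCS.Meas
import Crest.Agent.LCS.GFacts
import Crest.Agent.LCS.TrOps

/-! JOB C5: the two schemes. -/

set_option autoImplicit false
set_option linter.unusedSectionVars false
open MeasureTheory Function

namespace Crest.Agent.LCS
namespace C5
variable {d : ℕ}

noncomputable def nu (U : E d → ℝ) (r : ℝ) : Measure (E d) :=
  ((post U 0 1).prod (gam d)).map (fun q => r • q.1 + √(1 - r ^ 2) • q.2)

theorem mu_def (U : E d → ℝ) (r : ℝ) : mu U r = (nu U r).prod (gam d) := rfl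

theorem nu_prob {U : E d → ℝ} {β : ℝ} (h : HessB U 0 β) (r : ℝ) : IsProbabilityMeasure (nu U r) := by
  have := h.post_prob one_pos 0
  exact Measure.isProbabilityMeasure_map (by fun_prop)

noncomputable def sm (φ : E d → ℝ) (a : ℝ) (x : E d) : ℝ := ∫ η, φ (x + a • η) ∂(gam d)

theorem bl_dist {φ : E d → ℝ} (hφ : BL φ) (x y : E d) : |φ x - φ y| ≤ ‖x - y‖ := by
  simpa [Real.dist_eq, dist_eq_norm] using hφ.1.dist_le_mul x y

theorem bl_sm {φ : E d → ℝ} (hφ : BL φ) (a : ℝ) : BL (sm φ a) := by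
  refine ⟨LipschitzWith.of_dist_le_mul fun x y => ?_, ?_⟩
  · rw [Real.dist_eq, dist_eq_norm, NNReal.coe_one, one_mul]
    refine abs_integral_sub_le _ (hφ.integrable _ (by fun_prop)) (hφ.integrable _ (by fun_prop))
      fun η => ?_
    simpa using bl_dist hφ (x + a • η) (y + a • η)
  · obtain ⟨M, hM⟩ := hφ.2
    refine ⟨M, fun x => ?_⟩
    simpa [sm] using abs_integral_sub_le (gam d) (hφ.integrable _ (T := fun η => x + a • η) (by fun_prop))
      (integrable_const (0 : ℝ)) (c := M) fun η => by simpa using hM _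

theorem gaussN_int {φ : E d → ℝ} (hφ : BL φ) (x : E d) (a : ℝ) :
    ∫ y, φ y ∂(gaussN x a) = sm φ a x :=
  integral_map (by fun_prop) hφ.1.continuous.aestronglyMeasurable

theorem conv_int {φ : E d → ℝ} (hφ : BL φ) (c : E d) (a b : ℝ) :
    ∫ ζ, sm φ b (c + a • ζ) ∂(gam d) = sm φ √(a ^ 2 + b ^ 2) c := by
  have hc := hφ.1.continuous
  have h1 := integral_map (μ := gam d) (φ := fun z => √(a ^ 2 + b ^ 2) • z) (by fun_prop)
    (f := fun y => φ (c + y)) (by fun_prop)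
  rw [← gam_conv, integral_map (by fun_prop) (by fun_prop),
    integral_prod _ (hφ.integrable _ (by fun_prop))] at h1
  simp only [sm, add_assoc]
  exact h1

theorem Qk_eq {V : E d → ℝ} (hV : HessB V 0 2) (m : E d) {v : ℝ} (hv : 0 < v) (τ : ℝ) :
    Qk V v τ (τ * √(v * (1 - τ ^ 2))) m = (nu (mkU V m v) τ).map (fun w => m + (√v * τ) • w) := by
  obtain ⟨hU, h2⟩ := gScale d V m v hV hv
  have := hU.post_prob one_pos 0
  have e := (h2 0 1 one_pos).1
  simp only [smul_zero, add_zero, mul_one] at e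
  have e2 : gam d = (gam d).map id := Measure.map_id.symm
  unfold Qk nu
  conv_lhs => rw [← e, e2]
  rw [Measure.map_prod_map _ _ (by fun_prop) measurable_id, Measure.map_map (by fun_prop) (by fun_prop),
    Measure.map_map (by fun_prop) (by fun_prop)]
  congr 1; funext q
  simp only [comp_apply, Prod.map, id, Real.sqrt_mul hv.le]
  module

theorem Ex_w {U : E d → ℝ} {β : ℝ} (h : HessB U 0 β) (r : ℝ) (f : E d → ℝ) :
    Ex U r (fun z => f z.2.1) = ∫ w, f w ∂(nu U r) := by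
  have := nu_prob h r
  simp only [Ex, mu_def]
  rw [integral_fun_fst]; simp

theorem Ex_xi {U : E d → ℝ} {β : ℝ} (h : HessB U 0 β) (r : ℝ) (f : E d → ℝ) :
    Ex U r (fun z => f z.2.2) = ∫ w, f w ∂(gam d) := by
  have := nu_prob h r
  simp only [Ex, mu_def]
  rw [integral_fun_snd]; simp

theorem nu_int {U : E d → ℝ} {β : ℝ} (h : HessB U 0 β) (r : ℝ) {φ : E d → ℝ} (hφ : BL φ) (m : E d)
    (c : ℝ) : ∫ w, φ (m + c • w) ∂(nu U r) =
      ∫ y, sm φ (c * √(1 - r ^ 2)) (m + (c * r) • y) ∂(post U 0 1) := by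
  have := h.post_prob one_pos 0
  have hc := hφ.1.continuous
  unfold nu
  rw [integral_map (by fun_prop) (by fun_prop), integral_prod _ (hφ.integrable _ (by fun_prop))]
  simp only [sm, smul_add, smul_smul, add_assoc]

theorem Qk_half {V : E d → ℝ} (hV : HessB V 0 2) (m : E d) {v τ : ℝ} (hv : 0 < v) (hτ : 0 < τ)
    (hτ1 : τ ≤ 1 / 2) {φ : E d → ℝ} (hφ : BL φ) :
    ∫ y, φ y ∂(Qk V v τ (τ * √(v * (1 - τ ^ 2))) m) = Ex (mkU V m v) (2 * τ)
      (fun z => sm φ (√3 / 2 * τ * √v) (m + (τ / 2 * √v) • z.2.1)) := by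
  have hU := (gScale d V m v hV hv).1
  have hc := hφ.1.continuous
  rw [Qk_eq hV m hv, integral_map (by fun_prop) (by fun_prop), nu_int hU _ hφ,
    Ex_w hU _ (fun w => sm φ (√3 / 2 * τ * √v) (m + (τ / 2 * √v) • w)), nu_int hU _ (bl_sm hφ _)]
  congr 1; funext y
  have e := conv_int hφ (m + (τ / 2 * √v * (2 * τ)) • y) (τ / 2 * √v * √(1 - (2 * τ) ^ 2))
    (√3 / 2 * τ * √v)
  rw [sm, sm, e, sm]
  have h1 : 0 ≤ 1 - (2 * τ) ^ 2 := by nlinarith
  have h2 : 0 ≤ 1 - τ ^ 2 := by nlinarith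
  have e1 : √((τ / 2 * √v * √(1 - (2 * τ) ^ 2)) ^ 2 + (√3 / 2 * τ * √v) ^ 2) =
      √v * τ * √(1 - τ ^ 2) := by
    rw [Real.sqrt_eq_iff_mul_self_eq (by positivity) (by positivity)]
    rw [mul_pow _ (√(1 - (2 * τ) ^ 2)), Real.sq_sqrt h1]
    simp only [mul_pow, div_pow, Real.sq_sqrt hv.le,
      Real.sq_sqrt (show (0 : ℝ) ≤ 3 by norm_num), ← sq, Real.sq_sqrt h2]
    ring
  rw [e1, show τ / 2 * √v * (2 * τ) = √v * τ * τ by ring]

theorem Ex_close {U : E d → ℝ} {β : ℝ} (h : HessB U 0 β) {r r' : ℝ} {F G : Z d → E d}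
    (hF : Continuous F) (hG : Continuous G) {ε : ℝ}
    (H : ∀ ψ : E d → ℝ, BL ψ → ψ.HasTemperateGrowth →
      |Ex U r (fun z => ψ (F z)) - Ex U r' (fun z => ψ (G z))| ≤ ε) {φ : E d → ℝ} (hφ : BL φ) :
    |Ex U r (fun z => φ (F z)) - Ex U r' (fun z => φ (G z))| ≤ ε := by
  refine le_of_forall_pos_le_add fun δ hδ => ?_
  obtain ⟨ψ, h1, h2, h3⟩ := hφ.mollify (half_pos hδ)
  have := B3.mu_prob h r
  have := B3.mu_prob h r'
  have a1 : |Ex U r (fun z => ψ (F z)) - Ex U r (fun z => φ (F z))| ≤ δ / 2 :=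
    abs_integral_sub_le _ (h1.integrable _ (by fun_prop)) (hφ.integrable _ (by fun_prop))
      fun q => h3 _
  have a2 : |Ex U r' (fun z => ψ (G z)) - Ex U r' (fun z => φ (G z))| ≤ δ / 2 :=
    abs_integral_sub_le _ (h1.integrable _ (by fun_prop)) (hφ.integrable _ (by fun_prop))
      fun q => h3 _
  have a3 := H ψ h1 h2
  rw [abs_le] at *
  constructor <;> linarith [a1.1, a1.2, a2.1, a2.2, a3.1, a3.2]

theorem Ex_lip {U : E d → ℝ} {β : ℝ} (h : HessB U 0 β) {r : ℝ} (hr : |r| < 1 / 2) {F G : Z d → E d}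
    (hF : F.HasTemperateGrowth) (hG : G.HasTemperateGrowth) {a : ℝ} (ha : 0 ≤ a)
    (H : Ex U r (fun z => ‖F z - G z‖ ^ 2) ≤ a ^ 2) {φ : E d → ℝ} (hφ : BL φ) :
    |Ex U r (fun z => φ (F z)) - Ex U r (fun z => φ (G z))| ≤ a := by
  obtain ⟨h1, h2, -⟩ := (exAPI d U β r h hr).2.2.1 _ a (hF.fun_sub hG) ha H
  have := B3.mu_prob h r
  have := tg_cont hF
  have := tg_cont hG
  refine le_trans ?_ h2
  simp only [Ex]
  rw [← integral_sub (hφ.integrable _ (by fun_prop)) (hφ.integrable _ (by fun_prop)),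
    ← Real.norm_eq_abs]
  exact norm_integral_le_of_norm_le h1 (Filter.Eventually.of_forall fun q => bl_dist hφ _ _)

theorem tg_iter {b : Z d → Z d} (hb : b.HasTemperateGrowth) {f : Z d → E d}
    (hf : f.HasTemperateGrowth) (j : ℕ) : ((act b)^[j] f).HasTemperateGrowth := by
  induction j with
  | zero => exact hf
  | succ j ih => rw [iterate_succ_apply']; exact tg_act hb ih

theorem tg_tay {b : Z d → Z d} (hb : b.HasTemperateGrowth) {f : Z d → E d}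
    (hf : f.HasTemperateGrowth) (J : ℕ) (T : ℝ) : (tay b J T f).HasTemperateGrowth :=
  tg_sum _ fun j _ => (HasTemperateGrowth.const _).fun_smul (tg_iter hb hf j)

theorem hat_iter (J : ℕ) (X : Letter) (u : Fam) (q : Par0) {U : E q.d → ℝ} {β : ℝ} (h : HessB U 0 β)
    (hu : (u q U).HasTemperateGrowth) (j : ℕ) :
    ((hat J X)^[j] u) q U = fun z => hsc q X ^ j • ((act (fld U J q.τ q.v X))^[j] (u q U)) z := by
  induction j with
  | zero => simp
  | succ j ih =>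
    rw [iterate_succ_apply', iterate_succ_apply']
    funext z
    simp only [hat]
    rw [ih, act_csmul _ _ (tg_diff (tg_iter (tg_fld h _ _ _ _) hu j)), smul_smul, pow_succ']

theorem pos_iter (hP : PosAPI) {J : ℕ} {b : Bool} {u : Fam} (h : Pos J b u) (X : Letter) (j : ℕ) :
    Pos J b ((hat J X)^[j] u) := by
  induction j with
  | zero => exact h
  | succ j ih => rw [iterate_succ_apply']; exact ((hP J).1 b _ ih).2.1 X

theorem pos_sum {J : ℕ} {b : Bool} {u : ℕ → Fam} (h : ∀ j, Pos J b (u j)) (c : ℕ → ℝ) (n : ℕ) :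
    Pos J b (fun q U z => ∑ j ∈ Finset.range n, c j • u j q U z) := by
  induction n with
  | zero => simpa using Pos.zero b
  | succ n ih => simpa only [Finset.sum_range_succ] using ih.add ((h n).smul (c n))

theorem pow_mono_aux {C C' ϖ : ℝ} (h0 : 0 ≤ C) (h : C ≤ C') (hϖ : 0 ≤ ϖ) (p : ℕ) :
    (C * ϖ) ^ p ≤ (C' * ϖ) ^ p := by gcongr

/-- the conclusion of `Unroll` for `b = false` -/
def UC (J p : ℕ) (u : Fam) (C : ℝ) (q : Par0) (r₀ : ℝ) (s : Tr (ℝ × ℝ × ℝ)) : Prop :=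
  (s.len : ℝ) ≤ C ∧ s.wt ≤ C * q.ϖ ∧ s.Good C q.v q.v (C * q.ϖ) ∧ s.base = 0 ∧
    s.AllSub (fun c => c.1 = 1 ∧ |c.2.1| ≤ C * q.τ ∧ |c.2.2| ≤ C * q.τ) ∧
    ∀ (V : E q.d → ℝ) (m : E q.d), HessB V 0 2 →
      (fun z : Z q.d => s.val V (ev3 m (√q.v • z.2.1) (√q.v • z.2.2))).HasTemperateGrowth ∧
      Ex (mkU V m q.v) r₀ (fun z => ‖√q.v • u q (mkU V m q.v) z -
          s.val V (ev3 m (√q.v • z.2.1) (√q.v • z.2.2))‖ ^ 2) ≤
        (C * q.ϖ * (q.τ ^ (J + 1) + (C * q.ϖ) ^ p) * (‖gv V q.v m‖ + √(q.d : ℝ))) ^ 2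

theorem UC.mono {J p : ℕ} {u : Fam} {C C' : ℝ} {q : Par0} {r₀ : ℝ} {s : Tr (ℝ × ℝ × ℝ)}
    (h : UC J p u C q r₀ s) (h1 : 1 ≤ C) (hC : C ≤ C') : UC J p u C' q r₀ s := by
  obtain ⟨a1, a2, a3, a4, a5, a6⟩ := h
  have hϖ : 0 < q.ϖ := q.hv.trans_le q.hvϖ
  have hτ := q.hτ
  have h0 : 0 ≤ C := by linarith
  have h0' : 0 ≤ C' := by linarith
  refine ⟨a1.trans hC, a2.trans (by gcongr), a3.imp (by linarith) q.hv.le hC le_rfl (by gcongr), a4,
    a5.imp fun c hc => ⟨hc.1, hc.2.1.trans (by gcongr), hc.2.2.trans (by gcongr)⟩,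
    fun V m hV => ⟨(a6 V m hV).1, (a6 V m hV).2.trans ?_⟩⟩
  gcongr

theorem unroll_fin (hUn : Unroll) {J : ℕ} {u : ℕ → Fam} (hu : ∀ j, Pos J false (u j)) (p n : ℕ) :
    ∃ C τ₀ : ℝ, 1 ≤ C ∧ 0 < τ₀ ∧ ∀ q : Par0, q.τ ≤ τ₀ → C * q.ϖ ≤ 1 → ∀ r₀ : ℝ, 0 ≤ r₀ → r₀ ≤ q.τ →
      ∃ s : ℕ → Tr (ℝ × ℝ × ℝ), ∀ j < n, UC J p (u j) C q r₀ (s j) := by
  induction n with
  | zero => exact ⟨1, 1, le_rfl, one_pos, fun q _ _ r₀ _ _ => ⟨fun _ => .leaf 0, by simp⟩⟩
  | succ n ih =>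
    obtain ⟨C, τ₀, h1, h2, H⟩ := ih
    obtain ⟨C', τ₀', h1', h2', H'⟩ := hUn J false _ (hu n) p
    refine ⟨max C C', min τ₀ τ₀', le_max_of_le_left h1, lt_min h2 h2', fun q hτ hC r₀ h0 hr => ?_⟩
    have hϖ : 0 < q.ϖ := q.hv.trans_le q.hvϖ
    obtain ⟨s, hs⟩ := H q (hτ.trans (min_le_left _ _))
      (le_trans (by gcongr; exact le_max_left _ _) hC) r₀ h0 hr
    obtain ⟨s', a1, a2, a3, -, -, a4, a5, a6⟩ := H' q (hτ.trans (min_le_right _ _))
      (le_trans (by gcongr; exact le_max_right _ _) hC) r₀ h0 hr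
    refine ⟨fun j => if j = n then s' else s j, fun j hj => ?_⟩
    by_cases e : j = n
    · subst e
      simpa using UC.mono ⟨a1, a2, a3, a4 rfl, a5, a6⟩ h1' (le_max_right _ _)
    · simpa [e] using (hs j (by omega)).mono h1 (le_max_left _ _)

end C5

open C5 in
theorem f1 (hUn : Unroll) (hP : PosAPI) (hT : TL2) : F1 := by
  intro J p
  have hu := pos_sum (fun j => pos_iter hP (Pos.w (J := J)) .D j)
    (fun j => (2 : ℝ) ^ j / (j.factorial : ℝ)) (J + 1)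
  obtain ⟨C₁, τ₁, hC₁, hτ₁, H⟩ := hUn J true _ hu p
  obtain ⟨C₂, hC₂, H2⟩ := ((hP J).1 true _ Pos.w).2.2 .D (J + 1)
  have h2J : (0 : ℝ) ≤ 3 * 2 ^ (J + 1) * C₂ := by positivity
  refine ⟨C₁ + 2 + 3 * 2 ^ (J + 1) * C₂, min τ₁ (1 / 5), by linarith, by positivity,
    fun d τ v ϖ hd hτ hτ0 hv hvϖ hCϖ => ?_⟩
  set C := C₁ + 2 + 3 * 2 ^ (J + 1) * C₂ with hC
  have hτ5 : τ ≤ 1 / 5 := hτ0.trans (min_le_right _ _)
  have hϖ : 0 < ϖ := hv.trans_le hvϖ
  have hCC : C₁ ≤ C := by linarith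
  have hC1ϖ : C₁ * ϖ ≤ 1 := le_trans (by gcongr) hCϖ
  have hϖ1 : ϖ ≤ 1 := by nlinarith
  let q : Par0 := ⟨d, v, τ, ϖ, hd, hv, hvϖ, hϖ1, hτ, by linarith⟩
  obtain ⟨s, h1, h2, h3, h4, h5, -, h7, h8⟩ := H q (hτ0.trans (min_le_left _ _)) hC1ϖ 0 le_rfl hτ.le
  simp only [q] at h1 h2 h3 h4 h5 h7
  have hτa : |τ / 2| ≤ 1 := by rw [abs_of_pos (by positivity)]; linarith
  refine ⟨s.top (fun b => (τ / 2) • b + (1, 0, 0)) (τ / 2), by simpa using h1.trans hCC, ?_, ?_, ?_,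
    fun V hV m φ hφ => ?_⟩
  · rw [Tr.wt_top]
    exact (mul_le_of_le_one_left s.wt_nonneg hτa).trans (h2.trans (by gcongr))
  · rw [Tr.good_top]
    exact h3.imp (by linarith) hv.le hCC le_rfl (by gcongr)
  · rw [Tr.all_iff, Tr.base_top, Tr.allSub_top]
    refine ⟨⟨?_, ?_, ?_⟩, h7.imp fun c hc => ⟨by rw [hc.1, abs_one]; linarith, ?_, ?_⟩⟩
    · simp [h4]; linarith
    · simp only [Prod.snd_add, Prod.fst_add, Prod.smul_snd, Prod.smul_fst, smul_eq_mul, add_zero,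
        abs_mul]
      exact (mul_le_of_le_one_left (abs_nonneg _) hτa).trans (h5.2.1.trans hCC)
    · simp only [Prod.snd_add, Prod.smul_snd, smul_eq_mul, add_zero, abs_mul]
      exact (mul_le_of_le_one_left (abs_nonneg _) hτa).trans (h5.2.2.trans hCC)
    · exact hc.2.1.trans (by nlinarith)
    · exact hc.2.2.trans (by nlinarith)
  obtain ⟨hV0, -, hG⟩ := gFacts d V hV
  have hg := (hG v hv (by linarith)).1 m
  obtain ⟨hU, hS⟩ := gScale d V m v hV0 hv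
  have hg0 : gv (mkU V m v) 1 0 = √v • gv V v m := by simpa using (hS 0 1 one_pos).2
  obtain ⟨tv, he⟩ := h8 V m hV0
  set U := mkU V m v
  have hσ : 0 < √v := Real.sqrt_pos.2 hv
  have hσ1 : √v ≤ 1 := Real.sqrt_le_one.2 (by linarith)
  have hval : ∀ y ξ : E d, (s.top (fun b => (τ / 2) • b + (1, 0, 0)) (τ / 2)).val V (ev3 m y ξ) =
      m + (τ / 2) • s.val V (ev3 m y ξ) := fun y ξ => by
    rw [Tr.val_top, ev3_add, ev3_smul]; simp [ev3, add_comm]
  have htay : (fun z : Z d => ∑ j ∈ Finset.range (J + 1), ((2 : ℝ) ^ j / (j.factorial : ℝ)) •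
      ((hat J .D)^[j] (fun _ _ z => z.2.1)) q U z) =
      tay (fld U J τ v .D) J (2 * τ) (fun z => z.2.1) := by
    funext z
    refine Finset.sum_congr rfl fun j _ => ?_
    rw [hat_iter J .D _ q hU tg_w j]
    simp only [smul_smul, hsc, q, mul_pow]
    congr 1; ring
  set W := tay (fld U J τ v .D) J (2 * τ) (fun z : Z d => z.2.1)
  replace he : Ex U 0 (fun z => ‖√v • W z - s.val V (ev3 m (√v • z.2.1) (√v • z.2.2))‖ ^ 2) ≤
      (C₁ * ϖ * (τ ^ (J + 1) + (C₁ * ϖ) ^ p) * (‖gv V v m‖ + √(d : ℝ))) ^ 2 := by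
    rw [← htay]; exact he
  replace tv : (fun z : Z d => s.val V (ev3 m (√v • z.2.1) (√v • z.2.2))).HasTemperateGrowth := tv
  have tW : W.HasTemperateGrowth := tg_tay (tg_fld hU _ _ _ _) tg_w _ _
  have tF : (fun z : Z d => m + (τ / 2) • s.val V (ev3 m (√v • z.2.1) (√v • z.2.2))
    ).HasTemperateGrowth := (HasTemperateGrowth.const _).fun_add
      ((HasTemperateGrowth.const _).fun_smul tv)
  have cF := tg_cont tF
  have e1 : ∫ z, ∫ ξ, ∫ y, φ y ∂(gaussN ((s.top (fun b => (τ / 2) • b + (1, 0, 0)) (τ / 2)).val V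
      (ev3 m (√v • z) (√v • ξ))) (√3 / 2 * τ * √v)) ∂(gam d) ∂(gam d) =
      Ex U 0 (fun z => sm φ (√3 / 2 * τ * √v)
        (m + (τ / 2) • s.val V (ev3 m (√v • z.2.1) (√v • z.2.2)))) := by
    simp only [gaussN_int hφ, hval, Ex, B3.mu_zero hU]
    exact (integral_prod _ ((bl_sm hφ _).integrable _
      (cF.comp (f := fun q : E d × E d => (tt 0, q)) (by fun_prop)).measurable)).symm
  rw [e1, Qk_half hV0 m hv hτ (by linarith) hφ]
  refine Ex_close hU cF (by fun_prop) (fun ψ hψ tψ => ?_) (bl_sm hφ _)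
  set N := ‖m‖ + √(d : ℝ)
  have hdN : √(d : ℝ) ≤ N := by simp [N]
  have hd0 : 0 ≤ √(d : ℝ) := Real.sqrt_nonneg _
  have hN : 0 ≤ N := hd0.trans hdN
  have tG : (fun z : Z d => m + (τ / 2 * √v) • W z).HasTemperateGrowth :=
    (HasTemperateGrowth.const _).fun_add ((HasTemperateGrowth.const _).fun_smul tW)
  have a1 := Ex_lip hU (r := 0) (by norm_num) tF tG (a := |-(τ / 2)| * (C₁ * ϖ *
      (τ ^ (J + 1) + (C₁ * ϖ) ^ p) * (‖gv V v m‖ + √(d : ℝ)))) (by positivity) (by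
    have := ((exAPI d U _ 0 hU (by norm_num)).2.2.1 _ _
      (((HasTemperateGrowth.const _).fun_smul tW).fun_sub tv) (by positivity) he).2.2.1 (-(τ / 2))
    refine le_trans (le_of_eq ?_) this
    congr 1; funext z; congr 2; module) hψ
  have a2 := hT d U _ hU J τ v .D J (fun x => ψ (m + (τ / 2 * √v) • x)) (τ / 2 * √v)
    (fun z => z.2.1) 0 (2 * τ) (C₂ * (√(d : ℝ) + ϖ / v * ‖gv U 1 0‖))
    (tψ.comp ((HasTemperateGrowth.const _).fun_add
      ((HasTemperateGrowth.const _).fun_smul HasTemperateGrowth.id')))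
    (by positivity) (fun x y => by
      refine (bl_dist hψ _ _).trans (le_of_eq ?_)
      rw [add_sub_add_left_eq_sub, ← smul_sub, norm_smul, Real.norm_of_nonneg (by positivity)])
    tg_w (by positivity) (fun t ht => by
      rw [Set.uIcc_of_le (by positivity)] at ht
      have : |0 + sh .D * t| < 1 / 2 := by
        simp only [sh, zero_add, one_mul]; rw [abs_of_nonneg ht.1]; linarith [ht.2]
      exact ⟨this, H2 q U _ hU this⟩)
  simp only [sh, zero_add, one_mul] at a2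
  refine (abs_sub_le _ _ _).trans ((add_le_add a1 a2).trans ?_)
  have hP := pow_mono_aux (by linarith) hCC hϖ.le p
  have hτJ : τ ^ (J + 1) ≤ τ ^ J := pow_le_pow_of_le_one hτ.le (by linarith) (by omega)
  have b1 : |-(τ / 2)| * (C₁ * ϖ * (τ ^ (J + 1) + (C₁ * ϖ) ^ p) * (‖gv V v m‖ + √(d : ℝ))) ≤
      1 / 2 * (1 * (τ ^ J + (C * ϖ) ^ p) * (3 * N)) := by
    rw [abs_neg, abs_of_pos (by positivity)]
    gcongr <;> linarith
  have b2 : |2 * τ| ^ (J + 1) * (τ / 2 * √v * (C₂ * (√(d : ℝ) + ϖ / v * ‖gv U 1 0‖))) ≤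
      2 ^ (J + 1) * τ ^ J * (C₂ * (3 * N)) := by
    rw [abs_of_pos (by positivity), mul_pow, hg0, norm_smul, Real.norm_of_nonneg hσ.le]
    have e : τ / 2 * √v * (C₂ * (√(d : ℝ) + ϖ / v * (√v * ‖gv V v m‖))) =
        τ / 2 * (C₂ * (√v * √(d : ℝ) + ϖ * ‖gv V v m‖)) := by
      have h : √v * (ϖ / v * √v) = ϖ := by
        rw [mul_comm (ϖ / v), ← mul_assoc, Real.mul_self_sqrt hv.le]; field_simp
      linear_combination (τ / 2 * C₂ * ‖gv V v m‖) * h
    rw [e]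
    have : τ / 2 * (C₂ * (√v * √(d : ℝ) + ϖ * ‖gv V v m‖)) ≤ 1 * (C₂ * (1 * N + 1 * (2 * N))) := by
      gcongr; linarith
    exact mul_le_mul (by gcongr) (by linarith) (by positivity) (by positivity)
  have hp0 : 0 ≤ (C * ϖ) ^ p := by positivity
  have hτ0' : 0 ≤ τ ^ J := by positivity
  have b3 : 0 ≤ C₁ * ((τ ^ J + (C * ϖ) ^ p) * N) := by positivity
  have b4 : 0 ≤ 3 * 2 ^ (J + 1) * C₂ * ((C * ϖ) ^ p * N) := by positivity
  have b5 : 0 ≤ (τ ^ J + (C * ϖ) ^ p) * N := by positivity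
  refine (add_le_add b1 b2).trans ?_
  generalize (C * ϖ) ^ p = P at *
  rw [hC]; nlinarith

open C5 in
theorem f2 (hUn : Unroll) (hP : PosAPI) (hT : TL2) : F2 := by
  intro J p
  have hu : ∀ j, Pos (J + 1) false ((hat (J + 1) .R)^[j + 2] (fun _ _ z => z.2.2)) := fun j => by
    rw [iterate_succ_apply]; exact pos_iter hP (hP (J + 1)).2.1 .R (j + 1)
  obtain ⟨C₁, τ₁, hC₁, hτ₁, H⟩ := unroll_fin hUn hu (p + 1) J
  obtain ⟨C₂, hC₂, H2⟩ := (hP (J + 1)).2.2.2.1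
  obtain ⟨C₃, hC₃, H3⟩ := (hP (J + 1)).2.2.2.2 (J + 1 + 1)
  have hJ : (0 : ℝ) ≤ J := J.cast_nonneg
  have hsq : C₁ ≤ C₁ ^ 2 := by nlinarith
  have hJC : J * C₁ ≤ J * C₁ ^ 2 := by gcongr
  have hJC0 : 0 ≤ J * C₁ ^ 2 := by positivity
  refine ⟨3 * (J * C₁ ^ 2) + 3 * C₁ ^ 2 + C₂ + C₃, min τ₁ (1 / 5), by linarith, by positivity,
    fun d τ v ϖ κ a hd hτ hτ0 hv hvϖ hCϖ hϖτ ha hκ => ?_⟩
  set C := 3 * (J * C₁ ^ 2) + 3 * C₁ ^ 2 + C₂ + C₃ with hC
  have hτ5 : τ ≤ 1 / 5 := hτ0.trans (min_le_right _ _)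
  have hϖ : 0 < ϖ := hv.trans_le hvϖ
  have hCC : C₁ + 1 ≤ C := by linarith
  have hC1ϖ : C₁ * ϖ ≤ 1 := le_trans (by gcongr; linarith) hCϖ
  have hϖ1 : ϖ ≤ 1 := by linarith
  have hσ : 0 < √v := Real.sqrt_pos.2 hv
  have hσ1 : √v ≤ 1 := Real.sqrt_le_one.2 (by linarith)
  let q : Par0 := ⟨d, v, τ, ϖ, hd, hv, hvϖ, hϖ1, hτ, by linarith⟩
  obtain ⟨s, hs⟩ := H q (hτ0.trans (min_le_left _ _)) hC1ϖ τ hτ.le le_rfl
  set θ := -(κ * √v / a) with hθ
  set x := |κ| * √v / a with hx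
  have hθx : |θ| = x := by rw [hθ, abs_neg, abs_div, abs_mul, abs_of_pos hσ, abs_of_pos ha]
  have hx0 : 0 ≤ x := by positivity
  have hxρ : x ≤ τ * ϖ := by rw [hx, div_le_iff₀ ha]; exact hκ
  set e : ℕ → ℝ := fun j => a / √v * ((θ / (τ * ϖ)) ^ (j + 2) / ((j + 2).factorial : ℝ)) with he
  have hej : ∀ j, |e j| ≤ |κ| * x / (τ ^ 2 * ϖ ^ 2) := fun j => by
    have h1 : |θ / (τ * ϖ)| ≤ 1 := by
      rw [abs_div, hθx, abs_of_pos (by positivity : 0 < τ * ϖ), div_le_one (by positivity)]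
      exact hxρ
    have h2 : |(θ / (τ * ϖ)) ^ (j + 2) / ((j + 2).factorial : ℝ)| ≤ (x / (τ * ϖ)) ^ 2 := by
      rw [abs_div, abs_pow, Nat.abs_cast]
      refine (div_le_self (by positivity) (by exact_mod_cast Nat.factorial_pos _)).trans ?_
      refine (pow_le_pow_of_le_one (abs_nonneg _) h1 (show 2 ≤ j + 2 by omega)).trans (le_of_eq ?_)
      rw [abs_div, hθx, abs_of_pos (by positivity : 0 < τ * ϖ)]
    rw [he, abs_mul, abs_of_pos (by positivity : 0 < a / √v)]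
    refine (mul_le_mul_of_nonneg_left h2 (by positivity)).trans (le_of_eq ?_)
    rw [hx]; field_simp
  let f : ℝ × ℝ × ℝ → ℝ × ℝ × ℝ := fun c => (c.1 - c.2.1 / τ, c.2.1 / τ, c.2.2)
  have hf0 : f 0 = 0 := by simp [f]
  let t : ℕ → Tr (ℝ × ℝ × ℝ) := fun j => ((s j).mapB f).top id (e j)
  have hb : ∀ j < J, (t j).base = 0 := fun j hj => by simp [t, (hs j hj).2.2.2.1, hf0]
  refine ⟨Tr.sumR t J, ?_, ?_, Tr.good_sumR _ _ fun j hj => ?_, ?_, Tr.base_sumR _ _ hb,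
    fun V hV m φ hφ => ?_⟩
  · rw [Tr.len_sumR, Nat.cast_sum]
    refine (Finset.sum_le_sum (g := fun _ => C₁) fun j hj => ?_).trans (by simp; linarith)
    simpa [t] using (hs j (by simpa using hj)).1
  · rw [Tr.wt_sumR]
    refine (Finset.sum_le_sum (g := fun _ => |κ| * x / (τ ^ 2 * ϖ ^ 2) * (C₁ * ϖ))
      fun j hj => ?_).trans ?_
    · simp only [t, Tr.wt_top, Tr.wt_mapB]
      exact mul_le_mul (hej j) (hs j (by simpa using hj)).2.1 (Tr.wt_nonneg _) (by positivity)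
    · simp only [Finset.sum_const, Finset.card_range, nsmul_eq_mul]
      calc J * (|κ| * x / (τ ^ 2 * ϖ ^ 2) * (C₁ * ϖ)) = (J * C₁) * (|κ| * x / (τ ^ 2 * ϖ)) := by
            field_simp
        _ ≤ C * (|κ| * x / (τ ^ 2 * ϖ)) := by gcongr; linarith
        _ = _ := by ring
  · simp only [t, Tr.good_top, Tr.good_mapB]
    exact (hs j hj).2.2.1.imp (by linarith) hv.le (by linarith) le_rfl (by
      show C₁ * ϖ ≤ C * ϖ; gcongr; linarith)
  · rw [Tr.all_iff, Tr.base_sumR _ _ hb]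
    refine ⟨by simp [Coef]; linarith, Tr.allSub_sumR _ _ fun j hj => ?_⟩
    simp only [t, Tr.allSub_top, Tr.allSub_mapB]
    refine (hs j hj).2.2.2.2.1.imp fun c hc => ?_
    obtain ⟨c1, c2, c3⟩ := hc
    replace c2 : |c.2.1 / τ| ≤ C₁ := by rw [abs_div, abs_of_pos hτ, div_le_iff₀ hτ]; exact c2
    replace c3 : |c.2.2| ≤ C₁ * τ := c3
    refine ⟨?_, c2.trans (by linarith), c3.trans (by nlinarith)⟩
    show |c.1 - c.2.1 / τ| ≤ C
    refine (abs_sub _ _).trans ?_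
    rw [c1, abs_one]; linarith
  obtain ⟨hV0, -, hG⟩ := gFacts d V hV
  have hg := (hG v hv (by linarith)).1 m
  obtain ⟨hU, hS⟩ := gScale d V m v hV0 hv
  have hg0 : gv (mkU V m v) 1 0 = √v • gv V v m := by simpa using (hS 0 1 one_pos).2
  have hτr : |τ| < 1 / 2 := by rw [abs_of_pos hτ]; linarith
  have hGh : ∀ w ξ : E d, Gh (mkU V m v) v (tt τ, w, ξ) =
      (v⁻¹ * √v) • gv V (v * (1 - τ ^ 2)) (m + (√v * τ) • w) := fun w ξ => by
    simp only [Gh, Gf, aa, rr_tt hτr]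
    rw [(hS _ _ (by nlinarith)).2, smul_smul, smul_smul]
  have tv : ∀ j < J, (fun z : Z d => (s j).val V (ev3 m (√v • z.2.1) (√v • z.2.2))
    ).HasTemperateGrowth := fun j hj => ((hs j hj).2.2.2.2.2 V m hV0).1
  have hE : ∀ j < J, Ex (mkU V m v) τ (fun z => ‖√v • ((hat (J + 1) .R)^[j + 2]
      (fun _ _ z => z.2.2)) q (mkU V m v) z - (s j).val V (ev3 m (√v • z.2.1) (√v • z.2.2))‖ ^ 2) ≤
      (C₁ * ϖ * (τ ^ (J + 1 + 1) + (C₁ * ϖ) ^ (p + 1)) * (‖gv V v m‖ + √(d : ℝ))) ^ 2 :=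
    fun j hj => ((hs j hj).2.2.2.2.2 V m hV0).2
  have hQ := Qk_eq hV0 m hv τ
  set U := mkU V m v
  set b := fld U (J + 1) τ v .R
  have tb : b.HasTemperateGrowth := tg_fld hU _ _ _ _
  have hh : ∀ j, ((hat (J + 1) .R)^[j] (fun _ _ z => z.2.2)) q U =
      fun z => (τ * ϖ) ^ j • ((act b)^[j] (fun z => z.2.2)) z := fun j =>
    hat_iter (J + 1) .R _ q hU tg_xi j
  simp only [hh] at hE
  have tGh : (Gh U v).HasTemperateGrowth := (HasTemperateGrowth.const _).fun_smul (tg_Gf hU)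
  set F : Z d → E d := fun z => a • z.2.2 + (κ * √v) • (Gh U v z - v⁻¹ • gv U 1 0) +
    ∑ j ∈ Finset.range J, e j • (s j).val V (ev3 m (√v • z.2.1) (√v • z.2.2)) with hF
  have tF : F.HasTemperateGrowth := (((HasTemperateGrowth.const _).fun_smul tg_xi).fun_add
    ((HasTemperateGrowth.const _).fun_smul (tGh.fun_sub (HasTemperateGrowth.const _)))).fun_add
    (tg_sum _ fun j hj => (HasTemperateGrowth.const _).fun_smul (tv j (by simpa using hj)))
  have cF := tg_cont tF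
  have hvv : √v * (v⁻¹ * √v) = 1 := by
    rw [mul_comm v⁻¹, ← mul_assoc, Real.mul_self_sqrt hv.le]; field_simp
  have e1 : ∫ y, ∫ ξ, φ (a • ξ + κ • (gv V (v * (1 - τ ^ 2)) y - gv V v m) +
      (Tr.sumR t J).val V (ev3 m y (√v • ξ))) ∂(gam d) ∂(Qk V v τ (τ * √(v * (1 - τ ^ 2))) m) =
      Ex U τ (fun z => φ (F z)) := by
    have := nu_prob hU τ
    have emb : MeasurableEmbedding (fun w : E d => m + (√v * τ) • w) :=
      (measurableEmbedding_addLeft m).comp (measurableEmbedding_const_smul₀ (by positivity))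
    rw [hQ, emb.integral_map, Ex, mu_def, integral_prod _ (hφ.integrable _
      (T := fun q : E d × E d => F (tt τ, q)) (by fun_prop))]
    congr 1; funext w; congr 1; funext ξ; congr 1
    rw [Tr.val_sumR _ _ _ (ev3_add _ _ _) (ev3_zero _ _ _)]
    simp only [hF, hGh, hg0, smul_sub, smul_smul, mul_assoc, hvv, mul_one]
    congr 1
    refine Finset.sum_congr rfl fun j hj => ?_
    simp only [t, Tr.val_top, Tr.base_mapB, (hs j (by simpa using hj)).2.2.2.1, hf0, id, ev3_zero,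
      smul_zero, sub_zero, add_zero, Tr.val_mapB]
    congr 2; funext c
    simp only [ev3, f]
    match_scalars <;> field_simp
    ring
  have e2 : ∫ y, φ y ∂(gaussN 0 a) = Ex U τ (fun z => φ (a • z.2.2)) := by
    rw [gaussN_int hφ, Ex_xi hU τ (fun ξ => φ (a • ξ))]; simp [sm]
  rw [e1, e2]
  refine Ex_close hU cF (by fun_prop) (fun ψ hψ tψ => ?_) hφ
  set N := ‖m‖ + √(d : ℝ)
  have hdN : √(d : ℝ) ≤ N := by simp [N]
  have hd0 : 0 ≤ √(d : ℝ) := Real.sqrt_nonneg _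
  have hN : 0 ≤ N := hd0.trans hdN
  have tG : (fun z : Z d => a • tay b (J + 1) θ (fun z => z.2.2) z).HasTemperateGrowth :=
    (HasTemperateGrowth.const _).fun_smul (tg_tay tb tg_xi _ _)
  have X := (exAPI d U _ τ hU hτr).2.2
  have tc : (fun z => act b (fun z => z.2.2) z + (Gh U v z - v⁻¹ • gv U 1 0)).HasTemperateGrowth :=
    (tg_act tb tg_xi).fun_add (tGh.fun_sub (HasTemperateGrowth.const _))
  have tj : ∀ j < J, (fun z : Z d => √v • (τ * ϖ) ^ (j + 2) • ((act b)^[j + 2] (fun z => z.2.2)) z -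
      (s j).val V (ev3 m (√v • z.2.1) (√v • z.2.2))).HasTemperateGrowth := fun j hj =>
    ((HasTemperateGrowth.const _).fun_smul ((HasTemperateGrowth.const _).fun_smul
      (tg_iter tb tg_xi _))).fun_sub (tv j hj)
  have c1 := (X.1 _ _ tc (by positivity) (H2 q U hU (by show τ < 1 / 2; linarith))).2.2.1 (κ * √v)
  have c2 := X.2 _ (Finset.range J) (fun j z => (-e j) • (√v • (τ * ϖ) ^ (j + 2) •
      ((act b)^[j + 2] (fun z => z.2.2)) z - (s j).val V (ev3 m (√v • z.2.1) (√v • z.2.2))))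
    (fun j => |-e j| * (C₁ * ϖ * (τ ^ (J + 1 + 1) + (C₁ * ϖ) ^ (p + 1)) * (‖gv V v m‖ + √(d : ℝ))))
    fun j hj => ⟨(HasTemperateGrowth.const _).fun_smul (tj j (by simpa using hj)), by positivity,
      (X.1 _ _ (tj j (by simpa using hj)) (by positivity) (hE j (by simpa using hj))).2.2.1 _⟩
  have c3 := (X.1 _ _ ((HasTemperateGrowth.const _).fun_smul tc) (by positivity) c1).2.2.2 _ _
    (tg_sum _ fun j hj => (HasTemperateGrowth.const _).fun_smul (tj j (by simpa using hj)))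
    (by positivity) c2
  have a1 := Ex_lip hU hτr tF tG (by positivity) (le_trans (le_of_eq (by
    congr 1; funext z; congr 2
    simp only [hF, tay, Finset.sum_range_succ', smul_add, Finset.smul_sum, smul_sub, smul_smul,
      Finset.sum_sub_distrib, neg_smul, Finset.sum_neg_distrib, iterate_zero, id, zero_add,
      iterate_one, pow_zero, pow_one, Nat.factorial_zero, Nat.factorial_one, Nat.cast_one, div_one]
    have : ∀ j, -e j * (√v * (τ * ϖ) ^ (j + 2)) =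
        -(a * (θ ^ (j + 1 + 1) / ((j + 1 + 1).factorial : ℝ))) := fun j => by
      simp only [he, div_pow]; field_simp
    simp only [this, neg_smul, Finset.sum_neg_distrib]
    have : a * θ = -(κ * √v) := by rw [hθ]; field_simp
    rw [this]
    module)) c3) hψ
  have a2 := hT d U _ hU (J + 1) τ v .R (J + 1) (fun x => ψ (a • x)) a
    (fun z => z.2.2) τ θ (C₃ * √(d : ℝ))
    (tψ.comp ((HasTemperateGrowth.const _).fun_smul HasTemperateGrowth.id')) ha.le (fun x y => by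
      refine (bl_dist hψ _ _).trans (le_of_eq ?_)
      rw [← smul_sub, norm_smul, Real.norm_of_nonneg ha.le])
    tg_xi (by positivity) (fun t ht => by
      have : |τ + sh .R * t| < 1 / 2 := by simpa [sh] using hτr
      exact ⟨this, H3 q U _ hU this⟩)
  simp only [sh, zero_mul, add_zero] at a2
  refine (abs_sub_le _ _ _).trans ((add_le_add a1 a2).trans ?_)
  have hP := pow_mono_aux (by linarith) (show C₁ ≤ C by linarith) hϖ.le p
  have hτ1 : τ ≤ 1 := by linarith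
  have hτJ : τ ^ (J + 1) ≤ τ ^ J := pow_le_pow_of_le_one hτ.le hτ1 (by omega)
  have hκσ : |κ| * √v ≤ |κ| := mul_le_of_le_one_right (abs_nonneg _) hσ1
  have b1 : |κ * √v| * (C₂ * τ ^ (J + 1) * √(d : ℝ)) ≤ |κ| * (C₂ * τ ^ J * N) := by
    rw [abs_mul, abs_of_pos hσ]; gcongr
  have b2 : ∑ j ∈ Finset.range J, |-e j| * (C₁ * ϖ * (τ ^ (J + 1 + 1) + (C₁ * ϖ) ^ (p + 1)) *
      (‖gv V v m‖ + √(d : ℝ))) ≤ J * (|κ| * C₁ * (C₁ * (τ ^ J + (C * ϖ) ^ p)) * (3 * N)) := by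
    refine (Finset.sum_le_sum (g := fun _ => |κ| * C₁ * (C₁ * (τ ^ J + (C * ϖ) ^ p)) * (3 * N))
      fun j _ => ?_).trans (by simp)
    rw [abs_neg]
    calc |e j| * (C₁ * ϖ * (τ ^ (J + 1 + 1) + (C₁ * ϖ) ^ (p + 1)) * (‖gv V v m‖ + √(d : ℝ)))
        ≤ |κ| * (τ * ϖ) / (τ ^ 2 * ϖ ^ 2) * (C₁ * ϖ * (τ ^ (J + 1 + 1) + (C₁ * ϖ) ^ (p + 1)) *
          (3 * N)) := by
          gcongr
          · exact (hej j).trans (by gcongr)
          · linarith
      _ = |κ| * C₁ * (τ ^ (J + 1) + C₁ * (ϖ / τ) * (C₁ * ϖ) ^ p) * (3 * N) := by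
          field_simp; ring
      _ ≤ |κ| * C₁ * (C₁ * τ ^ J + C₁ * 1 * (C * ϖ) ^ p) * (3 * N) := by
          gcongr
          · exact hτJ.trans (le_mul_of_one_le_left (by positivity) hC₁)
          · exact (div_le_one hτ).2 hϖτ
      _ = _ := by ring
  have b3 : |θ| ^ (J + 1 + 1) * (a * (C₃ * √(d : ℝ))) ≤ τ ^ J * (|κ| * (C₃ * N)) := by
    rw [hθx, pow_succ, mul_assoc, ← mul_assoc x, show x * a = |κ| * √v by rw [hx]; field_simp]
    have : x ≤ τ := hxρ.trans (mul_le_of_le_one_right hτ.le hϖ1)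
    gcongr
    exact (pow_le_pow_left₀ hx0 this _).trans hτJ
  have hp0 : 0 ≤ (C * ϖ) ^ p := by positivity
  have hτ0' : 0 ≤ τ ^ J := by positivity
  have b4 : 0 ≤ C₁ ^ 2 * (|κ| * (τ ^ J + (C * ϖ) ^ p) * N) := by positivity
  have b5 : 0 ≤ C₂ * (|κ| * (C * ϖ) ^ p * N) := by positivity
  have b6 : 0 ≤ C₃ * (|κ| * (C * ϖ) ^ p * N) := by positivity
  refine (add_le_add (add_le_add b1 b2) b3).trans ?_
  generalize (C * ϖ) ^ p = P at *
  rw [hC]; nlinarith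

end Crest.Agent.LCS
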