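import Crest.Agent.LCS.GFacts
import Crest.Agent.LCS.Impl

/-! JOB P3, part 1: measure-theoretic lemmas for the final assembly. -/

set_option autoImplicit false
open MeasureTheory ProbabilityTheory Filter
open Crest.OracleSampling (Admissible)

namespace Crest.Agent.LCS

namespace FinX

variable {d : ℕ}

theorem bind_prob {X Y : Type} [MeasurableSpace X] [MeasurableSpace Y] (μ : Measure X)
    [IsProbabilityMeasure μ] {K : X → Measure Y} (hK : Measurable K)
    (hp : ∀ x, IsProbabilityMeasure (K x)) : IsProbabilityMeasure (μ.bind K) := ⟨by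
  rw [Measure.bind_apply MeasurableSet.univ hK.aemeasurable]
  simp⟩

theorem integral_bind {X Y : Type} [MeasurableSpace X] [MeasurableSpace Y] (μ : Measure X)
    {K : X → Measure Y} (hK : Measurable K) {f : Y → ℝ} (hf : Integrable f (μ.bind K)) :
    ∫ y, f y ∂(μ.bind K) = ∫ x, ∫ y, f y ∂(K x) ∂μ := by
  let κ : Kernel X Y := ⟨K, hK⟩
  have e : μ.bind K = (κ ∘ₖ Kernel.const Unit μ) () := Measure.comp_eq_comp_const_apply (κ := κ)
  rw [e] at hf ⊢
  rw [Kernel.integral_comp hf]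
  rfl

theorem integrable_bdd {X : Type} [MeasurableSpace X] (μ : Measure X) [IsProbabilityMeasure μ]
    {f : X → ℝ} (hf : AEStronglyMeasurable f μ) {M : ℝ} (hM : ∀ x, |f x| ≤ M) : Integrable f μ :=
  (integrable_const M).mono' hf (Eventually.of_forall hM)

theorem abs_integral_bdd {X : Type} [MeasurableSpace X] (μ : Measure X) [IsProbabilityMeasure μ]
    {f : X → ℝ} {M : ℝ} (hM : ∀ x, |f x| ≤ M) : |∫ x, f x ∂μ| ≤ M := by
  simpa using norm_integral_le_of_norm_le_const (μ := μ) (f := f) (C := M)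
    (Eventually.of_forall hM)

theorem abs_integral_le {X : Type} [MeasurableSpace X] {μ : Measure X} {f g : X → ℝ}
    (hg : Integrable g μ) (h : ∀ x, |f x| ≤ g x) : |∫ x, f x ∂μ| ≤ ∫ x, g x ∂μ :=
  norm_integral_le_of_norm_le (f := f) hg (Eventually.of_forall h)

theorem meas_inner {X Y : Type} [MeasurableSpace X] [MeasurableSpace Y] {K : X → Measure Y}
    (hK : Measurable K) {f : Y → ℝ} (hf : Measurable f) :
    Measurable fun x => ∫ y, f y ∂(K x) := by
  let κ : Kernel X Y := ⟨K, hK⟩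
  exact (hf.stronglyMeasurable.integral_kernel (κ := κ)).measurable

theorem DL_lip {μ ν : Measure (E d)} {ε : ℝ} (h : DL μ ν ε) {g : E d → ℝ} {L M : ℝ} (hL : 0 < L)
    (hg : ∀ x y, |g x - g y| ≤ L * ‖x - y‖) (hM : ∀ x, |g x| ≤ M) :
    |∫ x, g x ∂μ - ∫ x, g x ∂ν| ≤ L * ε := by
  have := h (fun x => L⁻¹ * g x) ⟨LipschitzWith.of_dist_le_mul fun x y => by
    rw [Real.dist_eq, ← mul_sub, abs_mul, abs_of_pos (inv_pos.2 hL), dist_eq_norm]
    simp only [NNReal.coe_one, one_mul]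
    rw [inv_mul_le_iff₀ hL]; exact hg x y, L⁻¹ * M, fun x => by
    rw [abs_mul, abs_of_pos (inv_pos.2 hL)]
    exact mul_le_mul_of_nonneg_left (hM x) (inv_pos.2 hL).le⟩
  rw [integral_const_mul, integral_const_mul, ← mul_sub, abs_mul, abs_of_pos (inv_pos.2 hL),
    inv_mul_le_iff₀ hL] at this
  exact this

theorem DL_nonneg {μ ν : Measure (E d)} {ε : ℝ} (h : DL μ ν ε) : 0 ≤ ε :=
  (abs_nonneg _).trans (h (fun _ => 0) ⟨(LipschitzWith.const 0).weaken zero_le_one, 0, by simp⟩)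

theorem DL_mono {μ ν : Measure (E d)} {ε ε' : ℝ} (h : DL μ ν ε) (hε : ε ≤ ε') : DL μ ν ε' :=
  fun φ hφ => (h φ hφ).trans hε

theorem DL_trans {μ ν ρ : Measure (E d)} {ε ε' : ℝ} (h : DL μ ν ε) (h' : DL ν ρ ε') :
    DL μ ρ (ε + ε') := fun φ hφ =>
  (abs_sub_le _ _ _).trans (add_le_add (h φ hφ) (h' φ hφ))

theorem BL_lip {φ : E d → ℝ} (hφ : BL φ) (x y : E d) : |φ x - φ y| ≤ ‖x - y‖ := by
  simpa [Real.dist_eq, dist_eq_norm] using hφ.1.dist_le_mul x y

/-- one step of the ladder -/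
theorem step {V : E d → ℝ} (hV : Admissible d V) {a c s ε δ : ℝ} (ha : 0 < a) (ha1 : a ≤ 1)
    (hc : 0 ≤ c) (hc1 : c ≤ 1) (hs : 0 ≤ s) (hδ : 0 ≤ δ) {μ : Measure (E d)}
    [IsProbabilityMeasure μ] (h : DL μ (piv V a) ε) {K : E d → Measure (E d)} (hK : Measurable K)
    (hp : ∀ x, IsProbabilityMeasure (K x))
    (hQ : ∀ y, DL (K y) (Qk V a c s y) (δ * (‖y‖ + √(d : ℝ)))) :
    DL (μ.bind K) (piv V (a * (1 - c ^ 2) ^ 2 + s ^ 2))
      ((1 - c ^ 2 * a / 2) * ε + δ * (3 * √(d : ℝ) + ε)) := by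
  obtain ⟨-, -, h3⟩ := gFacts d V hV
  obtain ⟨-, -, ⟨hp1, hi1, hm1⟩, h4⟩ := h3 a ha ha1
  obtain ⟨h5, h6, h7⟩ := h4 c s hc hc1 hs
  intro φ hφ
  have := bind_prob μ hK hp
  obtain ⟨M, hM⟩ := hφ.2
  have hφm : Measurable φ := hφ.1.continuous.measurable
  rw [integral_bind μ hK (integrable_bdd _ hφm.aestronglyMeasurable hM), ← h7 φ hφ]
  have hρ : 0 < 1 - c ^ 2 * a / 2 := by nlinarith [mul_le_one₀ (pow_le_one₀ hc hc1 (n := 2)) ha.le ha1]
  have hb : ∀ x, |∫ y, φ y ∂(Qk V a c s x)| ≤ M := fun x => by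
    have := (h5 x).1; exact abs_integral_bdd _ hM
  have h8 := DL_lip h hρ (h6 φ hφ) hb
  obtain ⟨hi2, hm2⟩ := h.moment hi1
  have hgc : Continuous fun x => ∫ y, φ y ∂(Qk V a c s x) :=
    (LipschitzWith.of_dist_le_mul (K := ⟨_, hρ.le⟩) fun x y => by
      rw [Real.dist_eq, dist_eq_norm]; exact h6 φ hφ x y).continuous
  have i1 : Integrable (fun x => ∫ y, φ y ∂(K x)) μ :=
    integrable_bdd _ (meas_inner hK hφm).aestronglyMeasurable
      fun x => by have := hp x; exact abs_integral_bdd _ hM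
  have i2 : Integrable (fun x => ∫ y, φ y ∂(Qk V a c s x)) μ :=
    integrable_bdd _ hgc.aestronglyMeasurable hb
  have h9 : |∫ x, ∫ y, φ y ∂(K x) ∂μ - ∫ x, ∫ y, φ y ∂(Qk V a c s x) ∂μ| ≤
      δ * (3 * √(d : ℝ) + ε) := by
    rw [← integral_sub i1 i2]
    have i3 : Integrable (fun y : E d => δ * (‖y‖ + √(d : ℝ))) μ :=
      (hi2.add (integrable_const _)).const_mul _
    refine (abs_integral_le i3 fun x => hQ x φ hφ).trans ?_
    rw [integral_const_mul, integral_add hi2 (integrable_const _)]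
    simp only [integral_const, probReal_univ, smul_eq_mul, one_mul]
    exact mul_le_mul_of_nonneg_left (by linarith) hδ
  have := abs_sub_le (∫ x, ∫ y, φ y ∂(K x) ∂μ) (∫ x, ∫ y, φ y ∂(Qk V a c s x) ∂μ)
    (∫ x, ∫ y, φ y ∂(Qk V a c s x) ∂(piv V a))
  linarith

theorem noise_impl (s : ℝ) : Impl d 0 (E d) (fun _ y => gaussN y s) := by
  refine (Impl.sample (Impl.ret (fun p : E d × E d => p.1 + s • p.2) (by fun_prop))).congr
    fun V _ => ?_
  funext y
  rw [gaussN, ← Measure.bind_dirac_eq_map _ (by fun_prop)]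

theorem Qk_zero {V : E d → ℝ} (hV : HessB V 0 2) {a : ℝ} (ha : 0 < a) (s : ℝ) (y : E d) :
    Qk V a 0 s y = gaussN y s := by
  have := hV.post_prob ha y
  have e : (fun q : E d × E d => (1 - (0 : ℝ) ^ 2) • y + (0 : ℝ) ^ 2 • q.1 + s • q.2) =
      (fun z => y + s • z) ∘ Prod.snd := by
    funext q; simp
  rw [Qk, e, ← Measure.map_map (by fun_prop) measurable_snd, Measure.map_snd_prod]
  simp [gaussN]

theorem start {V : E d → ℝ} (hV : Admissible d V) {a : ℝ} (ha : 0 < a) (ha1 : a ≤ 1) :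
    DL (Measure.dirac 0) (piv V a) (2 * √(d : ℝ)) := by
  obtain ⟨-, -, h3⟩ := gFacts d V hV
  obtain ⟨-, -, ⟨hp1, hi1, hm1⟩, -⟩ := h3 a ha ha1
  intro φ hφ
  obtain ⟨M, hM⟩ := hφ.2
  have i1 : Integrable φ (piv V a) :=
    integrable_bdd _ hφ.1.continuous.aestronglyMeasurable hM
  have e : ∫ x, φ x ∂(Measure.dirac (0 : E d)) = ∫ _, φ 0 ∂(piv V a) := by simp
  rw [e, ← integral_sub (integrable_const _) i1]
  refine (abs_integral_le hi1 fun x => ?_).trans hm1
  simpa using BL_lip hφ 0 x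

theorem piv_close {V : E d → ℝ} (hV : HessB V 1 2) {a : ℝ} :
    DL (piv V a) (gibbs V) (√a * √(d : ℝ)) := by
  have := hV.prob one_pos
  intro φ hφ
  have e : ∫ x, φ x ∂(gibbs V) = ∫ q, φ q.1 ∂((gibbs V).prod (gam d)) := by
    rw [integral_prod _ (hφ.integrable _ measurable_fst)]; simp
  rw [piv, integral_map (by fun_prop) hφ.1.continuous.aestronglyMeasurable, e,
    ← integral_sub (hφ.integrable _ (by fun_prop)) (hφ.integrable _ measurable_fst)]
  have i1 : Integrable (fun q : E d × E d => √a * ‖q.2‖) ((gibbs V).prod (gam d)) :=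
    (gam_int_norm.comp_snd _).const_mul _
  refine (abs_integral_le i1 fun q => ?_).trans ?_
  · have := BL_lip hφ (q.1 + √a • q.2) q.1
    simpa [norm_smul, abs_of_nonneg (Real.sqrt_nonneg a)] using this
  · rw [integral_prod _ i1]
    simp only [integral_const, probReal_univ, smul_eq_mul, one_mul, integral_const_mul]
    exact mul_le_mul_of_nonneg_left gam_norm (Real.sqrt_nonneg _)

theorem shift1 {W : E d → ℝ} {lo hi : ℝ} (hlo : 0 < lo) (h : HessB W lo hi) {f : E d → ℝ}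
    (hf : Measurable f) (h0 : ∀ y, 0 ≤ f y) (h1 : ∀ y, f y ≤ 1) (k : E d) :
    ∫ y, f y ∂(gibbs W) - ∫ y, f (y + k) ∂(gibbs W) ≤
      ‖k‖ * ∫ y, ‖gradient W y‖ ∂(gibbs W) + |hi| * ‖k‖ ^ 2 := by
  have := h.prob hlo
  have hgc := (contDiff_gradient h.1).continuous
  have hpg : PG (fun y => ‖gradient W y‖) := (h.pg_grad hlo.le).of_le 1 fun y => by simp
  have ig : Integrable (fun y => ‖gradient W y‖) (gibbs W) := h.integrable hlo hgc.norm hpg
  have e : ‖k‖ * ∫ y, ‖gradient W y‖ ∂(gibbs W) + |hi| * ‖k‖ ^ 2 =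
      ∫ y, (‖k‖ * ‖gradient W y‖ + |hi| * ‖k‖ ^ 2) ∂(gibbs W) := by
    rw [integral_add (ig.const_mul _) (integrable_const _), integral_const_mul]; simp
  rw [e, h.integral_eq hlo, h.integral_eq hlo, h.integral_eq hlo, ← smul_sub]
  refine smul_le_smul_of_nonneg_left ?_ (inv_nonneg.2 (h.Z_pos hlo).le)
  have e2 : ∫ y, Real.exp (-W y) • f (y + k) = ∫ y, Real.exp (-W (y - k)) • f y := by
    rw [← integral_add_right_eq_self (fun y => Real.exp (-W (y - k)) • f y) k]; simp
  have iW := h.integrable_exp' hlo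
  have hb : ∀ y, ‖f y‖ ≤ 1 := fun y => by rw [Real.norm_eq_abs, abs_of_nonneg (h0 y)]; exact h1 y
  have i1 : Integrable fun y => Real.exp (-W y) • f y :=
    iW.mul_bdd hf.aestronglyMeasurable (Eventually.of_forall hb)
  have i2 : Integrable fun y => Real.exp (-W (y - k)) • f y :=
    (iW.comp_sub_right k).mul_bdd hf.aestronglyMeasurable (Eventually.of_forall hb)
  rw [e2, ← integral_sub i1 i2]
  refine integral_mono (i1.sub i2) (h.integrable_exp hlo (by fun_prop)
    (((PG.const _).mul hpg).add (PG.const _))) fun y => ?_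
  have a1 := h.lower (y - k) y
  have a2 := h.lip hlo.le (y - k) y
  have a3 := abs_real_inner_le_norm (gradient W (y - k)) (y - (y - k))
  have a4 := norm_sub_norm_le (gradient W (y - k)) (gradient W y)
  have a5 : ‖y - k - y‖ = ‖k‖ := by simp
  have a6 : ‖y - (y - k)‖ = ‖k‖ := by simp
  rw [a5] at a2
  rw [a6] at a1 a3
  have a7 : W (y - k) - W y ≤ ‖k‖ * ‖gradient W y‖ + |hi| * ‖k‖ ^ 2 := by
    have := neg_abs_le (inner ℝ (gradient W (y - k)) (y - (y - k)))
    have b1 : ‖gradient W (y - k)‖ * ‖k‖ ≤ (‖gradient W y‖ + |hi| * ‖k‖) * ‖k‖ :=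
      mul_le_mul_of_nonneg_right (by linarith) (norm_nonneg _)
    nlinarith [mul_nonneg hlo.le (sq_nonneg ‖k‖)]
  have a8 : Real.exp (-W y) * (1 - (W (y - k) - W y)) ≤ Real.exp (-W (y - k)) := by
    have := Real.add_one_le_exp (-(W (y - k) - W y))
    calc _ ≤ Real.exp (-W y) * Real.exp (-(W (y - k) - W y)) :=
          mul_le_mul_of_nonneg_left (by linarith) (Real.exp_pos _).le
      _ = _ := by rw [← Real.exp_add]; congr 1; ring
  simp only [smul_eq_mul]
  have a9 : 0 ≤ ‖k‖ * ‖gradient W y‖ + |hi| * ‖k‖ ^ 2 := by positivity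
  have a10 : Real.exp (-W y) - Real.exp (-W (y - k)) ≤
      Real.exp (-W y) * (‖k‖ * ‖gradient W y‖ + |hi| * ‖k‖ ^ 2) := by
    nlinarith [mul_le_mul_of_nonneg_left a7 (Real.exp_pos (-W y)).le]
  have a11 := mul_le_mul_of_nonneg_right a10 (h0 y)
  have a12 := mul_le_mul_of_nonneg_left (h1 y) (mul_nonneg (Real.exp_pos (-W y)).le a9)
  nlinarith

theorem shift {W : E d → ℝ} {lo hi G : ℝ} (hlo : 0 < lo) (h : HessB W lo hi)
    (hG : ∫ y, ‖gradient W y‖ ∂(gibbs W) ≤ G) {f : E d → ℝ}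
    (hf : Measurable f) (h0 : ∀ y, 0 ≤ f y) (h1 : ∀ y, f y ≤ 1) (k : E d) :
    |∫ y, f (y + k) ∂(gibbs W) - ∫ y, f y ∂(gibbs W)| ≤ (G + |hi| + 1) * ‖k‖ := by
  have := h.prob hlo
  have hb : ∀ y, |f y| ≤ 1 := fun y => by rw [abs_of_nonneg (h0 y)]; exact h1 y
  have i1 : Integrable f (gibbs W) := integrable_bdd _ hf.aestronglyMeasurable hb
  have i2 : Integrable (fun y => f (y + k)) (gibbs W) :=
    integrable_bdd _ (hf.comp (by fun_prop)).aestronglyMeasurable fun y => hb _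
  have hG0 : 0 ≤ G := (integral_nonneg fun y => norm_nonneg _).trans hG
  rcases le_total ‖k‖ 1 with hk | hk
  · have s1 := shift1 hlo h hf h0 h1 k
    have s2 := shift1 hlo h (f := fun y => 1 - f y) (measurable_const.sub hf)
      (fun y => by linarith [h1 y]) (fun y => by linarith [h0 y]) k
    rw [integral_sub (integrable_const _) i1, integral_sub (integrable_const _) i2] at s2
    have b1 := mul_le_mul_of_nonneg_left hG (norm_nonneg k)
    have b2 : |hi| * ‖k‖ ^ 2 ≤ |hi| * ‖k‖ :=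
      mul_le_mul_of_nonneg_left (by nlinarith [norm_nonneg k]) (abs_nonneg _)
    rw [abs_le]
    constructor <;> nlinarith [norm_nonneg k]
  · have := abs_integral_sub_le (gibbs W) i2 i1 (c := 1) fun y => by
      rw [abs_le]; constructor <;> linarith [h0 y, h1 y, h0 (y + k), h1 (y + k)]
    nlinarith [abs_nonneg hi]

theorem fin_tv {V : E d → ℝ} (hV : Admissible d V) {μ : Measure (E d)} [IsProbabilityMeasure μ]
    {η s : ℝ} (h : DL μ (gibbs V) η) (hs : 0 < s) (B : Set (E d)) (hB : MeasurableSet B) :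
    |((μ.bind fun y => gaussN y s) B).toReal - (gibbs V B).toReal| ≤
      (√(d : ℝ) + 2) / s * η + (2 * √(d : ℝ) + 3) * (s * √(d : ℝ)) := by
  obtain ⟨-, hH, -⟩ := gFacts d V hV
  have := hH.prob one_pos
  obtain ⟨hK, hp⟩ := ImplX.meas (noise_impl (d := d) s) V hV.1
  have := bind_prob μ hK hp
  set f : E d → ℝ := B.indicator 1 with hfdef
  have hf : Measurable f := measurable_one.indicator hB
  have h0 : ∀ y, 0 ≤ f y := fun y => Set.indicator_nonneg (fun _ _ => zero_le_one) y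
  have h1 : ∀ y, f y ≤ 1 := fun y => Set.indicator_le_self' (fun _ _ => zero_le_one) y
  have hb : ∀ y, |f y| ≤ 1 := fun y => by rw [abs_of_nonneg (h0 y)]; exact h1 y
  have e1 : ∀ ν : Measure (E d), (ν B).toReal = ∫ y, f y ∂ν := fun ν => by
    rw [hfdef, integral_indicator_one hB]; rfl
  rw [e1, e1, integral_bind μ hK (integrable_bdd _ hf.aestronglyMeasurable hb)]
  have e2 : ∀ x, ∫ y, f y ∂(gaussN x s) = ∫ z, f (x + s • z) ∂(gam d) := fun x => by
    rw [gaussN, integral_map (by fun_prop) hf.aestronglyMeasurable]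
  simp only [e2]
  have hg1 : ∫ y, ‖gradient (fun z : E d => ‖z‖ ^ 2 / 2) y‖ ∂(gam d) ≤ √(d : ℝ) := by
    refine le_trans (le_of_eq ?_) gam_norm
    congr 1; funext y
    have := (hessB_zero.add_quad (0 : E d) 1).2 y
    simp only [zero_add, sub_zero, mul_one, inv_one, one_smul] at this
    rw [this]; simp
  have hlip : ∀ x y, |∫ z, f (x + s • z) ∂(gam d) - ∫ z, f (y + s • z) ∂(gam d)| ≤
      (√(d : ℝ) + 2) / s * ‖x - y‖ := fun x y => by
    have := shift one_pos hessB_gam hg1 (f := fun z => f (y + s • z)) (hf.comp (by fun_prop))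
      (fun z => h0 _) (fun z => h1 _) (s⁻¹ • (x - y))
    have e3 : ∀ z, y + s • (z + s⁻¹ • (x - y)) = x + s • z := fun z => by
      rw [smul_add, smul_smul, mul_inv_cancel₀ hs.ne', one_smul]; abel
    simp only [e3] at this
    refine this.trans (le_of_eq ?_)
    rw [norm_smul, Real.norm_eq_abs, abs_of_pos (inv_pos.2 hs), abs_one]
    field_simp; ring
  have a1 := DL_lip h (by positivity) hlip (M := 1) fun x => abs_integral_bdd _ fun z => hb _
  have hg2 : ∫ y, ‖gradient V y‖ ∂(gibbs V) ≤ 2 * √(d : ℝ) := by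
    have m := mom_le one_pos hH 0
    rw [hV.2.2.1] at m
    simp only [sub_zero, norm_zero, Real.sqrt_one, div_one, zero_add] at m
    have i1 : Integrable (fun y : E d => ‖y‖) (gibbs V) := hH.integrable one_pos (by fun_prop) pg_norm
    calc _ ≤ ∫ y, 2 * ‖y‖ ∂(gibbs V) :=
          integral_mono_of_nonneg (Eventually.of_forall fun y => norm_nonneg _) (i1.const_mul _)
            (Eventually.of_forall fun y => by
              have := hH.lip zero_le_one y 0
              rw [hV.2.2.1] at this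
              simpa using this)
      _ ≤ _ := by rw [integral_const_mul]; linarith
  have ij : Integrable (Function.uncurry fun x z : E d => f (x + s • z)) ((gibbs V).prod (gam d)) :=
    integrable_bdd _ (hf.comp (by fun_prop)).aestronglyMeasurable fun q => hb _
  have a2 : |∫ x, ∫ z, f (x + s • z) ∂(gam d) ∂(gibbs V) - ∫ y, f y ∂(gibbs V)| ≤
      (2 * √(d : ℝ) + 3) * (s * √(d : ℝ)) := by
    have e4 : ∫ y, f y ∂(gibbs V) = ∫ _, ∫ y, f y ∂(gibbs V) ∂(gam d) := by simp
    have i4 : Integrable (fun z => ∫ x, f (x + s • z) ∂(gibbs V)) (gam d) := ij.integral_prod_right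
    rw [integral_integral_swap ij, e4, ← integral_sub i4 (integrable_const _)]
    have i3 : Integrable (fun z : E d => (2 * √(d : ℝ) + 3) * (s * ‖z‖)) (gam d) :=
      (gam_int_norm.const_mul _).const_mul _
    refine (abs_integral_le i3 fun z => ?_).trans ?_
    · have := shift one_pos hH hg2 hf h0 h1 (s • z)
      rw [norm_smul, Real.norm_eq_abs, abs_of_pos hs, abs_two] at this
      refine this.trans (le_of_eq ?_); ring
    · rw [integral_const_mul, integral_const_mul]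
      exact mul_le_mul_of_nonneg_left (mul_le_mul_of_nonneg_left gam_norm hs.le) (by positivity)
  have := abs_sub_le (∫ x, ∫ z, f (x + s • z) ∂(gam d) ∂μ)
    (∫ x, ∫ z, f (x + s • z) ∂(gam d) ∂(gibbs V)) (∫ y, f y ∂(gibbs V))
  linarith

end FinX

end Crest.Agent.LCS
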