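import Crest.Agent.LCS.Gibbs
import Crest.Agent.H0082.PL

/-! JOB A3: the Poincaré inequality for strongly log-concave measures. -/

set_option autoImplicit false
open MeasureTheory Filter Topology

namespace Crest.Agent.LCS

variable {d : ℕ}

theorem pg_of_bdd {f : E d → ℝ} (M : ℝ) (h : ∀ y, |f y| ≤ M) : PG f :=
  ⟨M, 0, fun y => by simpa using h y⟩

theorem PG.abs {f : E d → ℝ} (hf : PG f) : PG (fun y => |f y|) :=
  hf.of_le 1 fun y => by simp

theorem PG.cmul {f : E d → ℝ} (hf : PG f) (c : ℝ) : PG (fun y => c * f y) :=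
  (PG.const c).mul hf

theorem PG.pow {f : E d → ℝ} (hf : PG f) (n : ℕ) : PG (fun y => f y ^ n) := by
  induction n with
  | zero => simpa using PG.const (Y := E d) (1 : ℝ)
  | succ n ih => simpa [pow_succ] using ih.mul hf

/-- property (τ) from Prékopa–Leindler -/
theorem tau_prop {W : E d → ℝ} {lo hi : ℝ} (hlo : 0 < lo) (h : HessB W lo hi) {u v : E d → ℝ}
    (hu : Continuous u) (hv : Continuous v) (M : ℝ) (huM : ∀ x, u x ≤ M) (hvM : ∀ x, v x ≤ M)
    (huv : ∀ x y, u x + v y ≤ lo / 4 * ‖x - y‖ ^ 2) :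
    (∫ x, Real.exp (u x) ∂(gibbs W)) * (∫ x, Real.exp (v x) ∂(gibbs W)) ≤ 1 := by
  have hWc := h.1.continuous
  have key : ∀ w : E d → ℝ, Continuous w → (∀ x, w x ≤ M) →
      Integrable (fun y => Real.exp (-W y) * Real.exp (w y)) := by
    intro w hw hwM
    exact h.integrable_exp hlo (f := fun y => Real.exp (w y)) (by fun_prop)
      (pg_of_bdd (Real.exp M) fun y => by
        rw [abs_of_pos (Real.exp_pos _)]; exact Real.exp_le_exp.2 (hwM y))
  have hpl := Crest.Agent.H0082.pl_euclid d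
    (fun y => ENNReal.ofReal (Real.exp (-W y) * Real.exp (u y)))
    (fun y => ENNReal.ofReal (Real.exp (-W y) * Real.exp (v y)))
    (fun y => ENNReal.ofReal (Real.exp (-W y)))
    (by fun_prop) (by fun_prop) (by fun_prop) (by
      intro x y
      rw [← ENNReal.ofReal_mul (by positivity), ← ENNReal.ofReal_pow (by positivity)]
      refine ENNReal.ofReal_le_ofReal ?_
      rw [← Real.exp_add, ← Real.exp_add, ← Real.exp_add, sq, ← Real.exp_add]
      refine Real.exp_le_exp.2 ?_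
      set m : E d := (1 / 2 : ℝ) • (x + y) with hm
      have h1 := h.lower m x
      have h2 := h.lower m y
      have e1 : x - m = (1 / 2 : ℝ) • (x - y) := by rw [hm]; module
      have e2 : y - m = -((1 / 2 : ℝ) • (x - y)) := by rw [hm]; module
      rw [e1] at h1
      rw [e2, inner_neg_right, norm_neg] at h2
      rw [norm_smul] at h1 h2
      have := huv x y
      have e3 : ‖(1 / 2 : ℝ)‖ = 1 / 2 := by norm_num
      rw [e3] at h1 h2
      nlinarith)
  rw [← ofReal_integral_eq_lintegral_ofReal (key u hu huM) (Eventually.of_forall fun y => by positivity),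
    ← ofReal_integral_eq_lintegral_ofReal (key v hv hvM) (Eventually.of_forall fun y => by positivity),
    ← ofReal_integral_eq_lintegral_ofReal (h.integrable_exp' hlo)
      (Eventually.of_forall fun y => by positivity),
    ← ENNReal.ofReal_mul (integral_nonneg fun y => by positivity),
    ← ENNReal.ofReal_pow (h.Z_pos hlo).le, ENNReal.ofReal_le_ofReal_iff (by positivity)] at hpl
  rw [h.integral_eq hlo, h.integral_eq hlo]
  simp only [smul_eq_mul]
  have hZ := h.Z_pos hlo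
  set Z := ∫ y, Real.exp (-W y)
  calc _ = Z⁻¹ ^ 2 * ((∫ y, Real.exp (-W y) * Real.exp (u y)) *
        ∫ y, Real.exp (-W y) * Real.exp (v y)) := by ring
    _ ≤ Z⁻¹ ^ 2 * Z ^ 2 := by gcongr
    _ = 1 := by field_simp

theorem exp_lower (u : ℝ) : 1 + u + u ^ 2 / 2 - |u| ^ 3 ≤ Real.exp u := by
  rcases le_total 0 u with hu | hu
  · have := Real.quadratic_le_exp_of_nonneg hu
    have : 0 ≤ |u| ^ 3 := by positivity
    linarith
  · rw [abs_of_nonpos hu]
    rcases le_total u (-1) with h1 | h1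
    · have := Real.exp_pos u
      nlinarith [sq_nonneg u, mul_nonneg (neg_nonneg.2 hu) (sq_nonneg u)]
    · have h2 := Real.exp_bound (x := u) (by rw [abs_of_nonpos hu]; linarith) (n := 3) (by norm_num)
      rw [abs_of_nonpos hu] at h2
      simp only [Finset.sum_range_succ, Finset.range_zero, Finset.sum_empty] at h2
      have h3 := (abs_le.1 h2).1
      have h4 : 0 ≤ (-u) ^ 3 := pow_nonneg (neg_nonneg.2 hu) 3
      norm_num [Nat.factorial] at h3
      nlinarith

/-- core estimate -/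
theorem po_core {W : E d → ℝ} {lo hi : ℝ} (hlo : 0 < lo) (h : HessB W lo hi) {f H : E d → ℝ}
    (hf : Continuous f) (M : ℝ) (hfM : ∀ x, |f x| ≤ M) (hH : Continuous H) (hHp : PG H)
    (hH0 : ∀ x, 0 ≤ H x) {δ : ℝ} (hδ : 0 < δ)
    (hfH : ∀ x y, ‖x - y‖ ≤ δ → (f x - f y) ^ 2 ≤ lo * ‖x - y‖ ^ 2 * (H x + H y)) :
    ∫ y, f y ^ 2 ∂(gibbs W) - (∫ y, f y ∂(gibbs W)) ^ 2 ≤ 2 * ∫ y, H y ∂(gibbs W) := by
  have := h.prob hlo
  have hfp : PG f := pg_of_bdd M hfM
  have hM : 0 ≤ M := (abs_nonneg _).trans (hfM 0)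
  set R : E d → ℝ := fun y => (|f y| + H y) ^ 2 + (|f y| + H y) ^ 3 with hR
  have hRp : PG R := ((hfp.abs.add hHp).pow 2).add ((hfp.abs.add hHp).pow 3)
  have hRc : Continuous R := by fun_prop
  have i1 := h.integrable hlo hf hfp
  have i2 := h.integrable hlo (f := fun y => f y ^ 2) (by fun_prop) (hfp.pow 2)
  have i3 := h.integrable hlo hH hHp
  have i4 := h.integrable hlo hRc hRp
  set m := ∫ y, f y ∂(gibbs W)
  set s := ∫ y, f y ^ 2 ∂(gibbs W)
  set η := ∫ y, H y ∂(gibbs W)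
  set ρ := ∫ y, R y ∂(gibbs W)
  have low : ∀ σ ε : ℝ, |σ| = 1 → 0 < ε → ε ≤ 1 →
      1 + σ * ε * m + ε ^ 2 * (s / 2 - η) - ε ^ 3 * ρ ≤
        ∫ y, Real.exp (σ * ε * f y - ε ^ 2 * H y) ∂(gibbs W) := by
    intro σ ε hσ hε hε1
    have hσ2 : σ ^ 2 = 1 := by rw [← sq_abs, hσ]; norm_num
    have e1 : 1 + σ * ε * m + ε ^ 2 * (s / 2 - η) - ε ^ 3 * ρ =
        ∫ y, (1 + σ * ε * f y + ε ^ 2 / 2 * f y ^ 2 - ε ^ 2 * H y - ε ^ 3 * R y) ∂(gibbs W) := by
      rw [integral_sub, integral_sub, integral_add, integral_add, integral_const_mul,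
        integral_const_mul, integral_const_mul, integral_const_mul]
      · simp; ring
      · exact integrable_const _
      · exact i1.const_mul _
      · exact (integrable_const _).add (i1.const_mul _)
      · exact i2.const_mul _
      · exact ((integrable_const _).add (i1.const_mul _)).add (i2.const_mul _)
      · exact i3.const_mul _
      · exact (((integrable_const _).add (i1.const_mul _)).add (i2.const_mul _)).sub
          (i3.const_mul _)
      · exact i4.const_mul _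
    rw [e1]
    refine integral_mono (((((integrable_const _).add (i1.const_mul _)).add (i2.const_mul _)).sub
          (i3.const_mul _)).sub (i4.const_mul _)) ?_ fun y => ?_
    · refine h.integrable hlo (by fun_prop) (pg_of_bdd (Real.exp M) fun y => ?_)
      rw [abs_of_pos (Real.exp_pos _)]
      refine Real.exp_le_exp.2 ?_
      have h1 : σ * ε * f y ≤ M := by
        refine (le_abs_self _).trans ?_
        rw [abs_mul, abs_mul, hσ, abs_of_pos hε, one_mul]
        nlinarith [hfM y, abs_nonneg (f y)]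
      nlinarith [hH0 y, sq_nonneg ε]
    · refine le_trans ?_ (exp_lower _)
      have hy := hH0 y
      have ha := abs_nonneg (f y)
      have h1 : |σ * ε * f y - ε ^ 2 * H y| ≤ ε * (|f y| + H y) := by
        refine (abs_sub _ _).trans ?_
        rw [abs_mul, abs_mul, hσ, abs_of_pos hε, one_mul,
          abs_of_nonneg (a := ε ^ 2 * H y) (by positivity)]
        nlinarith [mul_nonneg hε.le hy]
      have h2 : |σ * ε * f y - ε ^ 2 * H y| ^ 3 ≤ ε ^ 3 * (|f y| + H y) ^ 3 := by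
        rw [← mul_pow]; gcongr
      have h3 : σ * f y * H y ≤ (|f y| + H y) ^ 2 := by
        have : σ * f y ≤ |f y| := by
          refine (le_abs_self _).trans ?_
          rw [abs_mul, hσ, one_mul]
        nlinarith [mul_le_mul_of_nonneg_right this hy]
      have h4 : (σ * ε * f y - ε ^ 2 * H y) ^ 2 =
          ε ^ 2 * f y ^ 2 - 2 * ε ^ 3 * (σ * f y * H y) + (ε ^ 2 * H y) ^ 2 := by
        have : (σ * ε * f y - ε ^ 2 * H y) ^ 2 =
          σ ^ 2 * ε ^ 2 * f y ^ 2 - 2 * ε ^ 3 * (σ * f y * H y) + (ε ^ 2 * H y) ^ 2 := by ring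
        rw [this, hσ2, one_mul]
      have h5 : ε ^ 3 * (σ * f y * H y) ≤ ε ^ 3 * (|f y| + H y) ^ 2 := by gcongr
      simp only [hR]
      rw [h4]
      nlinarith [sq_nonneg (ε ^ 2 * H y)]
  have main : ∀ᶠ ε in 𝓝[>] (0 : ℝ), 2 * (s / 2 - η) - m ^ 2 ≤ 2 * ε * ρ := by
    have t1 : ∀ σ : ℝ, ∀ᶠ ε in 𝓝[>] (0 : ℝ),
        0 < 1 + σ * ε * m + ε ^ 2 * (s / 2 - η) - ε ^ 3 * ρ := by
      intro σ
      have : ContinuousAt (fun ε : ℝ => 1 + σ * ε * m + ε ^ 2 * (s / 2 - η) - ε ^ 3 * ρ) 0 := by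
        fun_prop
      exact (this.eventually (lt_mem_nhds (by simp))).filter_mono nhdsWithin_le_nhds
    have t2 : ∀ᶠ ε in 𝓝[>] (0 : ℝ), ε * (2 * M) < lo / 4 * δ ^ 2 := by
      have : ContinuousAt (fun ε : ℝ => ε * (2 * M)) 0 := by fun_prop
      exact (this.eventually (gt_mem_nhds (by simp; positivity))).filter_mono nhdsWithin_le_nhds
    have t3 : ∀ᶠ ε in 𝓝[>] (0 : ℝ), ε ∈ Set.Ioc (0 : ℝ) 1 := Ioc_mem_nhdsGT one_pos
    filter_upwards [t1 1, t1 (-1), t2, t3] with ε a1 a2 a3 ⟨hε, hε1⟩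
    have b1 := low 1 ε (by simp) hε hε1
    have b2 := low (-1) ε (by simp) hε hε1
    have bound : ∀ σ : ℝ, |σ| = 1 → ∀ x, σ * ε * f x - ε ^ 2 * H x ≤ M := by
      intro σ hσ y
      have h1 : σ * ε * f y ≤ M := by
        refine (le_abs_self _).trans ?_
        rw [abs_mul, abs_mul, hσ, abs_of_pos hε, one_mul]
        nlinarith [hfM y, abs_nonneg (f y)]
      nlinarith [hH0 y, sq_nonneg ε]
    have b3 := tau_prop hlo h (u := fun y => 1 * ε * f y - ε ^ 2 * H y)
      (v := fun y => -1 * ε * f y - ε ^ 2 * H y) (by fun_prop) (by fun_prop) M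
      (bound 1 (by simp)) (bound (-1) (by simp)) (by
        intro x y
        have hx := hH0 x
        have hy := hH0 y
        rcases le_total ‖x - y‖ δ with hxy | hxy
        · have c1 := hfH x y hxy
          have c2 : (ε * (f x - f y)) ^ 2 ≤ (lo / 4 * ‖x - y‖ ^ 2 + ε ^ 2 * (H x + H y)) ^ 2 := by
            have : (ε * (f x - f y)) ^ 2 ≤ ε ^ 2 * (lo * ‖x - y‖ ^ 2 * (H x + H y)) := by
              rw [mul_pow]; gcongr
            nlinarith [sq_nonneg (lo / 4 * ‖x - y‖ ^ 2 - ε ^ 2 * (H x + H y))]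
          have c3 := (abs_le_of_sq_le_sq' c2 (by positivity)).2
          linarith
        · have c1 : δ ^ 2 ≤ ‖x - y‖ ^ 2 := by gcongr
          have c2 : f x - f y ≤ 2 * M := by
            linarith [(abs_le.1 (hfM x)).2, (abs_le.1 (hfM y)).1]
          have c3 : ε * (f x - f y) ≤ ε * (2 * M) := by gcongr
          have c4 : lo / 4 * δ ^ 2 ≤ lo / 4 * ‖x - y‖ ^ 2 := by gcongr
          nlinarith [mul_nonneg (sq_nonneg ε) hx, mul_nonneg (sq_nonneg ε) hy])
    have b4 := (mul_le_mul b1 b2 a2.le (a1.le.trans b1)).trans b3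
    have b5 : ε ^ 2 * (2 * (s / 2 - η) - m ^ 2 - 2 * ε * ρ) ≤ 0 := by
      nlinarith [sq_nonneg (ε ^ 2 * (s / 2 - η) - ε ^ 3 * ρ)]
    have b6 : 0 < ε ^ 2 := by positivity
    by_contra hc
    push Not at hc
    nlinarith
  have lim : Tendsto (fun ε : ℝ => 2 * ε * ρ) (𝓝[>] 0) (𝓝 0) := by
    have : ContinuousAt (fun ε : ℝ => 2 * ε * ρ) 0 := by fun_prop
    simpa using this.tendsto.mono_left nhdsWithin_le_nhds
  have := ge_of_tendsto lim main
  linarith

theorem po_bdd {W : E d → ℝ} {lo hi : ℝ} (hlo : 0 < lo) (h : HessB W lo hi) {f : E d → ℝ}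
    (hf : ContDiff ℝ 1 f) (M : ℝ) (hfM : ∀ x, |f x| ≤ M) (hp : PG (fderiv ℝ f)) :
    ∫ y, f y ^ 2 ∂(gibbs W) - (∫ y, f y ∂(gibbs W)) ^ 2 ≤
      lo⁻¹ * ∫ y, ‖fderiv ℝ f y‖ ^ 2 ∂(gibbs W) := by
  have hdc : Continuous (fderiv ℝ f) := hf.continuous_fderiv (by simp)
  set K : Set (E d) := Metric.closedBall 0 1 with hK
  have hKc : IsCompact K := isCompact_closedBall _ _
  have hK0 : (0 : E d) ∈ K := Metric.mem_closedBall_self zero_le_one
  set S : ℝ × E d → ℝ := fun q => sSup ((fun z => ‖fderiv ℝ f (q.2 + q.1 • z)‖) '' K) with hS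
  have hSc : Continuous S := hKc.continuous_sSup (by fun_prop)
  have hle : ∀ q z, z ∈ K → ‖fderiv ℝ f (q.2 + q.1 • z)‖ ≤ S q := fun q z hz =>
    le_csSup (hKc.image (by fun_prop)).bddAbove ⟨z, hz, rfl⟩
  have hS0 : ∀ q, 0 ≤ S q := fun q => (norm_nonneg _).trans (hle q 0 hK0)
  obtain ⟨C, n, hC⟩ := hp
  have hC0 : 0 ≤ C := by simpa using (norm_nonneg _).trans (hC 0)
  have hSb : ∀ δ x, |δ| ≤ 1 → S (δ, x) ≤ C * 2 ^ n * (1 + ‖x‖) ^ n := by
    intro δ x hδ
    refine csSup_le ⟨_, 0, hK0, rfl⟩ ?_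
    rintro _ ⟨z, hz, rfl⟩
    refine (hC _).trans ?_
    rw [mul_assoc, ← mul_pow]
    have h1 : ‖z‖ ≤ 1 := by simpa [hK] using hz
    have h2 : ‖x + δ • z‖ ≤ ‖x‖ + 1 := by
      refine (norm_add_le _ _).trans ?_
      rw [norm_smul, Real.norm_eq_abs]
      nlinarith [abs_nonneg δ, norm_nonneg z]
    gcongr
    linarith [norm_nonneg x]
  have hSz : ∀ x, S (0, x) = ‖fderiv ℝ f x‖ := by
    intro x
    simp only [hS, zero_smul, add_zero]
    rw [Set.Nonempty.image_const ⟨0, hK0⟩, csSup_singleton]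
  have step : ∀ δ : ℝ, 0 < δ → δ ≤ 1 →
      ∫ y, f y ^ 2 ∂(gibbs W) - (∫ y, f y ∂(gibbs W)) ^ 2 ≤
        lo⁻¹ * ∫ y, S (δ, y) ^ 2 ∂(gibbs W) := by
    intro δ hδ hδ1
    have hp1 : PG (fun y => S (δ, y)) := ⟨C * 2 ^ n, n, fun y => by
      rw [Real.norm_eq_abs, abs_of_nonneg (hS0 _)]
      exact hSb δ y (by rwa [abs_of_pos hδ])⟩
    have := po_core hlo h hf.continuous M hfM (H := fun y => (2 * lo)⁻¹ * S (δ, y) ^ 2)
      (by fun_prop) ((hp1.pow 2).cmul _) (fun x => by positivity) hδ (by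
        have one : ∀ x y : E d, ‖x - y‖ ≤ δ → |f x - f y| ≤ S (δ, y) * ‖x - y‖ := by
          intro x y hxy
          refine Convex.norm_image_sub_le_of_norm_fderiv_le (𝕜 := ℝ) (s := Metric.closedBall y δ)
            (fun z _ => hf.differentiable (by simp) z) (fun z hz => ?_) (convex_closedBall _ _)
            (Metric.mem_closedBall_self hδ.le) (by rwa [mem_closedBall_iff_norm])
          have := hle (δ, y) (δ⁻¹ • (z - y)) (by
            rw [hK, mem_closedBall_zero_iff, norm_smul, Real.norm_eq_abs, abs_of_pos (by positivity)]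
            rw [mem_closedBall_iff_norm] at hz
            rw [inv_mul_le_iff₀ hδ]; linarith)
          simpa [smul_smul, mul_inv_cancel₀ hδ.ne'] using this
        intro x y hxy
        have a1 := one x y hxy
        have a2 := one y x (by rwa [norm_sub_rev])
        rw [abs_sub_comm, norm_sub_rev] at a2
        have b1 : (f x - f y) ^ 2 ≤ (S (δ, y) * ‖x - y‖) ^ 2 := by
          rw [← sq_abs]; gcongr
        have b2 : (f x - f y) ^ 2 ≤ (S (δ, x) * ‖x - y‖) ^ 2 := by
          rw [← sq_abs]; gcongr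
        have e : lo * ‖x - y‖ ^ 2 * ((2 * lo)⁻¹ * S (δ, x) ^ 2 + (2 * lo)⁻¹ * S (δ, y) ^ 2) =
            ((S (δ, x) * ‖x - y‖) ^ 2 + (S (δ, y) * ‖x - y‖) ^ 2) / 2 := by
          field_simp
        rw [e]; linarith)
    rw [integral_const_mul] at this
    refine this.trans (le_of_eq ?_)
    field_simp
  have lim : Tendsto (fun δ : ℝ => lo⁻¹ * ∫ y, S (δ, y) ^ 2 ∂(gibbs W)) (𝓝[>] 0)
      (𝓝 (lo⁻¹ * ∫ y, ‖fderiv ℝ f y‖ ^ 2 ∂(gibbs W))) := by
    refine Tendsto.const_mul _ ?_
    refine tendsto_integral_filter_of_dominated_convergence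
      (fun y => (C * 2 ^ n * (1 + ‖y‖) ^ n) ^ 2)
      (Eventually.of_forall fun δ => (by fun_prop : Continuous fun y => S (δ, y) ^ 2).aestronglyMeasurable)
      ?_ ?_ (Eventually.of_forall fun y => ?_)
    · filter_upwards [Ioc_mem_nhdsGT (one_pos (α := ℝ))] with δ hδ
      refine Eventually.of_forall fun y => ?_
      rw [Real.norm_eq_abs, abs_of_nonneg (sq_nonneg _)]
      exact pow_le_pow_left₀ (hS0 _) (hSb δ y (by rw [abs_of_pos hδ.1]; exact hδ.2)) 2
    · refine h.integrable hlo (by fun_prop) (PG.pow ⟨C * 2 ^ n, n, fun y => ?_⟩ 2)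
      rw [Real.norm_eq_abs, abs_of_nonneg (by positivity)]
    · rw [← hSz y]
      have : ContinuousAt (fun δ : ℝ => S (δ, y) ^ 2) 0 := by fun_prop
      exact this.tendsto.mono_left nhdsWithin_le_nhds
  refine ge_of_tendsto lim ?_
  filter_upwards [Ioc_mem_nhdsGT (one_pos (α := ℝ))] with δ hδ using step δ hδ.1 hδ.2

theorem abs_arctan_le (t : ℝ) : |Real.arctan t| ≤ |t| := by
  have h : ∀ t : ℝ, 0 ≤ t → Real.arctan t ≤ t := by
    intro t ht
    have h1 := Real.le_tan (Real.arctan_nonneg.2 ht) (Real.arctan_lt_pi_div_two t)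
    rwa [Real.tan_arctan] at h1
  rcases le_total 0 t with ht | ht
  · rw [abs_of_nonneg ht, abs_of_nonneg (Real.arctan_nonneg.2 ht)]; exact h t ht
  · have := h (-t) (by linarith)
    rw [Real.arctan_neg] at this
    rw [abs_of_nonpos ht, abs_of_nonpos (by simpa using Real.arctan_mono ht)]; exact this

theorem po : PO := by
  intro d W lo hi hlo h f hf hp hp'
  have hfc := hf.continuous
  have hdc : Continuous (fderiv ℝ f) := hf.continuous_fderiv (by simp)
  set g : ℝ → E d → ℝ := fun ε y => ε⁻¹ * Real.arctan (ε * f y) with hg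
  have hgle : ∀ ε, 0 < ε → ∀ y, |g ε y| ≤ |f y| := by
    intro ε hε y
    simp only [hg]
    rw [abs_mul, abs_of_pos (inv_pos.2 hε), inv_mul_le_iff₀ hε]
    refine (abs_arctan_le _).trans ?_
    rw [abs_mul, abs_of_pos hε]
  have hgc : ∀ ε, Continuous (g ε) := fun ε =>
    continuous_const.mul (Real.continuous_arctan.comp (by fun_prop))
  have hglim : ∀ y, Tendsto (fun ε => g ε y) (𝓝[>] 0) (𝓝 (f y)) := by
    intro y
    have h1 : HasDerivAt (fun ε : ℝ => Real.arctan (ε * f y)) (f y) 0 := by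
      have := ((hasDerivAt_id (0 : ℝ)).mul_const (f y)).arctan
      simpa using this
    have h2 := h1.tendsto_slope_zero_right
    simpa [hg] using h2
  have step : ∀ ε, 0 < ε → ∫ y, g ε y ^ 2 ∂(gibbs W) - (∫ y, g ε y ∂(gibbs W)) ^ 2 ≤
      lo⁻¹ * ∫ y, ‖fderiv ℝ f y‖ ^ 2 ∂(gibbs W) := by
    intro ε hε
    have hd : ∀ y, HasFDerivAt (g ε) ((1 + (ε * f y) ^ 2)⁻¹ • fderiv ℝ f y) y := by
      intro y
      have h1 := (((hf.differentiable (by simp) y).hasFDerivAt.const_mul ε).arctan).const_mul ε⁻¹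
      refine h1.congr_fderiv ?_
      rw [smul_smul, smul_smul]
      congr 1
      field_simp
    have hn : ∀ y, ‖fderiv ℝ (g ε) y‖ ≤ ‖fderiv ℝ f y‖ := by
      intro y
      rw [(hd y).fderiv, norm_smul, Real.norm_eq_abs, abs_of_pos (by positivity)]
      refine mul_le_of_le_one_left (norm_nonneg _) (inv_le_one_of_one_le₀ ?_)
      nlinarith [sq_nonneg (ε * f y)]
    have hg1 : ContDiff ℝ 1 (g ε) :=
      contDiff_const.mul (Real.contDiff_arctan.comp (contDiff_const.mul hf))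
    have hpg : PG (fderiv ℝ (g ε)) := hp'.of_le 1 fun y => by simpa using hn y
    refine (po_bdd hlo h hg1 (ε⁻¹ * (Real.pi / 2)) (fun y => ?_) hpg).trans ?_
    · simp only [hg]
      rw [abs_mul, abs_of_pos (inv_pos.2 hε)]
      gcongr
      exact abs_le.2 ⟨(Real.neg_pi_div_two_lt_arctan _).le, (Real.arctan_lt_pi_div_two _).le⟩
    · have hdc' : Continuous (fderiv ℝ (g ε)) := hg1.continuous_fderiv (by simp)
      refine mul_le_mul_of_nonneg_left (integral_mono ?_ ?_ fun y => ?_) (by positivity)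
      · exact h.integrable hlo (by fun_prop) (PG.pow (hpg.of_le 1 fun y => by simp) 2)
      · exact h.integrable hlo (by fun_prop) (PG.pow (hp'.of_le 1 fun y => by simp) 2)
      · exact pow_le_pow_left₀ (norm_nonneg _) (hn y) 2
  have l1 : Tendsto (fun ε => ∫ y, g ε y ∂(gibbs W)) (𝓝[>] 0) (𝓝 (∫ y, f y ∂(gibbs W))) := by
    refine tendsto_integral_filter_of_dominated_convergence (fun y => |f y|)
      (Eventually.of_forall fun ε => (hgc ε).aestronglyMeasurable) ?_
      (h.integrable hlo (by fun_prop) hp.abs) (Eventually.of_forall hglim)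
    filter_upwards [self_mem_nhdsWithin] with ε hε using Eventually.of_forall (hgle ε hε)
  have l2 : Tendsto (fun ε => ∫ y, g ε y ^ 2 ∂(gibbs W)) (𝓝[>] 0)
      (𝓝 (∫ y, f y ^ 2 ∂(gibbs W))) := by
    refine tendsto_integral_filter_of_dominated_convergence (fun y => f y ^ 2)
      (Eventually.of_forall fun ε => ((hgc ε).pow 2).aestronglyMeasurable) ?_
      (h.integrable hlo (by fun_prop) (hp.pow 2)) (Eventually.of_forall fun y => (hglim y).pow 2)
    filter_upwards [self_mem_nhdsWithin] with ε hε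
    refine Eventually.of_forall fun y => ?_
    rw [Real.norm_eq_abs, abs_of_nonneg (sq_nonneg _), ← sq_abs, ← sq_abs (f y)]
    exact pow_le_pow_left₀ (abs_nonneg _) (hgle ε hε y) 2
  refine le_of_tendsto (l2.sub (l1.pow 2)) ?_
  filter_upwards [self_mem_nhdsWithin] with ε hε using step ε hε

end Crest.Agent.LCS
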