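import Crest.Agent.LCS.Gibbs

/-! JOB B1, part 0: temperate helpers, `rr`, `aa`, posterior moments, exponential family. -/

set_option autoImplicit false
set_option linter.unusedSectionVars false
open MeasureTheory Function

namespace Crest.Agent.LCS

section Gen
variable {Y : Type} [NormedAddCommGroup Y] [NormedSpace ℝ Y]

theorem pg_of_fderiv {F : Type} [NormedAddCommGroup F] [NormedSpace ℝ F] {f : Y → F}
    (hf : Differentiable ℝ f) (hp : PG (fderiv ℝ f)) : PG f := by
  obtain ⟨C, n, hC⟩ := hp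
  refine ⟨‖f 0‖ + |C|, n + 1, fun y => ?_⟩
  have hy := norm_nonneg y
  have h1 := Convex.norm_image_sub_le_of_norm_fderiv_le (𝕜 := ℝ) (f := f)
    (s := Metric.closedBall 0 ‖y‖) (C := |C| * (1 + ‖y‖) ^ n) (fun z _ => hf z)
    (fun z hz => by
      have h3 : ‖z‖ ≤ ‖y‖ := by simpa using hz
      refine (hC z).trans ((mul_le_mul_of_nonneg_right (le_abs_self C) (by positivity)).trans ?_)
      gcongr) (convex_closedBall _ _)
    (Metric.mem_closedBall_self (norm_nonneg y)) (show y ∈ _ by simp)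
  have h2 := norm_add_le (f y - f 0) (f 0)
  simp only [sub_add_cancel, sub_zero] at h1 h2
  have h4 : (1 : ℝ) ≤ (1 + ‖y‖) ^ (n + 1) := one_le_pow₀ (by linarith)
  have h5 : |C| * (1 + ‖y‖) ^ n * ‖y‖ ≤ |C| * (1 + ‖y‖) ^ (n + 1) := by
    rw [pow_succ, mul_assoc]; gcongr; linarith
  nlinarith [norm_nonneg (f 0)]

theorem tg_of_pd [FiniteDimensional ℝ Y] {f : Y → ℝ} (hf : Differentiable ℝ f)
    (h : ∀ e, (pd e f).HasTemperateGrowth) : f.HasTemperateGrowth := by
  set b := Module.finBasis ℝ Y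
  let c : Fin (Module.finrank ℝ Y) → Y →L[ℝ] ℝ := fun i => LinearMap.toContinuousLinearMap (b.coord i)
  have hd : fderiv ℝ f = fun x => ∑ i, (pd (b i) f x) • c i := by
    funext x; ext e
    conv_lhs => rw [← b.sum_repr e, map_sum]
    simp [pd, c, mul_comm]
  have ht : (fderiv ℝ f).HasTemperateGrowth := by
    rw [hd]; exact tg_sum _ fun i _ => (h _).fun_smul (HasTemperateGrowth.const _)
  obtain ⟨C, n, hC⟩ := pg_of_fderiv hf (tg_pg ht)
  exact HasTemperateGrowth.of_fderiv ht hf hC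

theorem tg_mem_adjoin {𝒮 : Set (Y → ℝ)} {f : Y → ℝ} (hf : f.HasTemperateGrowth) :
    f ∈ Algebra.adjoin ℝ ({g : Y → ℝ | g.HasTemperateGrowth} ∪ 𝒮) :=
  Algebra.subset_adjoin (Or.inl hf)

/-- class lemma with all temperate functions added for free -/
theorem tg_of_class' [FiniteDimensional ℝ Y] (𝒮 : Set (Y → ℝ))
    (h : ∀ f ∈ 𝒮, Differentiable ℝ f ∧ PG f ∧
      ∀ e, pd e f ∈ Algebra.adjoin ℝ ({g : Y → ℝ | g.HasTemperateGrowth} ∪ 𝒮)) :
    ∀ f ∈ 𝒮, f.HasTemperateGrowth := fun f hf =>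
  tg_of_class ({g : Y → ℝ | g.HasTemperateGrowth} ∪ 𝒮) (fun g hg => Or.elim hg
    (fun hg => ⟨tg_diff hg, tg_pg hg, fun e => tg_mem_adjoin (tg_pd e hg)⟩) (h g)) f
    (Algebra.subset_adjoin (Or.inr hf))

theorem tg_inv [FiniteDimensional ℝ Y] {f : Y → ℝ} (hf : f.HasTemperateGrowth) {c : ℝ}
    (hc : 0 < c) (h : ∀ y, c ≤ f y) : (fun y => (f y)⁻¹).HasTemperateGrowth := by
  have hne : ∀ y, f y ≠ 0 := fun y => (hc.trans_le (h y)).ne'
  refine tg_of_class' {fun y => (f y)⁻¹} ?_ _ rfl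
  rintro _ rfl
  refine ⟨(tg_diff hf).fun_inv hne, ⟨c⁻¹, 0, fun y => ?_⟩, fun e => ?_⟩
  · rw [pow_zero, mul_one, Real.norm_of_nonneg (inv_nonneg.2 (hc.le.trans (h y)))]
    exact inv_anti₀ hc (h y)
  · have : pd e (fun y => (f y)⁻¹) = (-pd e f) * ((fun y => (f y)⁻¹) * (fun y => (f y)⁻¹)) := by
      funext y
      have := ((hasDerivAt_inv (hne y)).comp_hasFDerivAt y (tg_diff hf y).hasFDerivAt).fderiv
      simp only [pd, Pi.mul_apply, Pi.neg_apply]
      rw [show (fun y => (f y)⁻¹) = (fun x : ℝ => x⁻¹) ∘ f from rfl, this]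
      simp only [ContinuousLinearMap.smul_apply, smul_eq_mul]
      field_simp
    rw [this]
    exact mul_mem (tg_mem_adjoin (tg_pd e hf).neg)
      (mul_mem (Algebra.subset_adjoin (Or.inr rfl)) (Algebra.subset_adjoin (Or.inr rfl)))

theorem tg_log [FiniteDimensional ℝ Y] {f : Y → ℝ} (hf : f.HasTemperateGrowth) {c : ℝ}
    (hc : 0 < c) (h : ∀ y, c ≤ f y) : (fun y => Real.log (f y)).HasTemperateGrowth := by
  have hne : ∀ y, f y ≠ 0 := fun y => (hc.trans_le (h y)).ne'
  refine tg_of_pd ((tg_diff hf).log hne) fun e => ?_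
  have : pd e (fun y => Real.log (f y)) = fun y => (f y)⁻¹ * pd e f y := by
    funext y
    simp only [pd]
    rw [((tg_diff hf y).hasFDerivAt.log (hne y)).fderiv]; simp
  rw [this]
  exact (tg_inv hf hc h).fun_mul (tg_pd e hf)

theorem tg_ofCoord {d : ℕ} {f : Y → E d} (h : ∀ k, (fun y => f y k).HasTemperateGrowth) :
    f.HasTemperateGrowth := by
  have : f = fun y => ∑ k, (f y k) • (EuclideanSpace.single k (1 : ℝ) : E d) := by
    funext y; ext j; simp [Finset.sum_apply, Pi.single_apply]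
  rw [this]
  exact tg_sum _ fun k _ => (h k).fun_smul (HasTemperateGrowth.const _)

theorem tg_apply {d : ℕ} {f : Y → E d} (h : f.HasTemperateGrowth) (k : Fin d) :
    (fun y => f y k).HasTemperateGrowth := tg_clm (EuclideanSpace.proj k : E d →L[ℝ] ℝ) h

theorem tg_p1 {F G : Type} [NormedAddCommGroup F] [NormedSpace ℝ F] [NormedAddCommGroup G]
    [NormedSpace ℝ G] {f : Y → F × G} (h : f.HasTemperateGrowth) :
    (fun y => (f y).1).HasTemperateGrowth := tg_clm (ContinuousLinearMap.fst ℝ F G) h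

theorem tg_p2 {F G : Type} [NormedAddCommGroup F] [NormedSpace ℝ F] [NormedAddCommGroup G]
    [NormedSpace ℝ G] {f : Y → F × G} (h : f.HasTemperateGrowth) :
    (fun y => (f y).2).HasTemperateGrowth := tg_clm (ContinuousLinearMap.snd ℝ F G) h

theorem tg_id : (fun y : Y => y).HasTemperateGrowth := HasTemperateGrowth.id'

theorem tg_comp {F G : Type} [NormedAddCommGroup F] [NormedSpace ℝ F] [NormedAddCommGroup G]
    [NormedSpace ℝ G] {g : F → G} {f : Y → F} (hg : g.HasTemperateGrowth)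
    (hf : f.HasTemperateGrowth) : (fun y => g (f y)).HasTemperateGrowth := hg.comp hf

theorem tg_normsq {d : ℕ} {f : Y → E d} (h : f.HasTemperateGrowth) :
    (fun y => ‖f y‖ ^ 2).HasTemperateGrowth :=
  tg_comp (hasTemperateGrowth_norm_sq (E d)) h

end Gen

/-! ### `rr`, `aa` -/

theorem hasDerivAt_rr (t : ℝ) : HasDerivAt rr (Real.pi * (1 + t ^ 2))⁻¹ t := by
  refine ((Real.hasDerivAt_arctan t).div_const Real.pi).congr_deriv ?_
  field_simp

theorem abs_rr_lt (t : ℝ) : |rr t| < 1 / 2 := by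
  have h1 := Real.arctan_lt_pi_div_two t
  have h2 := Real.neg_pi_div_two_lt_arctan t
  have hp := Real.pi_pos
  unfold rr
  rw [abs_lt, lt_div_iff₀ hp, div_lt_iff₀ hp]
  constructor <;> linarith

theorem rr_tt {r : ℝ} (hr : |r| < 1 / 2) : rr (tt r) = r := by
  have hp := Real.pi_pos
  rw [abs_lt] at hr
  unfold rr tt
  rw [Real.arctan_tan (by nlinarith) (by nlinarith)]
  field_simp

theorem tg_one_add_sq : (fun t : ℝ => Real.pi * (1 + t ^ 2)).HasTemperateGrowth :=
  (HasTemperateGrowth.const _).fun_mul ((HasTemperateGrowth.const _).fun_add (tg_id.fun_pow 2))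

theorem tg_rr : rr.HasTemperateGrowth := by
  refine tg_of_pd (fun t => (hasDerivAt_rr t).differentiableAt) fun e => ?_
  have : pd e rr = fun t => e * (Real.pi * (1 + t ^ 2))⁻¹ := by
    funext t; simp only [pd]; rw [(hasDerivAt_rr t).hasFDerivAt.fderiv]; simp
  rw [this]
  exact (HasTemperateGrowth.const _).fun_mul (tg_inv tg_one_add_sq Real.pi_pos fun t => by
    nlinarith [Real.pi_pos, sq_nonneg t])

theorem aa_ge (t : ℝ) : 3 / 4 ≤ aa t := by
  have := abs_rr_lt t
  rw [abs_lt] at this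
  unfold aa; nlinarith

theorem aa_pos (t : ℝ) : 0 < aa t := lt_of_lt_of_le (by norm_num) (aa_ge t)

theorem aa_le (t : ℝ) : aa t ≤ 1 := by unfold aa; nlinarith [sq_nonneg (rr t)]

theorem tg_aa : aa.HasTemperateGrowth := (HasTemperateGrowth.const _).fun_sub (tg_rr.fun_pow 2)

theorem hasDerivAt_aa (t : ℝ) : HasDerivAt aa (-(2 * rr t * (Real.pi * (1 + t ^ 2))⁻¹)) t := by
  refine (((hasDerivAt_rr t).fun_pow 2).const_sub 1).congr_deriv ?_
  simp

theorem tg_aa_inv : (fun t => (aa t)⁻¹).HasTemperateGrowth :=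
  tg_inv tg_aa (by norm_num : (0 : ℝ) < 3 / 4) aa_ge

theorem hasDerivAt_aa_inv (t : ℝ) : HasDerivAt (fun t => (aa t)⁻¹)
    (2 * rr t * (Real.pi * (1 + t ^ 2))⁻¹ * (aa t)⁻¹ ^ 2) t := by
  refine ((hasDerivAt_aa t).fun_inv (aa_pos t).ne').congr_deriv ?_
  field_simp

variable {d : ℕ}

/-! ### moments of the posterior -/

theorem inner_eq_sum (x y : E d) : inner ℝ x y = ∑ k, x k * y k := by
  simp [PiLp.inner_apply, mul_comm]

theorem normsq_eq_sum (x : E d) : ‖x‖ ^ 2 = ∑ k, x k * x k := by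
  rw [← real_inner_self_eq_norm_sq, inner_eq_sum]

theorem HessB.ibp_radial {W : E d → ℝ} {lo hi : ℝ} (hlo : 0 < lo) (h : HessB W lo hi)
    {g : E d → ℝ} (hg : g.HasTemperateGrowth) (x : E d) :
    ∫ y, (d * g y + fderiv ℝ g y (y - x)) ∂(gibbs W) =
      ∫ y, g y * inner ℝ (gradient W y) (y - x) ∂(gibbs W) := by
  have hz : ∀ k, (fun y : E d => (y - x) k).HasTemperateGrowth := fun k =>
    tg_apply (tg_id.fun_sub (HasTemperateGrowth.const x)) k
  have hf : ∀ k, (fun y : E d => (y - x) k * g y).HasTemperateGrowth := fun k => (hz k).fun_mul hg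
  have key := fun k => h.ibp hlo ((hf k).1.of_le (by exact_mod_cast le_top)) (tg_pg (hf k))
    (tg_pg (tg_fderiv (hf k))) (EuclideanSpace.single k 1)
  have hWc : ∀ k, Continuous fun y => fderiv ℝ W y (EuclideanSpace.single k 1) := fun k =>
    (h.1.continuous_fderiv (by simp)).clm_apply continuous_const
  have i1 : ∀ k, Integrable (fun y => fderiv ℝ (fun y : E d => (y - x) k * g y) y
      (EuclideanSpace.single k 1)) (gibbs W) := fun k =>
    h.integrable hlo (tg_cont (tg_pd _ (hf k))) (tg_pg (tg_pd _ (hf k)))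
  have i2 : ∀ k, Integrable (fun y => (y - x) k * g y * fderiv ℝ W y (EuclideanSpace.single k 1))
      (gibbs W) := fun k =>
    h.integrable hlo ((tg_cont (hf k)).mul (hWc k)) ((tg_pg (hf k)).mul ((h.pg_fderiv hlo.le).apply _))
  have := Finset.sum_congr rfl fun k (_ : k ∈ Finset.univ) => key k
  rw [← integral_finset_sum _ fun k _ => i1 k, ← integral_finset_sum _ fun k _ => i2 k] at this
  convert this using 2
  · funext y
    have hd : ∀ k, fderiv ℝ (fun y : E d => (y - x) k * g y) y (EuclideanSpace.single k 1) =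
        g y + (y - x) k * fderiv ℝ g y (EuclideanSpace.single k 1) := by
      intro k
      have h1 : HasFDerivAt (fun y : E d => (y - x) k) (EuclideanSpace.proj k : E d →L[ℝ] ℝ) y := by
        have := ((EuclideanSpace.proj k : E d →L[ℝ] ℝ).hasFDerivAt (x := y)).sub_const (x k)
        simpa using this
      rw [(h1.fun_mul (tg_diff hg y).hasFDerivAt).fderiv]
      simp; ring
    simp only [hd, Finset.sum_add_distrib, Finset.sum_const, Finset.card_univ, Fintype.card_fin,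
      nsmul_eq_mul]
    congr 1
    have : y - x = ∑ k, ((y - x) k) • (EuclideanSpace.single k (1 : ℝ) : E d) := by
      ext j; simp [Finset.sum_apply, Pi.single_apply]
    conv_lhs => rw [this, map_sum]
    simp
  · funext y
    rw [inner_eq_sum, Finset.mul_sum]
    refine Finset.sum_congr rfl fun k _ => ?_
    rw [fderiv_eq_inner W y (EuclideanSpace.single k 1), EuclideanSpace.inner_single_right]
    simp; ring

theorem post_moment {U : E d → ℝ} {β a : ℝ} (h : HessB U 0 β) (ha : 0 < a) (ha1 : a ≤ 1) (x : E d)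
    (n : ℕ) : ∫ y, (‖y - x‖ ^ 2) ^ n ∂(post U x a) ≤ (2 * d + 4 * n + ‖gradient U x‖ ^ 2) ^ n := by
  have hP := h.post_prob ha x
  have hz : (fun y : E d => ‖y - x‖ ^ 2).HasTemperateGrowth :=
    tg_normsq (tg_id.fun_sub (HasTemperateGrowth.const x))
  have hg : ∀ n : ℕ, (fun y : E d => (‖y - x‖ ^ 2) ^ n).HasTemperateGrowth := fun n => hz.fun_pow n
  have hi : ∀ n : ℕ, Integrable (fun y : E d => (‖y - x‖ ^ 2) ^ n) (post U x a) := fun n =>
    h.post_integrable ha x (tg_cont (hg n)) (tg_pg (hg n))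
  induction n with
  | zero => simp
  | succ n ih =>
    set G := ‖gradient U x‖
    have key := (h.post (a := a) x).ibp_radial (by positivity) (hg n) x
    change ∫ y, _ ∂(post U x a) = ∫ y, _ ∂(post U x a) at key
    have e1 : ∀ y : E d, fderiv ℝ (fun y : E d => (‖y - x‖ ^ 2) ^ n) y (y - x) =
        2 * n * (‖y - x‖ ^ 2) ^ n := by
      intro y
      have h1 := (((hasFDerivAt_id y).sub_const x).norm_sq).pow n
      simp only [id] at h1
      rw [h1.fderiv]
      simp only [ContinuousLinearMap.smul_apply, ContinuousLinearMap.comp_apply, innerSL_apply_apply,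
        ContinuousLinearMap.id_apply, real_inner_self_eq_norm_sq, smul_eq_mul, nsmul_eq_mul]
      rcases n with _ | n
      · simp
      · simp; ring
    simp only [e1, (h.add_quad x a).2] at key
    have e2 : ∫ y, (d * (‖y - x‖ ^ 2) ^ n + 2 * n * (‖y - x‖ ^ 2) ^ n) ∂(post U x a) =
        (d + 2 * n) * ∫ y, (‖y - x‖ ^ 2) ^ n ∂(post U x a) := by
      rw [← integral_const_mul]; congr 1; funext y; ring
    have hgc : Continuous (gradient U) := (contDiff_gradient h.1).continuous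
    have i3 : Integrable (fun y => (‖y - x‖ ^ 2) ^ n * inner ℝ (gradient U y + a⁻¹ • (y - x)) (y - x))
        (post U x a) := by
      refine h.post_integrable ha x (by fun_prop) ((tg_pg (hg n)).mul ?_)
      have p1 : PG (fun y => gradient U y + a⁻¹ • (y - x)) := (h.pg_grad le_rfl).add
        (tg_pg ((HasTemperateGrowth.const a⁻¹).fun_smul (tg_id.fun_sub (HasTemperateGrowth.const x))))
      have p2 : PG (fun y : E d => y - x) := tg_pg (tg_id.fun_sub (HasTemperateGrowth.const x))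
      refine ((p1.of_le (g := fun y => ‖gradient U y + a⁻¹ • (y - x)‖) 1 (by simp)).mul
        (p2.of_le (g := fun y => ‖y - x‖) 1 (by simp))).of_le 1 fun y => ?_
      simpa using abs_real_inner_le_norm _ _
    have l1 : ∫ y, ((1 / 2) * (‖y - x‖ ^ 2) ^ (n + 1) - (G ^ 2 / 2) * (‖y - x‖ ^ 2) ^ n) ∂(post U x a) ≤
        ∫ y, (‖y - x‖ ^ 2) ^ n * inner ℝ (gradient U y + a⁻¹ • (y - x)) (y - x) ∂(post U x a) := by
      refine integral_mono (((hi _).const_mul _).sub ((hi _).const_mul _)) i3 fun y => ?_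
      have m1 := h.mono_grad y x
      rw [inner_sub_left] at m1
      have m2 := abs_real_inner_le_norm (gradient U x) (y - x)
      have m3 := neg_abs_le (inner ℝ (gradient U x) (y - x))
      have m4 : 1 ≤ a⁻¹ := one_le_inv₀ ha |>.2 ha1
      have m5 : (1 / 2) * ‖y - x‖ ^ 2 - G ^ 2 / 2 ≤ inner ℝ (gradient U y + a⁻¹ • (y - x)) (y - x) := by
        rw [inner_add_left, inner_smul_left, real_inner_self_eq_norm_sq]
        simp only [conj_trivial]
        nlinarith [sq_nonneg (‖y - x‖ - G), sq_nonneg ‖y - x‖]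
      have := mul_le_mul_of_nonneg_left m5 (by positivity : 0 ≤ (‖y - x‖ ^ 2) ^ n)
      simp only [pow_succ (‖y - x‖ ^ 2) n]
      nlinarith
    rw [integral_sub ((hi _).const_mul _) ((hi _).const_mul _), integral_const_mul,
      integral_const_mul, ← key, e2] at l1
    have n0 : 0 ≤ ∫ y, (‖y - x‖ ^ 2) ^ n ∂(post U x a) := integral_nonneg fun y => by positivity
    have l2 : (2 * (d : ℝ) + 4 * n + G ^ 2) ^ n ≤ (2 * d + 4 * (n + 1 : ℕ) + G ^ 2) ^ n := by
      gcongr; omega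
    have l3 : (0 : ℝ) ≤ 2 * d + 4 * n + G ^ 2 := by positivity
    calc _ ≤ (2 * d + 4 * n + G ^ 2) * ∫ y, (‖y - x‖ ^ 2) ^ n ∂(post U x a) := by nlinarith
      _ ≤ (2 * d + 4 * (n + 1 : ℕ) + G ^ 2) * (2 * d + 4 * (n + 1 : ℕ) + G ^ 2) ^ n := by
          refine mul_le_mul ?_ (ih.trans l2) n0 (by positivity)
          push_cast; linarith
      _ = _ := by ring

/-- posterior mean as a function of `(t, x)` -/
noncomputable def mm (U : E d → ℝ) (f : E d → ℝ) (q : ℝ × E d) : ℝ :=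
  ∫ y, f y ∂(post U q.2 (aa q.1))

theorem PG.npow {Y : Type} [NormedAddCommGroup Y] [NormedSpace ℝ Y] {f : Y → ℝ} (hf : PG f) (n : ℕ) :
    PG (fun y => f y ^ n) := by
  induction n with
  | zero => simpa using PG.const (Y := Y) (1 : ℝ)
  | succ n ih => simpa [pow_succ] using ih.mul hf

theorem PG.nrm {Y F : Type} [NormedAddCommGroup Y] [NormedSpace ℝ Y] [NormedAddCommGroup F]
    [NormedSpace ℝ F] {f : Y → F} (hf : PG f) : PG (fun y => ‖f y‖) := hf.of_le 1 (by simp)

theorem PG.cmp {Y Y' F : Type} [NormedAddCommGroup Y] [NormedSpace ℝ Y] [NormedAddCommGroup Y']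
    [NormedSpace ℝ Y'] [NormedAddCommGroup F] [NormedSpace ℝ F] {g : Y' → F} {f : Y → Y'}
    (hg : PG g) (hf : PG f) : PG (fun y => g (f y)) := by
  obtain ⟨C, n, hC⟩ := hg
  refine (((PG.const (1 : ℝ)).add hf.nrm).npow n).of_le |C| fun y => (hC _).trans ?_
  rw [Real.norm_of_nonneg (by positivity)]
  exact mul_le_mul_of_nonneg_right (le_abs_self C) (by positivity)

theorem pg_mm {U : E d → ℝ} {β : ℝ} (h : HessB U 0 β) {f : E d → ℝ} (hf : Continuous f)
    (hp : PG f) : PG (mm U f) := by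
  obtain ⟨C, n, hC⟩ := hp
  have p2 : PG (fun q : ℝ × E d => q.2) := tg_pg (tg_p2 tg_id)
  have pA : PG (fun q : ℝ × E d => (1 + ‖q.2‖) ^ n *
      (1 + (2 * d + 4 * n + ‖gradient U q.2‖ ^ 2) ^ n)) :=
    (((PG.const 1).add p2.nrm).npow n).mul ((PG.const 1).add
      (((PG.const _).add ((((h.pg_grad le_rfl).cmp p2).nrm).npow 2)).npow n))
  refine pA.of_le (|C| * 2 ^ n) fun q => ?_
  have ha := aa_pos q.1
  have hP := h.post_prob ha q.2
  have hz : (fun y : E d => (‖y - q.2‖ ^ 2) ^ n).HasTemperateGrowth :=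
    (tg_normsq (tg_id.fun_sub (HasTemperateGrowth.const q.2))).fun_pow n
  have hi := h.post_integrable ha q.2 (tg_cont hz) (tg_pg hz)
  have hm := post_moment h ha (aa_le q.1) q.2 n
  have b1 : ‖mm U f q‖ ≤ ∫ y, (|C| * 2 ^ n * (1 + ‖q.2‖) ^ n) * (1 + (‖y - q.2‖ ^ 2) ^ n)
      ∂(post U q.2 (aa q.1)) := by
    refine norm_integral_le_of_norm_le (((integrable_const 1).add hi).const_mul _)
      (Filter.Eventually.of_forall fun y => (hC y).trans ?_)
    have t1 : 1 + ‖y‖ ≤ (1 + ‖q.2‖) * (1 + ‖y - q.2‖) := by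
      have := norm_add_le q.2 (y - q.2)
      simp only [add_sub_cancel] at this
      nlinarith [norm_nonneg q.2, norm_nonneg (y - q.2), mul_nonneg (norm_nonneg q.2) (norm_nonneg (y - q.2))]
    have t2 : (1 + ‖y - q.2‖) ^ n ≤ 2 ^ n * (1 + (‖y - q.2‖ ^ 2) ^ n) := by
      have r0 := norm_nonneg (y - q.2)
      rcases le_total ‖y - q.2‖ 1 with hr | hr
      · calc _ ≤ (2 : ℝ) ^ n := by gcongr; linarith
          _ ≤ _ := le_mul_of_one_le_right (by positivity) (by simp)
      · calc _ ≤ (2 * ‖y - q.2‖ ^ 2) ^ n := by gcongr; nlinarith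
          _ = 2 ^ n * (‖y - q.2‖ ^ 2) ^ n := mul_pow _ _ _
          _ ≤ _ := by gcongr; linarith
    calc C * (1 + ‖y‖) ^ n ≤ |C| * ((1 + ‖q.2‖) * (1 + ‖y - q.2‖)) ^ n := by
          refine (mul_le_mul_of_nonneg_right (le_abs_self C) (by positivity)).trans ?_
          gcongr
      _ = |C| * (1 + ‖q.2‖) ^ n * (1 + ‖y - q.2‖) ^ n := by rw [mul_pow]; ring
      _ ≤ |C| * (1 + ‖q.2‖) ^ n * (2 ^ n * (1 + (‖y - q.2‖ ^ 2) ^ n)) := by gcongr
      _ = _ := by ring
  rw [integral_const_mul, integral_add (integrable_const 1) hi] at b1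
  simp only [integral_const, probReal_univ, smul_eq_mul, mul_one] at b1
  refine b1.trans ?_
  rw [Real.norm_of_nonneg (by positivity), ← mul_assoc]
  gcongr

/-! ### exponential family -/

noncomputable def Kf (U : E d → ℝ) (f : E d → ℝ) (θ : ℝ × E d) : ℝ :=
  ∫ y, Real.exp (-U y - θ.1 * ‖y‖ ^ 2 + inner ℝ θ.2 y) * f y

theorem hasFDerivAt_Kf {U : E d → ℝ} {β : ℝ} (h : HessB U 0 β) {f : E d → ℝ}
    (hf : Continuous f) (hp : PG f) (θ : ℝ × E d) (hθ : 0 < θ.1) :
    ∃ L : ℝ × E d →L[ℝ] ℝ, HasFDerivAt (Kf U f) L θ ∧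
      ∀ e, L e = -e.1 * Kf U (fun y => f y * ‖y‖ ^ 2) θ +
        ∑ k, e.2 k * Kf U (fun y => f y * y k) θ := by
  have hUc : Continuous U := h.1.continuous
  let Ly : E d → (ℝ × E d →L[ℝ] ℝ) := fun y =>
    -(‖y‖ ^ 2) • ContinuousLinearMap.fst ℝ ℝ (E d) + (innerSL ℝ y).comp (ContinuousLinearMap.snd ℝ ℝ (E d))
  have hLy : ∀ y e, Ly y e = -(e.1 * ‖y‖ ^ 2) + inner ℝ e.2 y := by
    intro y e; simp [Ly, real_inner_comm]; ring
  have hLc : Continuous Ly := by fun_prop
  have hLp : PG Ly := by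
    refine ((PG.id.nrm.npow 2).add PG.id.nrm).of_le 1 fun y => ?_
    rw [one_mul, Real.norm_of_nonneg (by positivity)]
    refine ContinuousLinearMap.opNorm_le_bound _ (by positivity) fun e => ?_
    rw [hLy]
    have h1 : |e.1| ≤ ‖e‖ := norm_fst_le e
    have h2 : ‖e.2‖ ≤ ‖e‖ := norm_snd_le e
    have h3 := abs_real_inner_le_norm e.2 y
    refine (abs_add_le _ _).trans ?_
    rw [abs_neg, abs_mul, abs_of_nonneg (by positivity : 0 ≤ ‖y‖ ^ 2)]
    nlinarith [norm_nonneg y, sq_nonneg ‖y‖, mul_le_mul_of_nonneg_right h1 (sq_nonneg ‖y‖),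
      mul_le_mul_of_nonneg_right h2 (norm_nonneg y)]
  have hw : ∀ θ' : ℝ × E d, Continuous fun y => Real.exp (-U y - θ'.1 * ‖y‖ ^ 2 + inner ℝ θ'.2 y) :=
    fun θ' => by fun_prop
  set R := ‖θ.2‖ + θ.1 / 2
  have hb : ∀ y : E d, |Real.exp (-U y - θ.1 / 2 * ‖y‖ ^ 2 + R * ‖y‖)| ≤ Real.exp (-U 0) *
      Real.exp (-(θ.1 / 2) * ‖y‖ ^ 2 + (‖gradient U 0‖ + R) * ‖y‖) := by
    intro y
    have := h.exp_le y
    rw [← Real.exp_add, Real.exp_le_exp] at this
    rw [abs_of_pos (Real.exp_pos _), ← Real.exp_add, Real.exp_le_exp]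
    linarith
  have hle : ∀ θ' ∈ Metric.ball θ (θ.1 / 2), ∀ y,
      Real.exp (-U y - θ'.1 * ‖y‖ ^ 2 + inner ℝ θ'.2 y) ≤
      Real.exp (-U y - θ.1 / 2 * ‖y‖ ^ 2 + R * ‖y‖) := by
    intro θ' hθ' y
    have h0 : ‖θ' - θ‖ < θ.1 / 2 := by simpa [dist_eq_norm] using hθ'
    have h1 : |θ'.1 - θ.1| ≤ ‖θ' - θ‖ := norm_fst_le (θ' - θ)
    have h2 : ‖θ'.2 - θ.2‖ ≤ ‖θ' - θ‖ := norm_snd_le (θ' - θ)
    have h3 := norm_add_le θ.2 (θ'.2 - θ.2)
    simp only [add_sub_cancel] at h3
    have h4 : ‖θ'.2‖ ≤ R := by simp only [R]; linarith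
    have h5 := (real_inner_le_norm θ'.2 y).trans (mul_le_mul_of_nonneg_right h4 (norm_nonneg y))
    have h6 : θ.1 / 2 ≤ θ'.1 := by linarith [neg_abs_le (θ'.1 - θ.1)]
    have h7 := mul_le_mul_of_nonneg_right h6 (sq_nonneg ‖y‖)
    exact Real.exp_le_exp.2 (by linarith)
  have hint : ∀ {F : Type} [NormedAddCommGroup F] [NormedSpace ℝ F] (g : E d → F), Continuous g →
      PG g → Integrable fun y => Real.exp (-U y - θ.1 * ‖y‖ ^ 2 + inner ℝ θ.2 y) • g y := by
    intro F _ _ g hg hpg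
    refine integrable_pg_gauss hg.aestronglyMeasurable hpg (hw θ).aestronglyMeasurable
      (half_pos hθ) _ _ fun y => le_trans ?_ (hb y)
    rw [abs_of_pos (Real.exp_pos _), abs_of_pos (Real.exp_pos _)]
    exact hle θ (Metric.mem_ball_self (half_pos hθ)) y
  have hgc : Continuous fun y : E d => f y • Ly y := hf.smul hLc
  have hgp : PG fun y : E d => f y • Ly y :=
    (hp.mul hLp.nrm).of_le 1 fun y => by rw [norm_smul, norm_mul, norm_norm, one_mul]
  refine ⟨∫ y, Real.exp (-U y - θ.1 * ‖y‖ ^ 2 + inner ℝ θ.2 y) • (f y • Ly y), ?_, fun e => ?_⟩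
  · refine hasFDerivAt_integral_of_dominated_of_fderiv_le (s := Metric.ball θ (θ.1 / 2))
      (F' := fun θ' y => Real.exp (-U y - θ'.1 * ‖y‖ ^ 2 + inner ℝ θ'.2 y) • (f y • Ly y))
      (bound := fun y => Real.exp (-U y - θ.1 / 2 * ‖y‖ ^ 2 + R * ‖y‖) • ‖f y • Ly y‖)
      (Metric.ball_mem_nhds θ (half_pos hθ))
      (Filter.Eventually.of_forall fun θ' => ((hw θ').mul hf).aestronglyMeasurable)
      (hint f hf hp) ((hw θ).smul hgc).aestronglyMeasurable
      (Filter.Eventually.of_forall fun y θ' hθ' => ?_) ?_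
      (Filter.Eventually.of_forall fun y θ' _ => ?_)
    · rw [norm_smul, Real.norm_of_nonneg (Real.exp_pos _).le, smul_eq_mul]
      exact mul_le_mul_of_nonneg_right (hle θ' hθ' y) (norm_nonneg _)
    · exact integrable_pg_gauss hgc.norm.aestronglyMeasurable hgp.nrm
        (by fun_prop) (half_pos hθ) _ _ hb
    · have h2 := ((((Ly y).hasFDerivAt (x := θ')).const_add (-U y)).exp).mul_const (f y)
      have e1 : ∀ θ'' : ℝ × E d, -U y + Ly y θ'' = -U y - θ''.1 * ‖y‖ ^ 2 + inner ℝ θ''.2 y := by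
        intro θ''; rw [hLy]; ring
      simp only [e1] at h2
      refine h2.congr_fderiv ?_
      ext1 <;> ext <;> simp <;> ring
  · rw [ContinuousLinearMap.integral_apply (hint _ hgc hgp)]
    have i1 := hint (fun y => f y * ‖y‖ ^ 2) (by fun_prop) (hp.mul (PG.id.nrm.npow 2))
    have i2 := fun k => hint (fun y => f y * y k) (by fun_prop) (hp.mul (tg_pg (tg_apply tg_id k)))
    simp only [Kf, smul_eq_mul] at i1 i2 ⊢
    simp only [← integral_const_mul]
    rw [← integral_finset_sum _ fun k _ => (i2 k).const_mul _, ← integral_add (i1.const_mul _)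
      (integrable_finset_sum _ fun k _ => (i2 k).const_mul _)]
    congr 1; funext y
    simp only [ContinuousLinearMap.smul_apply, hLy, smul_eq_mul, inner_eq_sum e.2 y, mul_add,
      Finset.mul_sum]
    congr 1
    · ring
    · exact Finset.sum_congr rfl fun k _ => by ring

end Crest.Agent.LCS
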