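import Crest.Agent.LCS.StepB

/-! Job P2: `StepThm`. -/

set_option autoImplicit false
open MeasureTheory Crest.OracleSampling

namespace Crest.Agent.LCS
open Tr Stp

theorem stepThm (hI : ImplAPI) (h1 : F1) (h2 : F2) (hF : GFacts) (hL : GLip) (hG : GaussAPI) :
    StepThm := by
  intro n
  obtain ⟨k, hk⟩ : ∃ k, k = 2 * (n + 2) + 1 := ⟨_, rfl⟩
  obtain ⟨jt, hjt⟩ : ∃ jt, jt = 2 * k * (k + 1) := ⟨_, rfl⟩
  obtain ⟨N, hN⟩ : ∃ N, N = k * (jt + 1) + jt := ⟨_, rfl⟩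
  obtain ⟨G, hG'⟩ : ∃ G, G = (n + 2) * (4 * N + 14) + 8 := ⟨_, rfl⟩
  obtain ⟨M, hM⟩ : ∃ M, M + 2 = (G + 8) * (k + 1) * k :=
    ⟨_, Nat.sub_add_cancel (by nlinarith)⟩
  obtain ⟨c1, t1, hc1, ht1, f1⟩ := h1 (M + 6) (M + 6)
  obtain ⟨c2, t2, hc2, ht2, f2⟩ := h2 (M + 6) (M + 6)
  obtain ⟨C0, hC0, hs⟩ := sp_all (jt := jt) hI hG hF hL hc1 hc2 k jt (4 * c1 * 1) (by linarith)
  have hy := ys_of_sp hI hG hF hL le_rfl hC0 hc1 hs
  have hC : 1 ≤ 6 * C0 * c1 ^ 2 * 1 := by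
    nlinarith [one_le_mul_of_one_le_of_one_le hC0 (one_le_pow₀ (n := 2) hc1)]
  generalize 6 * C0 * c1 ^ 2 * 1 = C at hy hC
  set S : ℝ := 4 * C + c1 + c2 + (2 * M + 5).factorial
  have hfac : (0 : ℝ) < (2 * M + 5).factorial := by positivity
  refine ⟨M, 4 * N + 1, 2 * ((G + 8) * (k + 1)) + 3, min (min t1 t2) S⁻¹, by positivity, by omega,
    ?_, fun d τ v hd hτ hτ0 hv hvτ => ?_⟩
  · have : (n + 2) * (4 * N + 14) + 2 ≤ (G + 8) * (k + 1) := by nlinarith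
    have e : (G + 8) * (k + 1) * k = (n + 2) * (2 * ((G + 8) * (k + 1))) + (G + 8) * (k + 1) := by
      conv_lhs => arg 2; rw [hk]
      ring
    nlinarith
  have sm : ∀ a, a ≤ S → a * τ ≤ 1 := fun a ha => by
    have := (le_inv_comm₀ hτ (by positivity)).1 (hτ0.trans (min_le_right _ _))
    calc a * τ ≤ τ⁻¹ * τ := by gcongr; exact ha.trans this
      _ = 1 := inv_mul_cancel₀ hτ.ne'
  have hτ2 : 2 * τ ≤ 1 := sm _ (by linarith)
  have hτ1 : τ ≤ 1 := by linarith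
  have pw : ∀ {a b : ℕ}, a ≤ b → τ ^ b ≤ τ ^ a := fun h => pow_le_pow_of_le_one hτ.le hτ1 h
  have hw4 : τ ^ ((G + 8) * (k + 1) + 3) ≤ τ ^ 4 := pw (by nlinarith)
  have err : ∀ c ϖ : ℝ, 1 ≤ c → c * τ ≤ 1 → 0 < ϖ → ϖ ≤ τ ^ ((G + 8) * (k + 1) + 3) →
      c * ϖ ≤ 1 ∧ ϖ ≤ τ ∧ τ ^ (M + 6) + (c * ϖ) ^ (M + 6) ≤ τ ^ (M + 2) * τ ^ 3 := by
    intro c ϖ hc hcτ h0 h
    have a1 : ϖ ≤ τ ^ 2 := h.trans (hw4.trans (pw (by norm_num)))
    have a2 : c * ϖ ≤ τ := by nlinarith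
    refine ⟨a2.trans hτ1, by nlinarith, ?_⟩
    calc _ ≤ τ ^ (M + 6) + τ ^ (M + 6) := by gcongr
      _ = (2 * τ) * (τ ^ (M + 2) * τ ^ 3) := by ring
      _ ≤ _ := mul_le_of_le_one_left (by positivity) hτ2
  have hL1 : 1 ≤ (⌈τ⁻¹ ^ 3⌉₊ : ℝ) * τ ^ 3 := by
    calc (1 : ℝ) = τ⁻¹ ^ 3 * τ ^ 3 := by field_simp
      _ ≤ _ := by gcongr; exact Nat.le_ceil _
  have hL2 : (⌈τ⁻¹ ^ 3⌉₊ : ℝ) * τ ^ 3 ≤ 2 := by
    calc _ ≤ (τ⁻¹ ^ 3 + 1) * τ ^ 3 := by gcongr; exact (Nat.ceil_lt_add_one (by positivity)).le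
      _ = 1 + τ ^ 3 := by field_simp
      _ ≤ 2 := by linarith [pow_le_one₀ (n := 3) hτ.le hτ1]
  let P : Env c1 c2 jt :=
    { d := d, L := ⌈τ⁻¹ ^ 3⌉₊, τ := τ, g := τ ^ (G + 8), w := τ ^ ((G + 8) * (k + 1) + 3)
      z := τ ^ (M + 2), hτ := hτ, hτ1 := hτ1, hg := by positivity, hg8 := pw (by omega)
      hw0 := by positivity, hw := hw4, hz0 := by positivity
      hz := by simpa using pw (a := 1) (b := M + 2) (by omega)
      hL1 := Nat.one_le_ceil_iff.2 (by positivity), hL2 := hL2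
      hLz := by
        have a1 := Real.pow_div_factorial_le_exp (x := τ⁻¹) (by positivity) (2 * M + 5)
        calc _ ≤ Real.exp (-τ ^ 2) ^ ⌈τ⁻¹ ^ 3⌉₊ := by
              gcongr
              · nlinarith
              · exact Real.one_sub_le_exp_neg _
          _ ≤ Real.exp (-τ⁻¹) := by
              rw [← Real.exp_nat_mul]
              refine Real.exp_le_exp.2 ?_
              rw [mul_neg, neg_le_neg_iff, inv_le_iff_one_le_mul₀ hτ]; linarith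
          _ ≤ (2 * M + 5).factorial * τ * (τ ^ (M + 2)) ^ 2 := by
              rw [Real.exp_neg, inv_le_comm₀ (by positivity) (by positivity)]
              refine le_trans (le_of_eq ?_) a1
              rw [inv_pow]; field_simp; ring
          _ ≤ _ := mul_le_of_le_one_left (by positivity) (sm _ (by linarith))
      hx := by
        rw [pow_add, mul_div_assoc, div_self (by positivity), mul_one, ← pow_mul]
        exact pw (by rw [hM, hjt]; nlinarith [Nat.zero_le ((n + 2) * (4 * N + 14) * (k * (k + 1)))])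
      f1 := fun v ϖ hv hvϖ hϖ => by
        obtain ⟨e1, -, e3⟩ := err c1 ϖ hc1 (sm _ (by linarith)) (hv.trans_le hvϖ) hϖ
        obtain ⟨s, r1, r2, r3, r4, r5⟩ := f1 d τ v ϖ hd hτ
          (hτ0.trans ((min_le_left _ _).trans (min_le_left _ _))) hv hvϖ e1
        refine ⟨s, r1, r2, r3, r4, fun V hV m φ hφ => ?_⟩
        have := r5 V hV m φ hφ
        simp only [int_gaussN hφ _ (t := 3 / 4 * τ ^ 2 * v) (a := √3 / 2 * τ * √v) (by
          refine (Real.sqrt_eq_iff_mul_self_eq_of_pos (by positivity)).2 ?_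
          calc _ = (√3 * √3) / 4 * τ ^ 2 * (√v * √v) := by ring
            _ = _ := by rw [Real.mul_self_sqrt hv.le, Real.mul_self_sqrt (by norm_num)])] at this
        exact this.trans (by gcongr)
      f2 := fun v ϖ κ t hv hvϖ hϖ ht hκ => by
        obtain ⟨e1, e2, e3⟩ := err c2 ϖ hc2 (sm _ (by linarith)) (hv.trans_le hvϖ) hϖ
        obtain ⟨s, r1, r2, r3, r4, r5, r6⟩ := f2 d τ v ϖ κ (√t) hd hτ
          (hτ0.trans ((min_le_left _ _).trans (min_le_right _ _))) hv hvϖ e1 e2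
          (Real.sqrt_pos.2 ht) hκ
        refine ⟨s, r1, r2, r3, r4, r5, fun V hV m φ hφ => ?_⟩
        have := r6 V hV m φ hφ
        rw [int_gaussN hφ _ (t := t) rfl] at this
        exact this.trans (by gcongr) }
  obtain ⟨q, K, i, nq, b⟩ := hy P (sm _ (by linarith)) _ v hv hvτ
    (le_of_eq (by simp only [P]; ring)) (E d) (leaf id)
    ⟨measurable_id, by simp [len], by simp only [wt]; positivity, trivial⟩
  refine ⟨q, K, i, nq.trans ?_, fun V hV y φ hφ => (b V hV y ‖y‖ le_rfl le_rfl φ hφ).trans ?_⟩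
  · have a1 : (⌈τ⁻¹ ^ 3⌉₊ : ℝ) ≤ τ⁻¹ ^ 4 := by
      rw [inv_pow τ 4, ← one_div (τ ^ 4), le_div_iff₀ (by positivity)]; nlinarith
    have a2 : C ≤ τ⁻¹ := by rw [← one_div, le_div_iff₀ hτ]; exact sm _ (by linarith)
    rw [pow_succ', pow_mul, hN]
    simp only [Env.N, P]
    gcongr
  · have a1 : P.e k jt ≤ 3 * τ ^ (M + 2) := by
      have b1 : P.x ^ jt ≤ τ ^ (M + 2) := P.hx
      have b2 : P.y ^ k = τ ^ (M + 2) := by
        simp only [Env.y, P]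
        rw [pow_add, mul_div_assoc, div_self (by positivity), mul_one, ← pow_mul, hM]
      simp only [Env.e, b2]
      linarith
    simp only [P] at a1 ⊢
    gcongr
    calc _ ≤ C * (3 * τ ^ (M + 2) * 1 + τ ^ (M + 2) * 1) := by
          gcongr <;> exact pow_le_one₀ hτ.le hτ1
      _ = (4 * C * τ) * τ * τ ^ M := by ring
      _ ≤ 1 * 1 * τ ^ M := by gcongr; exact sm _ (by linarith)
      _ = _ := by ring

end Crest.Agent.LCS
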