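import Crest.Agent.LCS.StepMs

/-! Job P2, part 3: specifications, the abstraction step and the ladder-point sampler. -/

set_option autoImplicit false
open MeasureTheory Crest.OracleSampling

namespace Crest.Agent.LCS.Stp
open Tr

/-- numerical environment -/
structure Env (c1 c2 : ℝ) (jt : ℕ) where
  d : ℕ
  L : ℕ
  τ : ℝ
  g : ℝ
  w : ℝ
  z : ℝ
  hτ : 0 < τ
  hτ1 : τ ≤ 1
  hg : 0 < g
  hg8 : g ≤ τ ^ 8
  hw0 : 0 ≤ w
  hw : w ≤ τ ^ 4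
  hz0 : 0 ≤ z
  hz : z ≤ τ
  hL1 : 1 ≤ L
  hL2 : L * τ ^ 3 ≤ 2
  hLz : (1 - τ ^ 2) ^ L ≤ z ^ 2
  hx : (g / τ ^ 8) ^ jt ≤ z
  f1 : ∀ v ϖ : ℝ, 0 < v → v ≤ ϖ → ϖ ≤ w →
    ∃ s : Tr (ℝ × ℝ × ℝ), (s.len : ℝ) ≤ c1 ∧ s.wt ≤ c1 * ϖ ∧ s.Good c1 v v (c1 * ϖ) ∧
    s.All (Coef c1) ∧ ∀ V, Admissible d V → ∀ (m : E d) (φ : E d → ℝ), BL φ →
      |∫ z, ∫ ξ, Sm (3 / 4 * τ ^ 2 * v) φ (s.val V (ev3 m (√v • z) (√v • ξ))) ∂(gam d) ∂(gam d) -
        ∫ y, φ y ∂(Qk V v τ (τ * √(v * (1 - τ ^ 2))) m)| ≤ c1 * (z * τ ^ 3) * (‖m‖ + √(d : ℝ))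
  f2 : ∀ v ϖ κ t : ℝ, 0 < v → v ≤ ϖ → ϖ ≤ w → 0 < t → |κ| * √v ≤ τ * ϖ * √t →
    ∃ s : Tr (ℝ × ℝ × ℝ), (s.len : ℝ) ≤ c2 ∧ s.wt ≤ c2 * |κ| * (|κ| * √v / √t) / (τ ^ 2 * ϖ) ∧
    s.Good c2 v v (c2 * ϖ) ∧ s.All (Coef c2) ∧ s.base = 0 ∧
    ∀ V, Admissible d V → ∀ (m : E d) (φ : E d → ℝ), BL φ →
      |∫ y, ∫ ξ, φ (√t • ξ + κ • (gv V (v * (1 - τ ^ 2)) y - gv V v m) +
            s.val V (ev3 m y (√v • ξ))) ∂(gam d) ∂(Qk V v τ (τ * √(v * (1 - τ ^ 2))) m) -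
          Sm t φ 0| ≤ c2 * |κ| * (z * τ ^ 3) * (‖m‖ + √(d : ℝ))

variable {c1 c2 : ℝ} {jt : ℕ}

noncomputable def Env.x (P : Env c1 c2 jt) : ℝ := P.g / P.τ ^ 8
noncomputable def Env.y (P : Env c1 c2 jt) : ℝ := P.w / P.τ ^ 3
noncomputable def Env.e (P : Env c1 c2 jt) (k j : ℕ) : ℝ := P.x ^ j + P.y ^ k + P.z
noncomputable def Env.N (P : Env c1 c2 jt) (k j : ℕ) : ℝ := (P.L : ℝ) ^ (k * (jt + 1) + j)

namespace Env
variable (P : Env c1 c2 jt)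
lemma x0 : 0 ≤ P.x := div_nonneg P.hg.le (pow_nonneg P.hτ.le _)
lemma x1 : P.x ≤ 1 := div_le_one_of_le₀ P.hg8 (pow_nonneg P.hτ.le _)
lemma y0 : 0 ≤ P.y := div_nonneg P.hw0 (pow_nonneg P.hτ.le _)
lemma pw {m n : ℕ} (h : m ≤ n) : P.τ ^ n ≤ P.τ ^ m := pow_le_pow_of_le_one P.hτ.le P.hτ1 h
lemma y1 : P.y ≤ 1 := div_le_one_of_le₀ (P.hw.trans (P.pw (by norm_num))) (pow_nonneg P.hτ.le _)
lemma e0 (k j : ℕ) : 0 ≤ P.e k j := by
  have := P.x0; have := P.y0; have := P.hz0; unfold e; positivity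
lemma e3 (k j : ℕ) : P.e k j ≤ 3 := by
  have := pow_le_one₀ (n := j) P.x0 P.x1
  have := pow_le_one₀ (n := k) P.y0 P.y1
  unfold e; linarith [P.hz, P.hτ1]
lemma N1 (k j : ℕ) : 1 ≤ P.N k j := one_le_pow₀ (by exact_mod_cast P.hL1)
lemma g1 : P.g ≤ 1 := P.hg8.trans (by simpa using P.pw (Nat.zero_le 8))
lemma wτ : P.w ≤ P.τ := P.hw.trans (by simpa using P.pw (m := 1) (n := 4) (by norm_num))
lemma lev {ϖ : ℝ} {k : ℕ} (h : ϖ ≤ P.w * P.g ^ k) : ϖ ≤ P.w :=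
  h.trans (mul_le_of_le_one_right P.hw0 (pow_le_one₀ P.hg.le P.g1))
end Env

/-- admissible centres -/
def Cen {d : ℕ} {X : Type} [MeasurableSpace X] (Λ v ϖ : ℝ) (c : Tr (X → E d)) : Prop :=
  c.All Measurable ∧ (c.len : ℝ) ≤ Λ ∧ c.wt ≤ Λ * ϖ ∧ c.Good Λ v ϖ (Λ * ϖ)

variable (c1 c2 jt) in
/-- a noisy tree value is implementable -/
def SP (k j : ℕ) (Λ C : ℝ) : Prop := ∀ P : Env c1 c2 jt, C * P.τ ≤ 1 → ∀ ϖ s t : ℝ, 0 < ϖ →
  ϖ ≤ P.w * P.g ^ k → 0 < s → 0 < t → ∀ (X : Type) [MeasurableSpace X] (e : Tr (X → E P.d)),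
  e.All Measurable → (e.len : ℝ) ≤ Λ → e.Good Λ s ϖ (Λ * ϖ) →
  e.wt * √s * P.τ ≤ Λ * (P.g * ϖ * √t) →
  ∃ q K, Impl P.d q X K ∧ (q : ℝ) ≤ C * P.N k j ∧ ∀ V, Admissible P.d V → ∀ (x : X) (R : ℝ),
    e.All (fun b => ‖b x‖ ≤ R) →
    Cl (K V x) (e.val V fun b => b x) t (C * P.e k j * e.wt * (R + √(P.d : ℝ)))

variable (c1 c2 jt) in
/-- a noisy smoothed gradient is implementable -/
def PS (k j : ℕ) (Λ C : ℝ) : Prop := ∀ P : Env c1 c2 jt, C * P.τ ≤ 1 → ∀ ϖ v t κ : ℝ, 0 < v →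
  v ≤ ϖ → ϖ ≤ P.w * P.g ^ k → 0 < t → ∀ (X : Type) [MeasurableSpace X] (c : Tr (X → E P.d)),
  Cen Λ v ϖ c → |κ| * √v * P.τ ≤ Λ * (P.g * ϖ * √t) →
  ∃ q K, Impl P.d q X K ∧ (q : ℝ) ≤ C * P.N k j ∧ ∀ V, Admissible P.d V → ∀ (x : X) (R : ℝ),
    c.All (fun b => ‖b x‖ ≤ R) →
    Cl (K V x) (κ • gv V v (c.val V fun b => b x)) t (C * P.e k j * |κ| * (R + √(P.d : ℝ)))

variable (c1 c2 jt) in
/-- a ladder point is implementable -/
def YS (k : ℕ) (Λ C : ℝ) : Prop := ∀ P : Env c1 c2 jt, C * P.τ ≤ 1 → ∀ ϖ v : ℝ, 0 < v →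
  v ≤ ϖ → ϖ ≤ P.w * P.g ^ (k + 1) → ∀ (X : Type) [MeasurableSpace X] (c : Tr (X → E P.d)),
  Cen Λ v ϖ c →
  ∃ q K, Impl P.d q X K ∧ (q : ℝ) ≤ C * P.N k jt ∧ ∀ V, Admissible P.d V → ∀ (x : X) (T : ℝ),
    c.All (fun b => ‖b x‖ ≤ T) → ‖c.val V fun b => b x‖ ≤ T →
    DL (K V x) (Qk V v P.τ (P.τ * √(v * (1 - P.τ ^ 2))) (c.val V fun b => b x))
      (C * (P.e k jt * ϖ + P.z * P.τ ^ 3) * (T + √(P.d : ℝ)))

lemma norm_cen (hF : GFacts) (P : Env c1 c2 jt) {X : Type} [MeasurableSpace X] {Λ v ϖ R : ℝ}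
    {c : Tr (X → E P.d)} (hΛ : 1 ≤ Λ) (hc : Cen Λ v ϖ c) (hv : 0 < v) (hϖ : ϖ ≤ P.w)
    (hs : 8 * Λ * P.τ ≤ 1) {V : E P.d → ℝ} (hV : Admissible P.d V) {x : X}
    (hR : c.All (fun b => ‖b x‖ ≤ R)) :
    ‖c.val V fun b => b x‖ ≤ R + (R + √(P.d : ℝ)) / 2 := by
  have h1 : Λ * ϖ ≤ 1 / 8 := by nlinarith [P.wτ]
  have h2 := norm_val (V := V) (fun a h h' => ((hF _ V hV).2.2 a h h').1) (by positivity)
    (hϖ.trans (P.wτ.trans P.hτ1)) h1 hc.2.2.2 hR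
  have h3 : 0 ≤ R := (norm_nonneg _).trans (all_base hR)
  have h4 : c.wt * (R + √(P.d : ℝ)) ≤ 1 / 8 * (R + √(P.d : ℝ)) := by gcongr; linarith [hc.2.2.1]
  linarith

/-- the trivial level -/
theorem ps_zero (hG : GaussAPI) (hF : GFacts) {k j : ℕ} (h : k = 0 ∨ j = 0) {Λ : ℝ} (hΛ : 1 ≤ Λ) :
    PS c1 c2 jt k j Λ (8 * Λ) := by
  intro P hs ϖ v t κ hv hvϖ hϖ ht X _ c hc _
  obtain ⟨K, hK, hK'⟩ := impl_gauss hG (X := X) (b := fun _ => (0 : E P.d)) measurable_const t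
  refine ⟨0, K, hK, by have := P.N1 k j; push_cast; positivity, fun V hV x R hR =>
    ((hK' V x).shift hG _).mono ?_⟩
  have h1 := norm_cen hF P hΛ hc hv (P.lev hϖ) hs hV hR
  have h2 := ((hF _ V hV).2.2 v hv (hvϖ.trans ((P.lev hϖ).trans (P.wτ.trans P.hτ1)))).1
    (c.val V fun b => b x)
  have h3 : 0 ≤ R := (norm_nonneg _).trans (all_base hR)
  have h4 : 1 ≤ P.e k j := by
    have := pow_nonneg P.x0 j; have := pow_nonneg P.y0 k; have := P.hz0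
    rcases h with rfl | rfl <;> simp only [Env.e, pow_zero] <;> linarith
  rw [zero_add, zero_sub, norm_neg, norm_smul, Real.norm_eq_abs]
  calc _ ≤ |κ| * (3 * (R + √(P.d : ℝ))) := by gcongr; linarith
    _ = 3 * 1 * 1 * |κ| * (R + √(P.d : ℝ)) := by ring
    _ ≤ _ := by gcongr; norm_num

/-- from single terms to trees -/
theorem sp_of_ps (hI : ImplAPI) (hG : GaussAPI) {k j : ℕ} {Λ C : ℝ} (hΛ : 1 ≤ Λ) (hC : 0 ≤ C)
    (h : PS c1 c2 jt k j (2 * Λ ^ 2) C) : SP c1 c2 jt k j Λ (Λ * C) := by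
  intro P hs ϖ s t hϖ0 hϖ hs0 ht X _ e he hl hg hw
  have hτ := P.hτ
  have hgp := P.hg
  have hCC : C ≤ Λ * C := le_mul_of_one_le_left hC hΛ
  set t1 := t / (e.len + 1) with ht1
  have ht10 : 0 < t1 := by positivity
  have key : ∀ e' : Tr (X → E P.d), e'.All Measurable → e'.Good Λ s ϖ (Λ * ϖ) →
      e'.wt * √s * P.τ ≤ Λ * (P.g * ϖ * √t) → ∃ q K, Impl P.d q X K ∧
        (q : ℝ) ≤ e'.len * (C * P.N k j) ∧ ∀ V, Admissible P.d V → ∀ (x : X) (R : ℝ),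
        e'.All (fun b => ‖b x‖ ≤ R) → Cl (K V x) (e'.val V fun b => b x) ((e'.len + 1) * t1)
          (C * P.e k j * e'.wt * (R + √(P.d : ℝ))) := by
    intro e' h1 h2 h3
    induction e' with
    | leaf b =>
      obtain ⟨K, hK, hK'⟩ := impl_gauss hG (b := b) h1 t1
      exact ⟨0, K, hK, by simp [len], fun V _ x R _ => by simpa [len, wt, val] using hK' V x⟩
    | add e' κ v c ih _ =>
      obtain ⟨a1, a2, a3, a4, a5, a6, a7⟩ := h2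
      have hv : 0 < v := lt_of_lt_of_le (by positivity) a2
      have w0 := wt_nonneg e'
      rw [wt] at h3
      obtain ⟨q1, K1, i1, n1, b1⟩ := ih h1.1 a1 (le_trans (by gcongr; linarith [abs_nonneg κ]) h3)
      have hΛ2 : Λ ≤ 2 * Λ ^ 2 := by nlinarith
      obtain ⟨q2, K2, i2, n2, b2⟩ := h P (le_trans (by gcongr) hs) ϖ v t1 κ hv a4 hϖ ht10 X c
        ⟨h1.2, a5.trans hΛ2, a6.trans (by gcongr), good_mono a7 (by
          rw [div_le_div_iff₀ (by positivity) (by positivity)]; nlinarith) (by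
          rw [div_le_iff₀ (by positivity)] at a2; nlinarith) le_rfl hΛ2 (by gcongr)⟩ (by
        have k1 : √v ≤ √Λ * √s := by rw [← Real.sqrt_mul (by positivity)]; gcongr
        have k2 : √t ≤ 2 * √Λ * √t1 := by
          have : t ≤ 2 ^ 2 * Λ * t1 := by
            rw [ht1, ← mul_div_assoc, le_div_iff₀ (by positivity)]; nlinarith
          refine (Real.sqrt_le_sqrt this).trans_eq ?_
          rw [Real.sqrt_mul (by positivity), Real.sqrt_mul (by positivity), Real.sqrt_sq (by norm_num)]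
        have k3 : √Λ * √Λ = Λ := Real.mul_self_sqrt (by positivity)
        calc |κ| * √v * P.τ ≤ (e'.wt + |κ|) * (√Λ * √s) * P.τ := by gcongr; linarith
          _ = √Λ * ((e'.wt + |κ|) * √s * P.τ) := by ring
          _ ≤ √Λ * (Λ * (P.g * ϖ * (2 * √Λ * √t1))) := by
            exact mul_le_mul_of_nonneg_left (h3.trans (by gcongr)) (by positivity)
          _ = 2 * (Λ * (√Λ * √Λ)) * (P.g * ϖ * √t1) := by ring
          _ = _ := by rw [k3]; ring)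
      obtain ⟨K, i, b⟩ := impl_add hI hG i1 i2
      refine ⟨_, K, i, by rw [len]; push_cast; linarith, fun V hV x R hR => ?_⟩
      have := b V hV.1 x _ _ _ _ _ _ (by positivity) ht10.le (b1 V hV x R hR.1) (b2 V hV x R hR.2)
      convert this using 1
      · rfl
      · rw [len]; push_cast; ring
      · rw [wt]; ring
  obtain ⟨q, K, i, n, b⟩ := key e he hg hw
  refine ⟨q, K, i, n.trans ?_, fun V hV x R hR => ?_⟩
  · have := P.N1 k j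
    rw [mul_assoc]; gcongr
  · have h2 := b V hV x R hR
    rw [ht1, mul_div_cancel₀ _ (by positivity)] at h2
    have h3 : 0 ≤ R := (norm_nonneg _).trans (all_base hR)
    have := P.e0 k j
    have := wt_nonneg e
    exact h2.mono (by gcongr)

lemma meas_sub {d : ℕ} {X : Type} [MeasurableSpace X] {c : Tr (X → E d)} (hc : c.All Measurable)
    {Y : Type} [MeasurableSpace Y] {h : Y → X} (hh : Measurable h) {y ξ : Y → E d}
    (hy : Measurable y) (hξ : Measurable ξ) {s : Tr (ℝ × ℝ × ℝ)} {C : ℝ} (hs : s.All (Coef C)) :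
    (sub (tmap (fun b p => b (h p)) c) y ξ s).All Measurable :=
  all_sub hs (all_tmap (P' := Measurable) hc fun _ hb => hb.comp hh)
    (fun q b _ hb => by fun_prop) fun _ hb => hb

lemma bdd_sub {d : ℕ} {X Y : Type} {c : Tr (X → E d)} {h : Y → X} {y ξ : Y → E d} {p : Y}
    {s : Tr (ℝ × ℝ × ℝ)} {C T a a' : ℝ} (hC : 1 ≤ C) (hs : s.All (Coef C))
    (hc : c.All fun b => ‖b (h p)‖ ≤ T) (hy : ‖y p‖ ≤ a) (hξ : ‖ξ p‖ ≤ a') :
    (sub (tmap (fun b p => b (h p)) c) y ξ s).All fun b => ‖b p‖ ≤ C * (T + a + a') := by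
  have h3 : 0 ≤ T := (norm_nonneg _).trans (all_base hc)
  have h4 : T ≤ C * (T + a + a') := by nlinarith [norm_nonneg (y p), norm_nonneg (ξ p)]
  have h5 : C * (T + ‖y p‖ + ‖ξ p‖) ≤ C * (T + a + a') := by gcongr
  exact all_sub (P := fun b => ‖b p‖ ≤ T) hs (all_tmap hc fun _ hb => hb)
    (fun q b hq hb => (norm_ev3 hq hb).trans h5) fun _ hb => hb.trans h4

lemma norm_sqrt_smul {d : ℕ} {v : ℝ} (hv : v ≤ 1) (z : E d) : ‖√v • z‖ ≤ ‖z‖ := by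
  rw [norm_smul, Real.norm_eq_abs, abs_of_nonneg (Real.sqrt_nonneg _)]
  exact mul_le_of_le_one_left (norm_nonneg _) (Real.sqrt_le_one.2 hv)

lemma cont_ev3 {d : ℕ} {T : Type} [TopologicalSpace T] (m : E d) {y ξ : T → E d}
    (hy : Continuous y) (hξ : Continuous ξ) (q : ℝ × ℝ × ℝ) :
    Continuous fun t => ev3 m (y t) (ξ t) q := by
  unfold ev3; fun_prop

/-- the ladder-point sampler -/
theorem ys_of_sp (hI : ImplAPI) (hG : GaussAPI) (hF : GFacts) (hL : GLip) {k : ℕ} {Λ C : ℝ}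
    (hΛ : 1 ≤ Λ) (hC : 1 ≤ C) (hc1 : 1 ≤ c1) (h : SP c1 c2 jt k jt (4 * c1 * Λ) C) :
    YS c1 c2 jt k Λ (6 * C * c1 ^ 2 * Λ) := by
  intro P hs ϖ v hv hvϖ hϖ X _ c hc
  have hτ := P.hτ
  have hgp := P.hg
  have hϖ0 : 0 < ϖ := hv.trans_le hvϖ
  have hϖw := P.lev hϖ
  have hv1 : v ≤ 1 := hvϖ.trans (hϖw.trans (P.wτ.trans P.hτ1))
  have hcΛ : 1 ≤ c1 * Λ := one_le_mul_of_one_le_of_one_le hc1 hΛ
  have hCC : C ≤ 6 * C * c1 ^ 2 * Λ := by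
    nlinarith [mul_le_mul_of_nonneg_left (one_le_mul_of_one_le_of_one_le hc1 hcΛ) (by linarith : 0 ≤ C)]
  obtain ⟨s, s1, s2, s3, s4, s5⟩ := P.f1 v ϖ hv hvϖ hϖw
  have hϖg : ϖ ≤ ϖ / P.g := le_div_self hϖ0.le hgp P.g1
  let e := sub (tmap (fun b (p : (X × E P.d) × E P.d) => b p.1.1) c) (fun p => √v • p.1.2)
    (fun p => √v • p.2) s
  have hwt : e.wt ≤ 2 * c1 * Λ * ϖ := by
    have := mul_le_mul (all_base s4).1 hc.2.2.1 (wt_nonneg _) (by linarith)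
    simp only [e, wt_sub, wt_tmap]
    nlinarith [mul_le_mul_of_nonneg_left hΛ (by positivity : 0 ≤ c1 * ϖ)]
  obtain ⟨q, K, i, n, b⟩ := h P (le_trans (by gcongr) hs) (ϖ / P.g) v (3 / 4 * P.τ ^ 2 * v)
    (by positivity) (by rw [div_le_iff₀ hgp, mul_assoc, ← pow_succ]; exact hϖ) hv (by positivity) _ e
    (meas_sub hc.1 (by fun_prop) (by fun_prop) (by fun_prop) s4)
    (by simp only [e, len_sub, len_tmap]; push_cast; nlinarith [hc.2.1])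
    (good_sub s3 s4 (good_tmap _ (good_mono' hc.2.2.2 hv (by positivity) hϖg (by nlinarith)
      (by gcongr; nlinarith))) (by simpa using hc.2.1) (by simpa using hc.2.2.1) hv (by positivity)
      (by nlinarith) (hvϖ.trans hϖg) (by
        nlinarith [mul_le_mul_of_nonneg_left hΛ (by positivity : 0 ≤ c1 * ϖ),
          mul_le_mul_of_nonneg_left hϖg (by positivity : 0 ≤ c1 * Λ)])) (by
      have : P.τ / 2 * √v ≤ √(3 / 4 * P.τ ^ 2 * v) := by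
        rw [Real.sqrt_mul (by positivity)]
        gcongr
        exact Real.le_sqrt_of_sq_le (by nlinarith)
      rw [mul_div_cancel₀ _ hgp.ne']
      calc _ ≤ 2 * c1 * Λ * ϖ * √v * P.τ := by gcongr
        _ = 4 * c1 * Λ * (ϖ * (P.τ / 2 * √v)) := by ring
        _ ≤ _ := by gcongr)
  refine ⟨q, _, i.sample.sample, n.trans (by have := P.N1 k jt; gcongr),
    fun V hV x T hT hm φ hφ => ?_⟩
  obtain ⟨pg, -, -, -, g1, g2, -⟩ := hG P.d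
  set m := c.val V fun b => b x
  have hT0 : 0 ≤ T := (norm_nonneg _).trans hm
  have hd := Real.sqrt_nonneg (P.d : ℝ)
  have he := P.e0 k jt
  set β := C * P.e k jt * (2 * c1 * Λ * ϖ) * c1 with hβ
  have hβ0 : 0 ≤ β := by positivity
  have hψ := BL.sm hG hφ (3 / 4 * P.τ ^ 2 * v)
  have hcont : Continuous fun p : E P.d × E P.d => s.val V (ev3 m (√v • p.1) (√v • p.2)) :=
    cont_val (fun a => hL _ V 2 a zero_le_two (hF _ V hV).1) (by positivity)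
      (cont_ev3 m (by fun_prop) (by fun_prop)) s3
  have k1 := bind_close (gam P.d) (slice hI i.sample hV.1 x).1 (slice hI i.sample hV.1 x).2 hφ
    (int_param _ (gam P.d) hψ hcont) g1 g2 hβ0 (α := β * (T + √(P.d : ℝ)) + β * √(P.d : ℝ))
    fun z => by
      have := bind_close (gam P.d) (slice hI i hV.1 (x, z)).1 (slice hI i hV.1 (x, z)).2 hφ
        (BL.int hψ _ (hcont.comp (Continuous.prodMk_right z)).aestronglyMeasurable) g1 g2 hβ0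
        (α := β * (T + ‖z‖ + √(P.d : ℝ))) fun ξ => by
          have := b V hV ((x, z), ξ) _ (bdd_sub (h := fun p : (X × E P.d) × E P.d => p.1.1) hc1 s4 hT
            (norm_sqrt_smul hv1 _) (norm_sqrt_smul hv1 _)) φ hφ
          simp only [e, val_sub, val_tmap] at this
          refine this.trans ?_
          calc _ ≤ C * P.e k jt * (2 * c1 * Λ * ϖ) * (c1 * (T + ‖z‖ + ‖ξ‖) + c1 * √(P.d : ℝ)) := by
                gcongr; exact le_mul_of_one_le_left hd hc1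
            _ = _ := by rw [hβ]; ring
      refine this.trans (le_of_eq (by ring))
  have k2 := s5 V hV m φ hφ
  refine (abs_sub_le _ _ _).trans ((add_le_add k1 k2).trans ?_)
  have hz := P.hz0
  have a1 : c1 * (P.z * P.τ ^ 3) * (‖m‖ + √(P.d : ℝ)) ≤
      6 * C * c1 ^ 2 * Λ * (P.z * P.τ ^ 3) * (T + √(P.d : ℝ)) := by
    gcongr; nlinarith [mul_le_mul hC hcΛ zero_le_one (by linarith)]
  have a2 : 6 * C * c1 ^ 2 * Λ * (P.e k jt * ϖ) = 3 * β := by rw [hβ]; ring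
  rw [mul_add (6 * C * c1 ^ 2 * Λ), add_mul, a2]
  nlinarith [mul_nonneg hβ0 hT0]

end Crest.Agent.LCS.Stp
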