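import Crest.Agent.LCS.StepA

/-! Job P2, part 4: the ladder. -/

set_option autoImplicit false
open MeasureTheory Crest.OracleSampling

namespace Crest.Agent.LCS.Stp
open Tr

variable {c1 c2 : ℝ} {jt : ℕ}

noncomputable def Env.ee (P : Env c1 c2 jt) (k j : ℕ) : ℝ :=
  P.x * P.e (k + 1) j + P.y * P.e k jt + P.z

lemma Env.ee_le (P : Env c1 c2 jt) (k j : ℕ) : P.ee k j ≤ 4 * P.e (k + 1) (j + 1) := by
  have x0 := P.x0; have x1 := P.x1; have y0 := P.y0; have y1 := P.y1; have z0 := P.hz0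
  have hx : P.x ^ jt ≤ P.z := P.hx
  have h1 : P.x * P.y ^ (k + 1) ≤ P.y ^ (k + 1) := mul_le_of_le_one_left (by positivity) x1
  have h2 : P.y * P.x ^ jt ≤ P.x ^ jt := mul_le_of_le_one_left (by positivity) y1
  have h3 : P.x * P.z ≤ P.z := mul_le_of_le_one_left z0 x1
  have h4 : P.y * P.z ≤ P.z := mul_le_of_le_one_left z0 y1
  have h5 := pow_nonneg x0 (j + 1)
  have h6 := pow_nonneg y0 (k + 1)
  simp only [Env.ee, Env.e, mul_add, ← pow_succ']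
  linarith

lemma Env.z_le (P : Env c1 c2 jt) (k j : ℕ) : P.z ≤ P.ee k j := by
  have := mul_nonneg P.x0 (P.e0 (k + 1) j); have := mul_nonneg P.y0 (P.e0 k jt)
  unfold Env.ee; linarith

noncomputable def DD (c2 Λ CY CB : ℝ) : ℝ := 6 * CB * Λ * c2 ^ 2 + (8 * Λ * c2 ^ 2 + 2) * CY + c2

section
variable (hI : ImplAPI) (hG : GaussAPI) (hF : GFacts) (hL : GLip) {k j : ℕ} {Λ CY CB : ℝ}
  (HY : YS c1 c2 jt k Λ CY) (HB : SP c1 c2 jt (k + 1) j (4 * Λ ^ 2 * c2) CB)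
  (hΛ : 1 ≤ Λ) (hc2 : 1 ≤ c2) (hCY : 1 ≤ CY) (hCB : 0 ≤ CB) (P : Env c1 c2 jt)
  (s1 : 8 * CY * P.τ ≤ 1) (s2 : CB * P.τ ≤ 1) (s3 : 2 * Λ * P.τ ≤ 1) (s4 : 8 * c2 * P.τ ≤ 1)
  {ϖ κ t : ℝ} (hϖ : ϖ ≤ P.w * P.g ^ (k + 1)) (ht : 0 < t)
include hI hG hF hL HY HB hΛ hc2 hCY hCB s1 s2 s3 s4 hϖ ht

theorem ladStep {v t' A : ℝ} (hv : 0 < v) (hvϖ : v ≤ ϖ) (ht' : 0 ≤ t') (hA : 0 ≤ A)
    (hκ : |κ| * √v * P.τ ^ 3 ≤ 2 * Λ * (P.g * ϖ * √t))
    {X : Type} [MeasurableSpace X] {c : Tr (X → E P.d)} (hc : Cen Λ v ϖ c) {qO : ℕ}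
    {O : (E P.d → ℝ) → E P.d → Measure (E P.d)} (hO : Impl P.d qO (E P.d) O)
    (hO' : ∀ V, Admissible P.d V → ∀ y, Cl (O V y) (κ • gv V (v * (1 - P.τ ^ 2)) y) t'
      (|κ| * A * (‖y‖ + √(P.d : ℝ)))) :
    ∃ q K, Impl P.d q X K ∧ (q : ℝ) ≤ qO + (CY * P.N k jt + CB * P.N (k + 1) j) ∧
      ∀ V, Admissible P.d V → ∀ (x : X) (T : ℝ), c.All (fun b => ‖b x‖ ≤ T) →
      ‖c.val V fun b => b x‖ ≤ T → Cl (K V x) (κ • gv V v (c.val V fun b => b x)) (t + t' + t)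
        (|κ| * (A * (1 + P.τ ^ 3) + DD c2 Λ CY CB * P.τ ^ 3 * P.ee k j) * (T + √(P.d : ℝ))) := by
  have hτ := P.hτ
  have hτ1 := P.hτ1
  have hgp := P.hg
  have hϖ0 : 0 < ϖ := hv.trans_le hvϖ
  have hϖw := P.lev hϖ
  have hϖτ : ϖ ≤ P.τ := hϖw.trans P.wτ
  have hv1 : v ≤ 1 := hvϖ.trans (hϖτ.trans hτ1)
  have hst := Real.sqrt_pos.2 ht
  have hk0 := abs_nonneg κ
  have x0 := P.x0
  have x1 := P.x1
  have hgx : P.g = P.x * P.τ ^ 8 := by rw [Env.x]; field_simp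
  have hwy : P.w = P.y * P.τ ^ 3 := by rw [Env.y]; field_simp
  have hκ' : |κ| * √v ≤ 2 * Λ * P.x * P.τ ^ 5 * ϖ * √t :=
    le_of_mul_le_mul_right (hκ.trans_eq (by rw [hgx]; ring)) (pow_pos hτ 3)
  obtain ⟨s, r1, r2, r3, r4, r5, r6⟩ := P.f2 v ϖ κ t hv hvϖ hϖw ht (hκ'.trans (by
    have : 2 * Λ * P.x * P.τ ^ 5 ≤ P.τ := by
      calc _ = (2 * Λ * P.τ) * P.x * P.τ ^ 4 := by ring
        _ ≤ 1 * 1 * P.τ ^ 1 := by gcongr ?_ * ?_ * ?_; exact P.pw (by norm_num)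
        _ = _ := by ring
    gcongr))
  set W := 2 * Λ * c2 * |κ| * P.x * P.τ ^ 3 with hW
  have hsW : s.wt ≤ W := r2.trans (by
    rw [div_le_iff₀ (by positivity), ← mul_div_assoc, div_le_iff₀ hst]
    calc _ ≤ c2 * |κ| * (2 * Λ * P.x * P.τ ^ 5 * ϖ * √t) := by gcongr
      _ = _ := by rw [hW]; ring)
  have hcΛ : 1 ≤ Λ * c2 := one_le_mul_of_one_le_of_one_le hΛ hc2
  have hΛ2 : 2 * (Λ * c2) ≤ 4 * Λ ^ 2 * c2 := by nlinarith
  have hl2 : c2 + Λ ≤ 4 * Λ ^ 2 * c2 := by nlinarith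
  let e := sub (tmap (fun b (p : (X × E P.d) × E P.d) => b p.1.1) c) (fun p => p.1.2)
    (fun p => √v • p.2) s
  have hwt : e.wt ≤ W := by simpa [e, r5] using hsW
  obtain ⟨qB, KB, iB, nB, bB⟩ := HB P s2 ϖ v t hϖ0 hϖ hv ht _ e
    (meas_sub hc.1 (by fun_prop) (by fun_prop) (by fun_prop) r4)
    (by simp only [e, len_sub, len_tmap]; push_cast; linarith [hc.2.1])
    (good_sub r3 r4 (good_tmap _ (good_mono' hc.2.2.2 hv (by positivity) le_rfl (by linarith)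
      (by gcongr; linarith))) (by simpa using hc.2.1) (by simpa using hc.2.2.1) hv (by positivity)
      hl2 hvϖ (by
        nlinarith [mul_le_mul_of_nonneg_left hΛ (by positivity : 0 ≤ c2 * ϖ),
          mul_le_mul_of_nonneg_right hΛ2 hϖ0.le])) (by
      calc _ ≤ W * √v * P.τ := by gcongr
        _ = 2 * Λ * c2 * (P.x * P.τ) * (|κ| * √v * P.τ ^ 3) := by rw [hW]; ring
        _ ≤ 2 * Λ * c2 * (1 * 1) * (2 * Λ * (P.g * ϖ * √t)) := by gcongr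
        _ = _ := by ring)
  obtain ⟨qY, KY, iY, nY, bY⟩ := HY P (by nlinarith) ϖ v hv hvϖ hϖ X c hc
  obtain ⟨K1, i1, b1⟩ := impl_add hI hG (Impl.ret
    (fun p : (X × E P.d) × E P.d => √t • p.2) (by fun_prop)) iB
  obtain ⟨K2, i2, b2⟩ := impl_add hI hG i1
    ((hI P.d).2.1 _ _ ((X × E P.d) × E P.d) _ (fun p => p.1.2) hO (by fun_prop))
  refine ⟨_, _, (hI P.d).2.2.1 _ _ _ _ _ iY i2.sample, by push_cast; linarith,
    fun V hV x T hT hm φ hφ => ?_⟩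
  obtain ⟨pg, -, -, -, g1, g2, -, gm, -⟩ := hG P.d
  set m := c.val V fun b => b x
  have hT0 : 0 ≤ T := (norm_nonneg _).trans hm
  have hd := Real.sqrt_nonneg (P.d : ℝ)
  have heB := P.e0 (k + 1) j
  have heY := P.e0 k jt
  have hz := P.hz0
  have hlip := fun a => hL _ V 2 a zero_le_two (hF _ V hV).1
  have hτ8 : 8 * P.τ ≤ 1 := by nlinarith
  have hv' : 0 < v * (1 - P.τ ^ 2) := mul_pos hv (by nlinarith)
  -- the ladder point
  have pY := ((hI P.d).1 _ _ _ iY V hV.1).2 x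
  obtain ⟨pQ, iQ, mQ⟩ := (((hF _ V hV).2.2 v hv hv1).2.2.2 P.τ (P.τ * √(v * (1 - P.τ ^ 2)))
    hτ.le hτ1 (by positivity)).1 m
  have dY := bY V hV x T hT hm
  obtain ⟨iYn, mY⟩ := gm _ _ _ pY pQ dY iQ
  have hsv : √v ≤ P.τ ^ 4 := Real.sqrt_le_iff.2 ⟨by positivity, by
    calc v ≤ P.w * P.g ^ (k + 1) := hvϖ.trans hϖ
      _ ≤ 1 * P.g ^ 1 := by
        gcongr ?_ * ?_
        · exact P.wτ.trans hτ1
        · exact pow_le_pow_of_le_one hgp.le P.g1 (by omega)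
      _ ≤ _ := by rw [one_mul, pow_one, ← pow_mul]; exact P.hg8⟩
  have mY' : ∫ y, ‖y‖ ∂(KY V x) ≤ T + P.τ ^ 3 * (T + √(P.d : ℝ)) := by
    have a1 : P.τ * √(v * (1 - P.τ ^ 2)) ≤ 1 * √v := by gcongr; nlinarith
    have a2 : (3 * √v + P.τ * √(v * (1 - P.τ ^ 2))) * (‖m‖ + √(P.d : ℝ)) ≤
        (P.τ ^ 3 / 2) * (T + √(P.d : ℝ)) := by
      gcongr; nlinarith [pow_pos hτ 3]
    have a3 : CY * (P.e k jt * ϖ + P.z * P.τ ^ 3) ≤ P.τ ^ 3 / 2 := by
      calc _ ≤ CY * (3 * P.τ ^ 4 + P.τ * P.τ ^ 3) := by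
            gcongr
            · exact P.e3 _ _
            · exact hϖw.trans P.hw
            · exact P.hz
        _ = (8 * CY * P.τ) * (P.τ ^ 3 / 2) := by ring
        _ ≤ _ := mul_le_of_le_one_left (by positivity) s1
    have a4 := mul_le_mul_of_nonneg_right a3 (add_nonneg hT0 hd)
    linarith
  -- the ideal conditional mean
  set ψ := Sm (t + t') φ
  have hψ : BL ψ := BL.sm hG hφ _
  let F : E P.d × E P.d → E P.d := fun p =>
    √t • p.2 + s.val V (ev3 m p.1 (√v • p.2)) + κ • gv V (v * (1 - P.τ ^ 2)) p.1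
  have hcont : Continuous F := ((continuous_snd.const_smul √t).add (cont_val hlip (by positivity)
    (cont_ev3 m continuous_fst (continuous_snd.const_smul √v)) r3)).add
    (((cont_gv hlip hv').comp continuous_fst).const_smul κ)
  have hint := fun y => BL.int hψ (gam P.d)
    (hcont.comp (Continuous.prodMk_right y)).aestronglyMeasurable
  set β := CB * P.e (k + 1) j * W * c2 with hβ
  have hβ0 : 0 ≤ β := by positivity
  have k1 := bind_close (KY V x) (slice hI i2.sample hV.1 x).1 (slice hI i2.sample hV.1 x).2 hφ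
    (int_param _ (gam P.d) hψ hcont) iYn mY' (β := β + |κ| * A) (by positivity)
    (α := β * (T + √(P.d : ℝ)) + β * √(P.d : ℝ) + |κ| * A * √(P.d : ℝ))
    fun y => by
      have := bind_close (gam P.d) (slice hI i2 hV.1 (x, y)).1 (slice hI i2 hV.1 (x, y)).2 hφ
        (hint y) g1 g2 hβ0
        (α := β * (T + ‖y‖ + √(P.d : ℝ)) + |κ| * A * (‖y‖ + √(P.d : ℝ))) fun ξ => by
          have := b2 V hV.1 ((x, y), ξ) _ _ _ _ _ _ (by positivity) ht' (b1 V hV.1 _ _ _ _ _ _ _ le_rfl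
            ht.le (cl_dirac hG _) (bB V hV ((x, y), ξ) _
              (bdd_sub (h := fun p : (X × E P.d) × E P.d => p.1.1) hc2 r4 hT le_rfl
                (norm_sqrt_smul hv1 _)))) (hO' V hV y) φ hφ
          simp only [e, val_sub, val_tmap, zero_add] at this
          refine this.trans ?_
          have : CB * P.e (k + 1) j * e.wt * (c2 * (T + ‖y‖ + ‖ξ‖) + √(P.d : ℝ)) ≤
              CB * P.e (k + 1) j * W * (c2 * (T + ‖y‖ + ‖ξ‖) + c2 * √(P.d : ℝ)) := by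
            gcongr; exact le_mul_of_one_le_left hd hc2
          simp only [e] at this
          rw [hβ]; linarith
      refine this.trans (le_of_eq (by ring))
  obtain ⟨M, hM⟩ := hψ.2
  have k2 := DL.lip dY (L := |κ| * (8 * Λ * c2 ^ 2 + 2)) (M := M) (by positivity)
    (f := fun y => ∫ ξ, ψ (F (y, ξ)) ∂(gam P.d)) (fun y y' => abs_int_sub _ (hint y) (hint y')
      fun ξ => (BL.le hψ _ _).trans (by
        have a1 := lip_val hlip (by positivity) (by nlinarith) r3 (ev := ev3 m y (√v • ξ))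
          (ev' := ev3 m y' (√v • ξ)) (δ := c2 * ‖y - y'‖) (all_mono r4 fun q hq => by
            have : ev3 m y (√v • ξ) q - ev3 m y' (√v • ξ) q = q.2.1 • (y - y') := by
              simp only [ev3, smul_sub]; abel
            rw [this, norm_smul]; gcongr; exact hq.2.1)
        have a2 := hlip _ hv' y y'
        have a3 : F (y, ξ) - F (y', ξ) = (s.val V (ev3 m y (√v • ξ)) - s.val V (ev3 m y' (√v • ξ))) +
            κ • (gv V (v * (1 - P.τ ^ 2)) y - gv V (v * (1 - P.τ ^ 2)) y') := by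
          simp only [F, smul_sub]; abel
        have a4 : s.wt ≤ 2 * Λ * c2 * |κ| * 1 * 1 := hsW.trans (by
          rw [hW]; gcongr; exact pow_le_one₀ hτ.le hτ1)
        have a5 : 4 * s.wt * (c2 * ‖y - y'‖) ≤ 4 * (2 * Λ * c2 * |κ| * 1 * 1) * (c2 * ‖y - y'‖) := by
          gcongr
        rw [r5] at a1
        simp only [ev3, Prod.fst_zero, Prod.snd_zero, zero_smul, sub_self, norm_zero] at a1
        rw [Function.comp, Function.comp, a3]
        refine (norm_add_le _ _).trans ?_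
        rw [norm_smul, Real.norm_eq_abs]
        have := mul_le_mul_of_nonneg_left a2 hk0
        linarith)) fun y => abs_int_le _ fun ξ => hM _
  have k3 := r6 V hV m _ (BL.shift hψ (κ • gv V v m))
  have e1 : ∀ y ξ, κ • gv V v m + (√t • ξ + κ • (gv V (v * (1 - P.τ ^ 2)) y - gv V v m) +
      s.val V (ev3 m y (√v • ξ))) = F (y, ξ) := fun y ξ => by simp only [F, smul_sub]; abel
  have e2 : Sm t (fun y => ψ (κ • gv V v m + y)) 0 = Sm (t + t' + t) φ (κ • gv V v m) := by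
    rw [add_comm (t + t'), ← sm_sm hG hφ ht.le (by positivity)]; simp [Sm, ψ]
  simp only [e1, e2] at k3
  refine (abs_sub_le _ _ _).trans ((add_le_add k1 ((abs_sub_le _ _ _).trans
    (add_le_add k2 k3))).trans ?_)
  have hS : 0 ≤ T + √(P.d : ℝ) := by positivity
  have y0 := P.y0
  have t3 : P.τ ^ 3 ≤ 1 := pow_le_one₀ hτ.le hτ1
  have hze := P.z_le k j
  have hee := hz.trans hze
  have a1 : β * (T + √(P.d : ℝ)) + β * √(P.d : ℝ) + β * (T + P.τ ^ 3 * (T + √(P.d : ℝ))) ≤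
      |κ| * (6 * CB * Λ * c2 ^ 2 * P.τ ^ 3 * P.ee k j) * (T + √(P.d : ℝ)) := by
    calc _ = β * (2 + P.τ ^ 3) * (T + √(P.d : ℝ)) := by ring
      _ ≤ β * (2 + 1) * (T + √(P.d : ℝ)) := by gcongr
      _ = |κ| * (6 * CB * Λ * c2 ^ 2 * P.τ ^ 3 * (P.x * P.e (k + 1) j)) * (T + √(P.d : ℝ)) := by
        rw [hβ, hW]; ring
      _ ≤ _ := by gcongr; unfold Env.ee; nlinarith [mul_nonneg y0 heY]
  have a2 : |κ| * (8 * Λ * c2 ^ 2 + 2) * (CY * (P.e k jt * ϖ + P.z * P.τ ^ 3) * (T + √(P.d : ℝ))) ≤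
      |κ| * ((8 * Λ * c2 ^ 2 + 2) * CY * P.τ ^ 3 * P.ee k j) * (T + √(P.d : ℝ)) := by
    calc _ ≤ |κ| * (8 * Λ * c2 ^ 2 + 2) *
          (CY * (P.e k jt * (P.y * P.τ ^ 3) + P.z * P.τ ^ 3) * (T + √(P.d : ℝ))) := by
          gcongr; exact hϖw.trans_eq hwy
      _ = |κ| * ((8 * Λ * c2 ^ 2 + 2) * CY * P.τ ^ 3 * (P.y * P.e k jt + P.z)) *
          (T + √(P.d : ℝ)) := by ring
      _ ≤ _ := by gcongr; unfold Env.ee; nlinarith [mul_nonneg x0 heB]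
  have a3 : c2 * |κ| * (P.z * P.τ ^ 3) * (‖m‖ + √(P.d : ℝ)) ≤
      |κ| * (c2 * P.τ ^ 3 * P.ee k j) * (T + √(P.d : ℝ)) := by
    calc _ ≤ c2 * |κ| * (P.ee k j * P.τ ^ 3) * (T + √(P.d : ℝ)) := by gcongr
      _ = _ := by ring
  unfold DD
  linarith

theorem lad (n : ℕ) : ∀ v : ℝ, 0 < v → v ≤ ϖ → v * (1 - P.τ ^ 2) ^ n ≤ P.z ^ 2 →
    |κ| * √v * P.τ ^ 3 ≤ 2 * Λ * (P.g * ϖ * √t) →
    ∃ q K, Impl P.d q (E P.d) K ∧ (q : ℝ) ≤ 1 + n * (CY * P.N k jt + CB * P.N (k + 1) j) ∧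
      ∀ V, Admissible P.d V → ∀ y, Cl (K V y) (κ • gv V v y) (2 * n * t)
        (|κ| * ((6 * P.z + n * (DD c2 Λ CY CB * P.τ ^ 3 * P.ee k j)) * (1 + P.τ ^ 3) ^ n) *
          (‖y‖ + √(P.d : ℝ))) := by
  have hτ := P.hτ
  have hz := P.hz0
  have hτ8 : 8 * P.τ ≤ 1 := by nlinarith
  induction n with
  | zero =>
    intro v hv hvϖ h1 _
    refine ⟨_, _, Impl.query id measurable_id (Impl.ret (fun p : E P.d × E P.d => κ • p.2)
      (by fun_prop)), by simp, fun V hV y => ?_⟩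
    have h2 := ((hF _ V hV).2.2 v hv (hvϖ.trans ((P.lev hϖ).trans (P.wτ.trans P.hτ1)))).2.1 y
    have h3 : √v ≤ P.z := Real.sqrt_le_iff.2 ⟨hz, by simpa using h1⟩
    have h4 := (cl_dirac hG (κ • gradient V y)).shift hG (κ • gv V v y)
    rw [zero_add, ← smul_sub, norm_smul, Real.norm_eq_abs] at h4
    simp only [Nat.cast_zero, mul_zero, zero_mul, add_zero, pow_zero, mul_one]
    refine h4.mono ?_
    rw [mul_assoc]; gcongr
    exact h2.trans (by gcongr)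
  | succ n ih =>
    intro v hv hvϖ h1 h2
    have a0 : 0 < 1 - P.τ ^ 2 := by nlinarith
    have a1 : v * (1 - P.τ ^ 2) ≤ v := by nlinarith
    obtain ⟨q, K, i, n1, b⟩ := ih (v * (1 - P.τ ^ 2)) (by positivity) (a1.trans hvϖ)
      (by rwa [mul_assoc, ← pow_succ']) (le_trans (by gcongr) h2)
    have hD : 0 ≤ DD c2 Λ CY CB * P.τ ^ 3 * P.ee k j := by
      have := hz.trans (P.z_le k j); unfold DD; positivity
    obtain ⟨q', K', i', n', b'⟩ := ladStep hI hG hF hL HY HB hΛ hc2 hCY hCB P s1 s2 s3 s4 hϖ ht hv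
      hvϖ (by positivity) (by positivity) h2 (c := leaf id) ⟨measurable_id, by simp [len]; linarith,
        by have := hv.trans_le hvϖ; simp only [wt]; positivity, trivial⟩ i b
    refine ⟨q', K', i', by push_cast; linarith, fun V hV y => ?_⟩
    have := b' V hV y ‖y‖ le_rfl le_rfl
    rw [show t + 2 * n * t + t = 2 * (n + 1 : ℕ) * t by push_cast; ring] at this
    refine this.mono ?_
    gcongr
    have : 1 ≤ (1 + P.τ ^ 3) ^ (n + 1) := one_le_pow₀ (by nlinarith [pow_pos hτ 3])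
    push_cast
    rw [mul_assoc, ← pow_succ]
    nlinarith

end

theorem ps_succ (hI : ImplAPI) (hG : GaussAPI) (hF : GFacts) (hL : GLip) {k j : ℕ} {Λ CY CB : ℝ}
    (HY : YS c1 c2 jt k Λ CY) (HB : SP c1 c2 jt (k + 1) j (4 * Λ ^ 2 * c2) CB)
    (hΛ : 1 ≤ Λ) (hc2 : 1 ≤ c2) (hCY : 1 ≤ CY) (hCB : 0 ≤ CB) :
    PS c1 c2 jt (k + 1) (j + 1) Λ (54 * (6 + 2 * DD c2 Λ CY CB)) := by
  intro P hs ϖ v t κ hv hvϖ hϖ ht X _ c hc hκ
  have hτ := P.hτ
  have hz := P.hz0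
  have hgp := P.hg
  have hϖ0 := hv.trans_le hvϖ
  have u1 : 1 ≤ Λ * c2 ^ 2 := one_le_mul_of_one_le_of_one_le hΛ (one_le_pow₀ hc2)
  have u2 : Λ ≤ Λ * c2 ^ 2 := le_mul_of_one_le_right (by linarith) (one_le_pow₀ hc2)
  have u3 : CB ≤ CB * (Λ * c2 ^ 2) := le_mul_of_one_le_right hCB u1
  have u4 : Λ * c2 ^ 2 ≤ Λ * c2 ^ 2 * CY := le_mul_of_one_le_right (by linarith) hCY
  have u5 : CB + CY + Λ + c2 ≤ DD c2 Λ CY CB := by unfold DD; linarith
  set D := DD c2 Λ CY CB with hD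
  have sm : ∀ a, a ≤ 108 * D → a * P.τ ≤ 1 := fun a ha =>
    (mul_le_mul_of_nonneg_right (by linarith) hτ.le).trans hs
  obtain ⟨n, hn⟩ : ∃ n, P.L = n + 1 := ⟨_, (Nat.sub_add_cancel P.hL1).symm⟩
  have hLn : (P.L : ℝ) = n + 1 := by rw [hn]; push_cast; ring
  have hτ1 : 8 * P.τ ≤ 1 := sm _ (by linarith)
  have a0 : 0 < 1 - P.τ ^ 2 := by nlinarith
  have a1 : v * (1 - P.τ ^ 2) ≤ v := by nlinarith
  have hv1 : v ≤ 1 := hvϖ.trans ((P.lev hϖ).trans (P.wτ.trans P.hτ1))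
  set t2 := t / (2 * (n + 1)) with ht2
  have ht20 : 0 < t2 := by positivity
  have hκ2 : |κ| * √v * P.τ ^ 3 ≤ 2 * Λ * (P.g * ϖ * √t2) := by
    have : P.τ ^ 2 * √t ≤ 2 * √t2 := by
      refine (pow_le_pow_iff_left₀ (by positivity) (by positivity) two_ne_zero).1 ?_
      rw [mul_pow, mul_pow, Real.sq_sqrt ht.le, Real.sq_sqrt ht20.le, ht2, ← mul_div_assoc,
        le_div_iff₀ (by positivity), ← hLn]
      calc _ = 2 * P.τ * (P.L * P.τ ^ 3) * t := by ring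
        _ ≤ 2 * 1 * 2 * t := by gcongr; exacts [P.hτ1, P.hL2]
        _ = _ := by ring
    calc _ = |κ| * √v * P.τ * P.τ ^ 2 := by ring
      _ ≤ Λ * (P.g * ϖ * √t) * P.τ ^ 2 := by gcongr
      _ = Λ * P.g * ϖ * (P.τ ^ 2 * √t) := by ring
      _ ≤ Λ * P.g * ϖ * (2 * √t2) := by gcongr
      _ = _ := by ring
  obtain ⟨q, K, i, n1, b⟩ := lad hI hG hF hL HY HB hΛ hc2 hCY hCB P (sm _ (by linarith))
    (sm _ (by linarith)) (sm _ (by linarith)) (sm _ (by linarith)) hϖ ht20 n (v * (1 - P.τ ^ 2))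
    (by positivity) (a1.trans hvϖ) (by
      rw [mul_assoc, ← pow_succ', ← hn]
      exact (mul_le_of_le_one_left (by positivity) hv1).trans P.hLz) (le_trans (by gcongr) hκ2)
  have hee := hz.trans (P.z_le k j)
  have hD0 : 0 ≤ D := by linarith
  obtain ⟨q', K', i', n', b'⟩ := ladStep hI hG hF hL HY HB hΛ hc2 hCY hCB P (sm _ (by linarith))
    (sm _ (by linarith)) (sm _ (by linarith)) (sm _ (by linarith)) hϖ ht20 hv hvϖ (by positivity)
    (by positivity) hκ2 hc i b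
  refine ⟨q', K', i', ?_, fun V hV x R hR => ?_⟩
  · have e1 : P.N (k + 1) (j + 1) = (n + 1) * P.N (k + 1) j := by
      rw [← hLn, Env.N, Env.N, ← pow_succ', add_assoc]
    have e2 : P.N k jt ≤ P.N (k + 1) j :=
      pow_le_pow_right₀ (by exact_mod_cast P.hL1) (by nlinarith)
    have e3 := P.N1 (k + 1) (j + 1)
    have e4 : CY * P.N k jt ≤ CY * P.N (k + 1) j := by gcongr
    have e5 : (n + 1) * (CY * P.N k jt + CB * P.N (k + 1) j) ≤
        (n + 1) * (CY * P.N (k + 1) j + CB * P.N (k + 1) j) := by gcongr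
    have e6 : (1 + CY + CB) * P.N (k + 1) (j + 1) ≤ 54 * (6 + 2 * D) * P.N (k + 1) (j + 1) := by
      gcongr; linarith
    rw [e1] at e3 e6 ⊢
    linarith
  · have h3 : 0 ≤ R := (norm_nonneg _).trans (all_base hR)
    have hd := Real.sqrt_nonneg (P.d : ℝ)
    have := b' V hV x _ (all_mono hR fun _ h => h.trans (le_add_of_nonneg_right (by positivity)))
      (norm_cen hF P hΛ hc hv (P.lev hϖ) (sm _ (by linarith)) hV hR)
    rw [show t2 + 2 * n * t2 + t2 = t by rw [ht2]; field_simp; ring] at this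
    refine this.mono ?_
    have f1 : (1 + P.τ ^ 3) ^ (n + 1) ≤ 9 := by
      calc _ ≤ Real.exp (P.τ ^ 3) ^ (n + 1) := by gcongr; linarith [Real.add_one_le_exp (P.τ ^ 3)]
        _ = Real.exp (P.L * P.τ ^ 3) := by rw [← Real.exp_nat_mul, hn]
        _ ≤ Real.exp 1 ^ 2 := by
          rw [← Real.exp_nat_mul]; exact Real.exp_le_exp.2 (by simpa using P.hL2)
        _ ≤ 3 ^ 2 := by gcongr; exact Real.exp_one_lt_three.le
        _ = 9 := by norm_num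
    have f2 : 1 ≤ (1 + P.τ ^ 3) ^ (n + 1) := one_le_pow₀ (by nlinarith [pow_pos hτ 3])
    have f3 : (n + 1) * (D * P.τ ^ 3 * P.ee k j) ≤ 2 * D * P.ee k j := by
      calc _ = (P.L * P.τ ^ 3) * D * P.ee k j := by rw [hLn]; ring
        _ ≤ _ := by gcongr; exact P.hL2
    have f4 : 0 ≤ D * P.τ ^ 3 * P.ee k j := by positivity
    have f5 : (6 * P.z + n * (D * P.τ ^ 3 * P.ee k j)) * (1 + P.τ ^ 3) ^ n * (1 + P.τ ^ 3) +
        D * P.τ ^ 3 * P.ee k j ≤ (6 + 2 * D) * (4 * P.e (k + 1) (j + 1)) * 9 := by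
      calc _ ≤ (6 * P.z + (n + 1) * (D * P.τ ^ 3 * P.ee k j)) * (1 + P.τ ^ 3) ^ (n + 1) := by
            rw [mul_assoc, ← pow_succ]; nlinarith
        _ ≤ (6 * P.ee k j + 2 * D * P.ee k j) * 9 := by gcongr; exact P.z_le k j
        _ = (6 + 2 * D) * P.ee k j * 9 := by ring
        _ ≤ _ := by gcongr; exact P.ee_le k j
    calc _ ≤ |κ| * ((6 + 2 * D) * (4 * P.e (k + 1) (j + 1)) * 9) *
          (R + (R + √(P.d : ℝ)) / 2 + √(P.d : ℝ)) := by gcongr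
      _ = _ := by ring

theorem sp_all (hI : ImplAPI) (hG : GaussAPI) (hF : GFacts) (hL : GLip) (hc1 : 1 ≤ c1)
    (hc2 : 1 ≤ c2) (k j : ℕ) : ∀ Λ : ℝ, 1 ≤ Λ → ∃ C, 1 ≤ C ∧ SP c1 c2 jt k j Λ C := by
  have ab : ∀ k j, (∀ Λ : ℝ, 1 ≤ Λ → ∃ C, 1 ≤ C ∧ PS c1 c2 jt k j Λ C) →
      ∀ Λ : ℝ, 1 ≤ Λ → ∃ C, 1 ≤ C ∧ SP c1 c2 jt k j Λ C := fun k j h Λ hΛ => by
    obtain ⟨C, hC, h⟩ := h (2 * Λ ^ 2) (by nlinarith)
    exact ⟨_, one_le_mul_of_one_le_of_one_le hΛ hC, sp_of_ps hI hG hΛ (by linarith) h⟩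
  induction k generalizing j with
  | zero => exact ab _ _ fun Λ hΛ => ⟨_, by linarith, ps_zero hG hF (Or.inl rfl) hΛ⟩
  | succ k ihk =>
    induction j with
    | zero => exact ab _ _ fun Λ hΛ => ⟨_, by linarith, ps_zero hG hF (Or.inr rfl) hΛ⟩
    | succ j ihj =>
      refine ab _ _ fun Λ hΛ => ?_
      obtain ⟨C, hC, h⟩ := ihk jt (4 * c1 * Λ) (by nlinarith)
      obtain ⟨CB, hCB, hB⟩ := ihj (4 * Λ ^ 2 * c2) (by nlinarith [one_le_pow₀ (n := 2) hΛ])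
      have h1 : 1 ≤ 6 * C * c1 ^ 2 * Λ := by
        nlinarith [one_le_mul_of_one_le_of_one_le (one_le_mul_of_one_le_of_one_le hC
          (one_le_pow₀ (n := 2) hc1)) hΛ]
      refine ⟨_, ?_, ps_succ hI hG hF hL (ys_of_sp hI hG hF hL hΛ hC hc1 h) hB hΛ hc2 h1
        (by linarith)⟩
      have : 0 ≤ DD c2 Λ (6 * C * c1 ^ 2 * Λ) CB := by unfold DD; positivity
      linarith

end Crest.Agent.LCS.Stp
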