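import Crest.Agent.LCS.StepTr

/-! Job P2, part 2: Gaussian smoothing and hybrid lemmas. -/

set_option autoImplicit false
open MeasureTheory ProbabilityTheory

namespace Crest.Agent.LCS.Stp

variable {d : ℕ}

lemma BL.le {φ : E d → ℝ} (h : BL φ) (x y : E d) : |φ x - φ y| ≤ ‖x - y‖ := by
  simpa [Real.dist_eq, dist_eq_norm] using h.1.dist_le_mul x y

lemma BL.of_le {φ : E d → ℝ} {M : ℝ} (h : ∀ x y, |φ x - φ y| ≤ ‖x - y‖) (hM : ∀ x, |φ x| ≤ M) :
    BL φ :=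
  ⟨LipschitzWith.of_dist_le_mul fun x y => by simpa [Real.dist_eq, dist_eq_norm] using h x y, M, hM⟩

lemma BL.shift {φ : E d → ℝ} (h : BL φ) (m : E d) : BL fun y => φ (m + y) := by
  obtain ⟨M, hM⟩ := h.2
  exact BL.of_le (fun x y => by simpa using BL.le h (m + x) (m + y)) fun x => hM _

lemma integrable_bdd {Y : Type} [MeasurableSpace Y] (μ : Measure Y) [IsFiniteMeasure μ] {f : Y → ℝ}
    (hf : AEStronglyMeasurable f μ) {M : ℝ} (hM : ∀ x, |f x| ≤ M) : Integrable f μ :=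
  Integrable.of_bound hf M (ae_of_all _ hM)

lemma BL.int {φ : E d → ℝ} (h : BL φ) {Y : Type} [MeasurableSpace Y] (μ : Measure Y)
    [IsFiniteMeasure μ] {f : Y → E d} (hf : AEStronglyMeasurable f μ) :
    Integrable (fun y => φ (f y)) μ := by
  obtain ⟨M, hM⟩ := h.2
  exact integrable_bdd μ (h.1.continuous.comp_aestronglyMeasurable hf) fun x => hM _

lemma BL.int' {φ : E d → ℝ} (h : BL φ) (μ : Measure (E d)) [IsFiniteMeasure μ] :
    Integrable φ μ := BL.int h μ aestronglyMeasurable_id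

lemma abs_int_le {Y : Type} [MeasurableSpace Y] (μ : Measure Y) [IsProbabilityMeasure μ]
    {f : Y → ℝ} {M : ℝ} (hM : ∀ x, |f x| ≤ M) : |∫ x, f x ∂μ| ≤ M := by
  simpa using norm_integral_le_of_norm_le_const (μ := μ) (f := f) (C := M) (ae_of_all _ hM)

lemma abs_int_sub {Y : Type} [MeasurableSpace Y] (μ : Measure Y) [IsProbabilityMeasure μ]
    {f g : Y → ℝ} (hf : Integrable f μ) (hg : Integrable g μ) {M : ℝ} (hM : ∀ x, |f x - g x| ≤ M) :
    |∫ x, f x ∂μ - ∫ x, g x ∂μ| ≤ M := by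
  rw [← integral_sub hf hg]; exact abs_int_le μ hM

lemma BL.avg {φ : E d → ℝ} (h : BL φ) {Y : Type} [MeasurableSpace Y] (μ : Measure Y)
    [IsProbabilityMeasure μ] {f : Y → E d} (hf : AEStronglyMeasurable f μ) :
    BL fun m => ∫ y, φ (m + f y) ∂μ := by
  obtain ⟨M, hM⟩ := h.2
  refine BL.of_le (fun x y => abs_int_sub μ (BL.int (BL.shift h x) μ hf)
    (BL.int (BL.shift h y) μ hf) fun z => ?_) fun x => abs_int_le μ fun z => hM _
  simpa using BL.le h (x + f z) (y + f z)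

lemma integral_bind' {Y : Type} [MeasurableSpace Y] (μ : Measure Y) [IsProbabilityMeasure μ]
    {K : Y → Measure (E d)} (hK : Measurable K) (hp : ∀ y, IsProbabilityMeasure (K y))
    {φ : E d → ℝ} (hφ : BL φ) : ∫ x, φ x ∂(μ.bind K) = ∫ y, ∫ x, φ x ∂(K y) ∂μ := by
  have := isProbabilityMeasure_bind (m := μ) hK.aemeasurable (ae_of_all _ hp)
  have e : μ.bind K = ((⟨K, hK⟩ : Kernel Y (E d)) ∘ₖ Kernel.const Unit μ) () := rfl
  have h := BL.int' hφ (μ.bind K)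
  rw [e] at h ⊢
  exact Kernel.integral_comp h

lemma int_kernel {Y : Type} [MeasurableSpace Y] (μ : Measure Y) [IsProbabilityMeasure μ]
    {K : Y → Measure (E d)} (hK : Measurable K) (hp : ∀ y, IsProbabilityMeasure (K y))
    {φ : E d → ℝ} (hφ : BL φ) : Integrable (fun y => ∫ x, φ x ∂(K y)) μ := by
  obtain ⟨M, hM⟩ := hφ.2
  have : IsMarkovKernel (⟨K, hK⟩ : Kernel Y (E d)) := ⟨hp⟩
  exact integrable_bdd μ (hφ.1.continuous.stronglyMeasurable.integral_kernel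
    (κ := (⟨K, hK⟩ : Kernel Y (E d)))).aestronglyMeasurable fun y => abs_int_le _ hM

lemma int_close (μ : Measure (E d)) [IsProbabilityMeasure μ] {f f' : E d → ℝ}
    (hf : Integrable f μ) (hf' : Integrable f' μ) {α β m : ℝ}
    (hi : Integrable (fun y : E d => ‖y‖) μ) (hm : ∫ y, ‖y‖ ∂μ ≤ m) (hβ : 0 ≤ β)
    (h : ∀ y, |f y - f' y| ≤ α + β * ‖y‖) : |∫ y, f y ∂μ - ∫ y, f' y ∂μ| ≤ α + β * m := by
  rw [← integral_sub hf hf']
  refine (norm_integral_le_of_norm_le (f := fun y => f y - f' y) (g := fun y => α + β * ‖y‖)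
    ((integrable_const α).add (hi.const_mul β)) (ae_of_all _ h)).trans ?_
  rw [integral_add (integrable_const α) (hi.const_mul β), integral_const_mul]
  simpa using mul_le_mul_of_nonneg_left hm hβ

lemma bind_close (μ : Measure (E d)) [IsProbabilityMeasure μ]
    {K : E d → Measure (E d)} (hK : Measurable K) (hp : ∀ y, IsProbabilityMeasure (K y))
    {φ : E d → ℝ} (hφ : BL φ) {f' : E d → ℝ} (hf' : Integrable f' μ) {α β m : ℝ}
    (hi : Integrable (fun y : E d => ‖y‖) μ) (hm : ∫ y, ‖y‖ ∂μ ≤ m) (hβ : 0 ≤ β)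
    (h : ∀ y, |∫ x, φ x ∂(K y) - f' y| ≤ α + β * ‖y‖) :
    |∫ x, φ x ∂(μ.bind K) - ∫ y, f' y ∂μ| ≤ α + β * m := by
  rw [integral_bind' μ hK hp hφ]
  exact int_close μ (int_kernel μ hK hp hφ) hf' hi hm hβ h

lemma DL.lip {μ ν : Measure (E d)} [IsProbabilityMeasure μ] [IsProbabilityMeasure ν] {ε L M : ℝ}
    (h : DL μ ν ε) (hL : 0 ≤ L) {f : E d → ℝ}
    (hf : ∀ x y, |f x - f y| ≤ L * ‖x - y‖) (hM : ∀ x, |f x| ≤ M) :
    |∫ x, f x ∂μ - ∫ x, f x ∂ν| ≤ L * ε := by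
  rcases hL.eq_or_lt with rfl | hL
  · have : f = fun _ => f 0 := funext fun x => by simpa [sub_eq_zero] using hf x 0
    rw [this]; simp
  have := h (fun x => L⁻¹ * f x) (BL.of_le (M := L⁻¹ * M) (fun x y => by
    rw [← mul_sub, abs_mul, abs_of_pos (inv_pos.2 hL), inv_mul_le_iff₀ hL]; exact hf x y)
    fun x => by rw [abs_mul, abs_of_pos (inv_pos.2 hL)]; gcongr; exact hM x)
  rwa [integral_const_mul, integral_const_mul, ← mul_sub, abs_mul, abs_of_pos (inv_pos.2 hL),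
    inv_mul_le_iff₀ hL] at this

lemma int_param (μ ν : Measure (E d)) [IsProbabilityMeasure μ] [IsProbabilityMeasure ν]
    {φ : E d → ℝ} (hφ : BL φ) {F : E d × E d → E d} (hF : Continuous F) :
    Integrable (fun y => ∫ x, φ (F (y, x)) ∂ν) μ :=
  (BL.int hφ (μ.prod ν) hF.aestronglyMeasurable).integral_prod_left

/-- Gaussian smoothing with variance `t` -/
noncomputable def Sm (t : ℝ) (φ : E d → ℝ) (m : E d) : ℝ := ∫ z, φ (m + √t • z) ∂(gam d)

/-- closeness to `N(m, t)` -/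
def Cl (μ : Measure (E d)) (m : E d) (t ε : ℝ) : Prop :=
  ∀ φ : E d → ℝ, BL φ → |∫ x, φ x ∂μ - Sm t φ m| ≤ ε

lemma Cl.mono {μ : Measure (E d)} {m : E d} {t ε ε' : ℝ} (h : Cl μ m t ε) (h' : ε ≤ ε') :
    Cl μ m t ε' := fun φ hφ => (h φ hφ).trans h'

lemma int_gaussN {φ : E d → ℝ} (hφ : BL φ) (m : E d) {a t : ℝ} (h : √t = a) :
    ∫ y, φ y ∂(gaussN m a) = Sm t φ m := by
  rw [gaussN, integral_map (by fun_prop) hφ.1.continuous.aestronglyMeasurable, Sm, h]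

lemma BL.sm (hG : GaussAPI) {φ : E d → ℝ} (hφ : BL φ) (t : ℝ) : BL (Sm t φ) := by
  have := (hG d).1
  exact BL.avg hφ _ (by fun_prop)

lemma sm_zero (hG : GaussAPI) (φ : E d → ℝ) (m : E d) : Sm 0 φ m = φ m := by
  have := (hG d).1
  simp [Sm]

lemma sm_sm (hG : GaussAPI) {φ : E d → ℝ} (hφ : BL φ) {t t' : ℝ} (ht : 0 ≤ t) (ht' : 0 ≤ t')
    (m : E d) : Sm t (Sm t' φ) m = Sm (t + t') φ m := by
  have := (hG d).1
  have h := (hG d).2.2.2.2.2.2.1 √t √t'
  rw [Real.sq_sqrt ht, Real.sq_sqrt ht'] at h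
  have hm := (BL.shift hφ m).1.continuous
  have e := congrArg (fun μ => ∫ y, φ (m + y) ∂μ) h
  rw [integral_map (by fun_prop) hm.aestronglyMeasurable,
    integral_map (by fun_prop) hm.aestronglyMeasurable,
    integral_prod _ (BL.int (BL.shift hφ m) _ (by fun_prop))] at e
  simp only [Sm, add_assoc]
  exact e

lemma cl_dirac (hG : GaussAPI) (m : E d) : Cl (Measure.dirac m) m 0 0 := fun φ _ => by
  simp [sm_zero hG]

lemma Cl.shift (hG : GaussAPI) {μ : Measure (E d)} {m : E d} {t ε : ℝ} (h : Cl μ m t ε)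
    (m' : E d) : Cl μ m' t (ε + ‖m - m'‖) := fun φ hφ => by
  have h1 := h φ hφ
  have h2 := BL.le (BL.sm hG hφ t) m m'
  rw [abs_le] at *
  constructor <;> linarith [h1.1, h1.2, h2.1, h2.2]

lemma slice (hI : ImplAPI) {X : Type} [MeasurableSpace X] {q : ℕ}
    {K : (E d → ℝ) → X × E d → Measure (E d)} (h : Impl d q (X × E d) K) {V : E d → ℝ}
    (hV : ContDiff ℝ 2 V) (x : X) :
    Measurable (fun y => K V (x, y)) ∧ ∀ y, IsProbabilityMeasure (K V (x, y)) :=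
  ⟨((hI d).1 _ _ _ h V hV).1.comp measurable_prodMk_left, fun _ => ((hI d).1 _ _ _ h V hV).2 _⟩

lemma impl_add (hI : ImplAPI) (hG : GaussAPI) {X : Type} [MeasurableSpace X] {q₁ q₂ : ℕ}
    {K₁ K₂ : (E d → ℝ) → X → Measure (E d)} (h1 : Impl d q₁ X K₁) (h2 : Impl d q₂ X K₂) :
    ∃ K, Impl d (q₁ + q₂) X K ∧ ∀ V, ContDiff ℝ 2 V → ∀ (x : X) (m m' : E d) (t t' ε ε' : ℝ),
      0 ≤ t → 0 ≤ t' → Cl (K₁ V x) m t ε → Cl (K₂ V x) m' t' ε' →
      Cl (K V x) (m + m') (t + t') (ε + ε') := by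
  obtain ⟨hm, hc, hb, -⟩ := hI d
  have i1 := hb _ _ _ _ _ (hc _ _ (X × E d) _ Prod.fst h2 measurable_fst)
    (Impl.ret (fun p : (X × E d) × E d => p.1.2 + p.2) (by fun_prop))
  refine ⟨_, hb _ _ _ _ _ h1 i1, fun V hV x m m' t t' ε ε' ht ht' c1 c2 φ hφ => ?_⟩
  have p1 := (hm _ _ _ h1 V hV).2 x
  have p2 := (hm _ _ _ h2 V hV).2 x
  have := (hG d).1
  have e : ∀ y, ∫ z, φ z ∂((K₂ V x).bind fun y' => Measure.dirac (y + y')) =
      ∫ z, φ (y + z) ∂(K₂ V x) := fun y => by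
    rw [integral_bind' _ (by fun_prop) (fun _ => inferInstance) hφ]; simp
  rw [integral_bind' _ (slice hI i1 hV x).1 (slice hI i1 hV x).2 hφ]
  simp only [e]
  have f1 : BL fun y => ∫ z, φ (y + z) ∂(K₂ V x) := BL.avg hφ (K₂ V x) aestronglyMeasurable_id
  have a1 := c1 _ f1
  have a2 : |Sm t (fun y => ∫ z, φ (y + z) ∂(K₂ V x)) m - Sm t (Sm t' φ) (m + m')| ≤ ε' := by
    refine abs_int_sub _ (BL.int f1 _ (by fun_prop)) (BL.int (BL.sm hG hφ _) _ (by fun_prop))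
      fun z => ?_
    have := c2 _ (BL.shift hφ (m + √t • z))
    simpa only [Sm, add_assoc, add_comm (√t • z), add_left_comm (√t • z)] using this
  rw [sm_sm hG hφ ht ht'] at a2
  rw [abs_le] at *
  constructor <;> linarith [a1.1, a1.2, a2.1, a2.2]

lemma impl_gauss (hG : GaussAPI) {X : Type} [MeasurableSpace X] {b : X → E d} (hb : Measurable b)
    (t : ℝ) : ∃ K, Impl d 0 X K ∧ ∀ V x, Cl (K V x) (b x) t 0 := by
  have := (hG d).1
  refine ⟨_, Impl.sample (Impl.ret (fun p : X × E d => b p.1 + √t • p.2) (by fun_prop)),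
    fun V x φ hφ => ?_⟩
  rw [integral_bind' _ (by fun_prop) (fun _ => inferInstance) hφ]
  simp [Sm]

end Crest.Agent.LCS.Stp
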