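import Crest.Agent.LCS.Defs

/-! Job P2, part 1: combinatorics of expression trees. -/

set_option autoImplicit false
open MeasureTheory

namespace Crest.Agent.LCS.Stp
open Tr

variable {B B' : Type} {d : ℕ}

/-- relabel the bases -/
def tmap (f : B → B') : Tr B → Tr B'
  | leaf b => leaf (f b)
  | add e κ v c => add (tmap f e) κ v (tmap f c)

@[simp] lemma len_tmap (f : B → B') (e : Tr B) : (tmap f e).len = e.len := by
  induction e with
  | leaf b => rfl
  | add e κ v c h _ => simp [tmap, len, h]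

@[simp] lemma wt_tmap (f : B → B') (e : Tr B) : (tmap f e).wt = e.wt := by
  induction e with
  | leaf b => rfl
  | add e κ v c h _ => simp [tmap, wt, h]

lemma val_tmap (V : E d → ℝ) (ev : B' → E d) (f : B → B') (e : Tr B) :
    (tmap f e).val V ev = e.val V (fun b => ev (f b)) := by
  induction e with
  | leaf b => rfl
  | add e κ v c h h' => simp [tmap, val, h, h']

lemma good_tmap (f : B → B') {Λ s η ω : ℝ} {e : Tr B} (h : e.Good Λ s η ω) :
    (tmap f e).Good Λ s η ω := by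
  induction e with
  | leaf b => trivial
  | add e κ v c h1 h2 =>
    obtain ⟨a1, a2, a3, a4, a5, a6, a7⟩ := h
    exact ⟨h1 a1, a2, a3, a4, by simpa, by simpa, h2 a7⟩

lemma all_tmap {f : B → B'} {P : B → Prop} {P' : B' → Prop} {e : Tr B} (h : e.All P)
    (hf : ∀ b, P b → P' (f b)) : (tmap f e).All P' := by
  induction e with
  | leaf b => exact hf b h
  | add e κ v c h1 h2 => exact ⟨h1 h.1, h2 h.2⟩

lemma all_mono {P P' : B → Prop} {e : Tr B} (h : e.All P) (hf : ∀ b, P b → P' b) : e.All P' := by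
  induction e with
  | leaf b => exact hf b h
  | add e κ v c h1 h2 => exact ⟨h1 h.1, h2 h.2⟩

lemma all_base {P : B → Prop} {e : Tr B} (h : e.All P) : P e.base := by
  induction e with
  | leaf b => exact h
  | add e κ v c h1 _ => exact h1 h.1

lemma wt_nonneg (e : Tr B) : 0 ≤ e.wt := by
  induction e with
  | leaf b => exact le_rfl
  | add e κ v c h1 _ => exact add_nonneg h1 (abs_nonneg _)

lemma good_mono {Λ s η ω Λ' s' η' ω' : ℝ} {e : Tr B} (h : e.Good Λ s η ω) (h1 : s' / Λ' ≤ s / Λ)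
    (h2 : Λ * s ≤ Λ' * s') (h3 : η ≤ η') (h4 : Λ ≤ Λ') (h5 : ω ≤ ω') : e.Good Λ' s' η' ω' := by
  induction e with
  | leaf b => trivial
  | add e κ v c i1 i2 =>
    obtain ⟨a1, a2, a3, a4, a5, a6, a7⟩ := h
    exact ⟨i1 a1, h1.trans a2, a3.trans h2, a4.trans h3, a5.trans h4, a6.trans h5, i2 a7⟩

lemma good_mono' {Λ s η ω Λ' η' ω' : ℝ} {e : Tr B} (h : e.Good Λ s η ω) (hs : 0 < s) (hΛ : 0 < Λ)
    (h3 : η ≤ η') (h4 : Λ ≤ Λ') (h5 : ω ≤ ω') : e.Good Λ' s η' ω' :=
  good_mono h (by gcongr) (by gcongr) h3 h4 h5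

variable {X : Type}

/-- `t • c + w` -/
def aff (t : ℝ) (w : X → E d) : Tr (X → E d) → Tr (X → E d)
  | leaf b => leaf (fun x => t • b x + w x)
  | add e κ v c => add (aff t w e) (t * κ) v c

@[simp] lemma len_aff (t : ℝ) (w : X → E d) (e : Tr (X → E d)) : (aff t w e).len = e.len := by
  induction e with
  | leaf b => rfl
  | add e κ v c h _ => simp [aff, len, h]

@[simp] lemma wt_aff (t : ℝ) (w : X → E d) (e : Tr (X → E d)) : (aff t w e).wt = |t| * e.wt := by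
  induction e with
  | leaf b => simp [aff, wt]
  | add e κ v c h _ => simp [aff, wt, h, abs_mul, mul_add]

lemma val_aff (V : E d → ℝ) (x : X) (t : ℝ) (w : X → E d) (e : Tr (X → E d)) :
    (aff t w e).val V (fun b => b x) = t • e.val V (fun b => b x) + w x := by
  induction e with
  | leaf b => rfl
  | add e κ v c h _ => simp only [aff, val, h, smul_add, mul_smul]; abel

lemma good_aff (t : ℝ) (w : X → E d) {Λ s η ω : ℝ} {e : Tr (X → E d)} (h : e.Good Λ s η ω) :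
    (aff t w e).Good Λ s η ω := by
  induction e with
  | leaf b => trivial
  | add e κ v c h1 _ => exact ⟨h1 h.1, h.2⟩

lemma all_aff {t : ℝ} {w : X → E d} {P P' : (X → E d) → Prop} {e : Tr (X → E d)} (h : e.All P)
    (h1 : ∀ b, P b → P' (fun x => t • b x + w x)) (h2 : ∀ b, P b → P' b) : (aff t w e).All P' := by
  induction e with
  | leaf b => exact h1 b h
  | add e κ v c i1 _ => exact ⟨i1 h.1, all_mono h.2 h2⟩

/-- substitution of a tree for the centre of a scheme -/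
def sub (c : Tr (X → E d)) (y ξ : X → E d) : Tr (ℝ × ℝ × ℝ) → Tr (X → E d)
  | leaf q => aff q.1 (fun x => q.2.1 • y x + q.2.2 • ξ x) c
  | add e κ v c' => add (sub c y ξ e) κ v (sub c y ξ c')

variable {c : Tr (X → E d)} {y ξ : X → E d}

@[simp] lemma len_sub (s : Tr (ℝ × ℝ × ℝ)) : (sub c y ξ s).len = s.len + c.len := by
  induction s with
  | leaf b => simp [sub, len]
  | add e κ v c h _ => simp only [sub, len, h]; omega

@[simp] lemma wt_sub (s : Tr (ℝ × ℝ × ℝ)) : (sub c y ξ s).wt = s.wt + |s.base.1| * c.wt := by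
  induction s with
  | leaf b => simp [sub, wt, base]
  | add e κ v c h _ => simp only [sub, wt, h, base]; ring

lemma val_sub (V : E d → ℝ) (x : X) (s : Tr (ℝ × ℝ × ℝ)) :
    (sub c y ξ s).val V (fun b => b x) =
      s.val V (ev3 (c.val V fun b => b x) (y x) (ξ x)) := by
  induction s with
  | leaf b => simp [sub, val, val_aff, ev3, add_assoc]
  | add e κ v c h h' => simp only [sub, val, h, h']

lemma good_sub {s : Tr (ℝ × ℝ × ℝ)} {C v η ω Λ η' ω' Λc ωc : ℝ} (hs : s.Good C v η ω)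
    (hC : s.All (Coef C)) (hc : c.Good Λ v η' ω') (hl : (c.len : ℝ) ≤ Λc) (hw : c.wt ≤ ωc)
    (hv : 0 < v) (hC0 : 0 < C) (h1 : C + Λc ≤ Λ) (h2 : η ≤ η') (h3 : ω + C * ωc ≤ ω') :
    (sub c y ξ s).Good Λ v η' ω' := by
  have hCΛ : C ≤ Λ := by linarith [(Nat.cast_nonneg c.len).trans hl]
  induction s with
  | leaf b => exact good_aff _ _ hc
  | add e κ v' c' i1 i2 =>
    obtain ⟨a1, a2, a3, a4, a5, a6, a7⟩ := hs
    refine ⟨i1 a1 hC.1, le_trans (by gcongr) a2, a3.trans (by gcongr), a4.trans h2, ?_, ?_,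
      i2 a7 hC.2⟩
    · rw [len_sub]; push_cast; linarith
    · rw [wt_sub]
      have := mul_le_mul (all_base hC.2).1 hw (wt_nonneg _) hC0.le
      linarith

lemma all_sub {s : Tr (ℝ × ℝ × ℝ)} {Q : ℝ × ℝ × ℝ → Prop} {P P' : (X → E d) → Prop}
    (hs : s.All Q) (hc : c.All P)
    (h1 : ∀ q b, Q q → P b → P' (fun x => q.1 • b x + (q.2.1 • y x + q.2.2 • ξ x)))
    (h2 : ∀ b, P b → P' b) : (sub c y ξ s).All P' := by
  induction s with
  | leaf q => exact all_aff hc (fun b => h1 q b hs) h2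
  | add e κ v c' i1 i2 => exact ⟨i1 hs.1, i2 hs.2⟩

lemma norm_ev3 {C T : ℝ} {q : ℝ × ℝ × ℝ} (hq : Coef C q) {m y ξ : E d} (hm : ‖m‖ ≤ T) :
    ‖q.1 • m + (q.2.1 • y + q.2.2 • ξ)‖ ≤ C * (T + ‖y‖ + ‖ξ‖) := by
  have hC : 0 ≤ C := (abs_nonneg _).trans hq.1
  refine (norm_add_le _ _).trans ?_
  have h1 := norm_add_le (q.2.1 • y) (q.2.2 • ξ)
  simp only [norm_smul, Real.norm_eq_abs] at h1 ⊢
  have := mul_le_mul hq.1 hm (norm_nonneg _) hC
  have := mul_le_mul_of_nonneg_right hq.2.1 (norm_nonneg y)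
  have := mul_le_mul_of_nonneg_right hq.2.2 (norm_nonneg ξ)
  nlinarith

section Val
variable {V : E d → ℝ} {Λ s η ω : ℝ}

lemma norm_val (hV : ∀ a : ℝ, 0 < a → a ≤ 1 → ∀ x, ‖gv V a x‖ ≤ 2 * (‖x‖ + √(d : ℝ)))
    (h0 : 0 < s / Λ) (hη : η ≤ 1) (hω : ω ≤ 1 / 8) {ev : B → E d} {R : ℝ} {e : Tr B}
    (hg : e.Good Λ s η ω) (ha : e.All fun b => ‖ev b‖ ≤ R) :
    ‖e.val V ev‖ ≤ R + 4 * e.wt * (R + √(d : ℝ)) := by
  have hR : 0 ≤ R := (norm_nonneg _).trans (all_base ha)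
  have hd := Real.sqrt_nonneg (d : ℝ)
  induction e with
  | leaf b => simpa [val, wt, All] using ha
  | add e κ v c i1 i2 =>
    obtain ⟨a1, a2, -, a4, -, a6, a7⟩ := hg
    have b1 := i1 a1 ha.1
    have b2 := i2 a7 ha.2
    have b3 := hV v (h0.trans_le a2) (a4.trans hη) (c.val V ev)
    have b4 : c.wt * (R + √(d : ℝ)) ≤ 1 / 8 * (R + √(d : ℝ)) := by gcongr; linarith
    have b5 : |κ| * ‖gv V v (c.val V ev)‖ ≤ |κ| * (4 * (R + √(d : ℝ))) := by gcongr; linarith
    refine (norm_add_le _ _).trans ?_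
    rw [norm_smul, Real.norm_eq_abs, wt]
    linarith

lemma lip_val (hV : ∀ a : ℝ, 0 < a → ∀ x y, ‖gv V a x - gv V a y‖ ≤ 2 * ‖x - y‖)
    (h0 : 0 < s / Λ) (hω : ω ≤ 1 / 8) {ev ev' : B → E d} {δ : ℝ} {e : Tr B}
    (hg : e.Good Λ s η ω) (ha : e.All fun b => ‖ev b - ev' b‖ ≤ δ) :
    ‖e.val V ev - e.val V ev'‖ ≤ ‖ev e.base - ev' e.base‖ + 4 * e.wt * δ := by
  have hδ : 0 ≤ δ := (norm_nonneg _).trans (all_base ha)
  induction e with
  | leaf b => simp [val, wt, base]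
  | add e κ v c i1 i2 =>
    obtain ⟨a1, a2, -, -, -, a6, a7⟩ := hg
    have b1 := i1 a1 ha.1
    have b2 := i2 a7 ha.2
    have b3 := hV v (h0.trans_le a2) (c.val V ev) (c.val V ev')
    have b4 : c.wt * δ ≤ 1 / 8 * δ := by gcongr; linarith
    have b6 := all_base ha.2
    have b5 : |κ| * ‖gv V v (c.val V ev) - gv V v (c.val V ev')‖ ≤ |κ| * (4 * δ) := by
      gcongr; linarith
    rw [val, val, add_sub_add_comm, ← smul_sub]
    refine (norm_add_le _ _).trans ?_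
    rw [norm_smul, Real.norm_eq_abs, wt, base]
    linarith

lemma cont_gv (hV : ∀ a : ℝ, 0 < a → ∀ x y, ‖gv V a x - gv V a y‖ ≤ 2 * ‖x - y‖) {a : ℝ}
    (ha : 0 < a) : Continuous (gv V a) :=
  (LipschitzWith.of_dist_le_mul (K := 2) fun x y => by
    simpa [dist_eq_norm] using hV a ha x y).continuous

lemma cont_val (hV : ∀ a : ℝ, 0 < a → ∀ x y, ‖gv V a x - gv V a y‖ ≤ 2 * ‖x - y‖)
    (h0 : 0 < s / Λ) {T : Type} [TopologicalSpace T] {ev : T → B → E d}
    (hev : ∀ b, Continuous fun t => ev t b) {e : Tr B} (hg : e.Good Λ s η ω) :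
    Continuous fun t => e.val V (ev t) := by
  induction e with
  | leaf b => exact hev b
  | add e κ v c i1 i2 =>
    exact (i1 hg.1).add (((cont_gv hV (h0.trans_le hg.2.1)).comp (i2 hg.2.2.2.2.2.2)).const_smul κ)

end Val

end Crest.Agent.LCS.Stp
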