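import Crest.Agent.LCS.WB1

/-! JOB C1, part 2: the class of tensor fields and its closure properties. -/

set_option autoImplicit false
set_option linter.unusedSectionVars false
open MeasureTheory Function

namespace Crest.Agent.LCS

structure Pw where
  d : ℕ
  U : E d → ℝ
  v : ℝ
  τ : ℝ
  hv : 0 < v
  hv1 : v ≤ 1
  hτ : 0 ≤ τ
  hτ1 : τ ≤ 1
  hU : HessB U 0 (2 * v)
  cx : Cx U

abbrev TF := (p : Pw) → (ℕ → Fin p.d) → Z p.d → ℝ

noncomputable def Sh (p : Pw) (μ : Multiset (Fin p.d)) : Z p.d → ℝ := fun z => p.v⁻¹ * SL p.U μ z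

theorem act_cmul {Y : Type} [NormedAddCommGroup Y] [NormedSpace ℝ Y] (b : Y → Y) (c : ℝ)
    {f : Y → ℝ} (hf : Differentiable ℝ f) : act b (fun z => c * f z) = fun z => c * act b f z :=
  act_csmul b c hf

theorem dl_cmul {d : ℕ} (U : E d → ℝ) (c : Bool) (k : Fin d) (a : ℝ) {F : Z d → ℝ}
    (hF : F.HasTemperateGrowth) (z : Z d) : dl U c k (fun z => a * F z) z = a * dl U c k F z := by
  unfold dl
  rw [pd_eq_act, act_cmul _ _ (tg_diff hF), ← pd_eq_act]; ring

theorem tg_so {d : ℕ} {Y : Type} [NormedAddCommGroup Y] [NormedSpace ℝ Y] (s : Finset ℕ)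
    {F : (ℕ → Fin d) → Y → ℝ} (hF : ∀ I, (F I).HasTemperateGrowth) (I : ℕ → Fin d) :
    (fun z => so s (fun I' => F I' z) I).HasTemperateGrowth := tg_sum _ fun _ _ => hF _

theorem act_so {d : ℕ} {Y : Type} [NormedAddCommGroup Y] [NormedSpace ℝ Y] (b : Y → Y)
    (s : Finset ℕ) {F : (ℕ → Fin d) → Y → ℝ} (hF : ∀ I, (F I).HasTemperateGrowth) (I : ℕ → Fin d) :
    act b (fun z => so s (fun I' => F I' z) I) = fun z => so s (fun I' => act b (F I') z) I :=
  act_sum b _ fun _ _ => tg_diff (hF _)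

theorem dl_so {d : ℕ} {U : E d → ℝ} (h : Cx U) (c : Bool) (k : Fin d) (s : Finset ℕ)
    {F : (ℕ → Fin d) → Z d → ℝ} (hF : ∀ I, (F I).HasTemperateGrowth) (I : ℕ → Fin d) (z : Z d) :
    dl U c k (fun z => so s (fun I' => F I' z) I) z = so s (fun I' => dl U c k (F I') z) I :=
  h.dl_sum c k _ (fun _ _ => hF _) z

theorem tg_Sh (p : Pw) (μ : Multiset (Fin p.d)) : (Sh p μ).HasTemperateGrowth :=
  (HasTemperateGrowth.const _).fun_mul (p.cx.tg_SL μ)

theorem SL_eq (p : Pw) (μ : Multiset (Fin p.d)) (z : Z p.d) : SL p.U μ z = p.v * Sh p μ z := by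
  have := p.hv.ne'
  simp only [Sh]; field_simp

theorem pd_Sh (p : Pw) (c : Bool) (k : Fin p.d) (μ : Multiset (Fin p.d)) (z : Z p.d) :
    pd (dirc c k) (Sh p μ) z = rho c z * Sh p (k ::ₘ μ) z := by
  have : Sh p μ = fun z => p.v⁻¹ * SL p.U μ z := rfl
  rw [this, pd_eq_act, act_cmul _ _ (tg_diff (p.cx.tg_SL _)), ← pd_eq_act]
  simp only [p.cx.pd_SL, Sh]; ring

theorem D_Sh (p : Pw) {s : Finset ℕ} (hs : s.Nonempty) (I : ℕ → Fin p.d) (z : Z p.d) :
    act (bD p.U) (Sh p (s.val.map I)) z = ∑ k, dl p.U true k (Sh p (k ::ₘ s.val.map I)) z +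
      rr z.1 * (p.v * ∑ A ∈ (s.powerset.erase ∅).erase s,
        ∑ k, Sh p (k ::ₘ A.val.map I) z * Sh p (k ::ₘ (s \ A).val.map I) z) := by
  have e : ∀ μ, Sh p μ = fun z => p.v⁻¹ * SL p.U μ z := fun _ => rfl
  rw [e, act_cmul _ _ (tg_diff (p.cx.tg_SL _))]
  simp only [p.cx.D_SL hs, e, dl_cmul _ _ _ _ (p.cx.tg_SL _), mul_add, Finset.mul_sum]
  congr 1
  refine Finset.sum_congr rfl fun A _ => Finset.sum_congr rfl fun k _ => ?_
  have := p.hv.ne'
  field_simp

inductive TT : ℕ → Finset ℕ → TF → Prop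
  | base (s : Finset ℕ) (hs : 2 ≤ s.card) : TT 0 s (fun p I => Sh p (s.val.map I))
  | del {n : ℕ} {s : Finset ℕ} {T : TF} (c : Bool) (t : ℕ) (ht : t ∉ s) (h : TT n (insert t s) T) :
      TT (n + 1) s (fun p I z => ∑ k, dl p.U c k (T p (update I t k)) z)
  | mul {n : ℕ} {T : TF} (α β γ : Finset ℕ) (hαβ : Disjoint α β) (hαγ : Disjoint α γ)
      (hβγ : Disjoint β γ) (hα : α.Nonempty) (hβ : β.Nonempty) (h : TT n (α ∪ γ) T) :
      TT n (β ∪ γ) (fun p I z => so α (fun I' => Sh p ((α ∪ β).val.map I') z * T p I' z) I)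
  | bdd {n : ℕ} {s : Finset ℕ} {T : TF} (c : Pw → ℝ) (M : ℝ) (hc : ∀ p, |c p| ≤ M) (h : TT n s T) :
      TT n s (fun p I z => c p * T p I z)
  | rmul {n : ℕ} {s : Finset ℕ} {T : TF} (h : TT n s T) : TT n s (fun p I z => rr z.1 * T p I z)
  | add {n : ℕ} {s : Finset ℕ} {T T' : TF} (h : TT n s T) (h' : TT n s T') :
      TT n s (fun p I z => T p I z + T' p I z)
  | zero (n : ℕ) (s : Finset ℕ) : TT n s (fun _ _ _ => 0)
  | rename {n : ℕ} {s : Finset ℕ} {T : TF} (π : Equiv.Perm ℕ) (h : TT n s T) :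
      TT n (s.map π.toEmbedding) (fun p I => T p (I ∘ π))
  | mono {n n' : ℕ} {s : Finset ℕ} {T : TF} (h : TT n s T) (hn : n ≤ n') : TT n' s T

noncomputable def grad (c : Bool) (i : ℕ) (T : TF) : TF := fun p I => pd (dirc c (I i)) (T p I)
noncomputable def DD (T : TF) : TF := fun p I => act (bD p.U) (T p I)

theorem map_swap_insert {s : Finset ℕ} {i j : ℕ} (hi : i ∉ s) (hj : j ∉ s) :
    (insert i s).map (Equiv.swap i j).toEmbedding = insert j s := by
  rw [Finset.map_insert]
  congr 1
  · simp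
  · ext x
    simp only [Finset.mem_map_equiv, Equiv.symm_swap]
    by_cases h1 : x = i
    · subst h1; simp [hi, hj]
    · by_cases h2 : x = j
      · subst h2; simp [hi, hj]
      · rw [Equiv.swap_apply_of_ne_of_ne h1 h2]

theorem map_pair {d : ℕ} {t t' : ℕ} (h : t ≠ t') (I : ℕ → Fin d) :
    (({t} : Finset ℕ) ∪ {t'}).val.map I = {I t', I t} := by
  rw [map_union (by simpa using h), Multiset.pair_comm]
  simp

theorem map_congr' {d : ℕ} {s : Finset ℕ} {I I' : ℕ → Fin d} (h : ∀ i ∈ s, I i = I' i) :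
    s.val.map I = s.val.map I' := dep_map s I I' h

theorem map_upF {d : ℕ} {s t : Finset ℕ} (h : Disjoint s t) (I : ℕ → Fin d) (y : ∀ _ : t, Fin d) :
    s.val.map (updateFinset I t y) = s.val.map I := (dep_map s).upF h I y

namespace TT

theorem cast {n : ℕ} {s s' : Finset ℕ} {T T' : TF} (h : TT n s T) (hs : s' = s)
    (hT : ∀ p I z, T' p I z = T p I z) : TT n s' T' := by
  have : T' = T := by funext p I z; exact hT p I z
  rw [hs, this]; exact h

theorem tg {n : ℕ} {s : Finset ℕ} {T : TF} (h : TT n s T) :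
    ∀ p I, (T p I).HasTemperateGrowth := by
  induction h with
  | base s hs => exact fun p I => tg_Sh p _
  | del c t ht h ih => exact fun p I => tg_sum _ fun k _ => p.cx.tg_dl _ _ (ih p _)
  | mul α β γ _ _ _ _ _ h ih => exact fun p I => tg_so _ (fun I' => (tg_Sh p _).fun_mul (ih p I')) I
  | bdd c M hc h ih => exact fun p I => (HasTemperateGrowth.const _).fun_mul (ih p I)
  | rmul h ih => exact fun p I => p.cx.tg_r.fun_mul (ih p I)
  | add h h' ih ih' => exact fun p I => (ih p I).fun_add (ih' p I)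
  | zero => exact fun p I => HasTemperateGrowth.const _
  | rename π h ih => exact fun p I => ih p _
  | mono h hn ih => exact ih

theorem dep {n : ℕ} {s : Finset ℕ} {T : TF} (h : TT n s T) : ∀ p, Dep s (T p) := by
  induction h with
  | base s hs => exact fun p I I' hI => by beta_reduce; rw [map_congr' hI]
  | del c t ht h ih =>
    intro p I I' hI
    funext z
    refine Finset.sum_congr rfl fun k _ => ?_
    rw [ih p (update I t k) (update I' t k)]
    intro i hi
    by_cases e : i = t
    · subst e; simp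
    · rw [update_of_ne e, update_of_ne e]; exact hI i ((Finset.mem_insert.1 hi).resolve_left e)
  | mul α β γ _ _ _ _ _ h ih =>
    intro p I I' hI
    funext z
    refine Dep.so (fun J J' hJ => ?_) I I' hI
    rw [map_congr' (s := α ∪ β) fun i hi => hJ i (by simp at hi ⊢; tauto),
      ih p J J' fun i hi => hJ i (by simp at hi ⊢; tauto)]
  | bdd c M hc h ih => exact fun p I I' hI => by beta_reduce; rw [ih p I I' hI]
  | rmul h ih => exact fun p I I' hI => by beta_reduce; rw [ih p I I' hI]
  | add h h' ih ih' => exact fun p I I' hI => by beta_reduce; rw [ih p I I' hI, ih' p I I' hI]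
  | zero => exact fun p I I' _ => rfl
  | rename π h ih =>
    exact fun p I I' hI => ih p _ _ fun i hi => hI _ (Finset.mem_map_of_mem _ hi)
  | mono h hn ih => exact ih

variable {n : ℕ} {s : Finset ℕ} {T T' : TF}

theorem rho (c : Bool) (h : TT n s T) : TT n s (fun p I z => rho c z * T p I z) := by
  cases c
  · exact (zero n s).cast rfl fun p I z => by simp [LCS.rho]
  · exact h.rmul

theorem vmul (h : TT n s T) : TT n s (fun p I z => p.v * T p I z) :=
  h.bdd (fun p => p.v) 1 fun p => by rw [abs_of_pos p.hv]; exact p.hv1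

theorem cmul (c : ℝ) (h : TT n s T) : TT n s (fun p I z => c * T p I z) :=
  h.bdd (fun _ => c) |c| fun _ => le_rfl

theorem sub (h : TT n s T) (h' : TT n s T') : TT n s (fun p I z => T p I z - T' p I z) :=
  (h.add (h'.cmul (-1))).cast rfl fun p I z => by ring

theorem sum {ι : Type} (A : Finset ι) {F : ι → TF} (h : ∀ a ∈ A, TT n s (F a)) :
    TT n s (fun p I z => ∑ a ∈ A, F a p I z) := by
  classical
  induction A using Finset.induction_on with
  | empty => exact (zero n s).cast rfl fun p I z => by simp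
  | insert a A ha ih =>
    exact ((h a (by simp)).add (ih fun b hb => h b (by simp [hb]))).cast rfl fun p I z => by
      rw [Finset.sum_insert ha]

theorem grad_fresh {c : Bool} {i : ℕ} (hd : ∀ p, Dep s (T p)) (hi : i ∉ s)
    (h : TT n (insert i s) (grad c i T)) (j : ℕ) (hj : j ∉ s) : TT n (insert j s) (grad c j T) := by
  refine (h.rename (Equiv.swap i j)).cast (map_swap_insert hi hj).symm fun p I z => ?_
  simp only [grad, comp_apply, Equiv.swap_apply_left]
  rw [hd p (I ∘ Equiv.swap i j) I]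
  intro x hx
  simp only [comp_apply]
  rw [Equiv.swap_apply_of_ne_of_ne (fun e : x = i => hi (e ▸ hx)) (fun e : x = j => hj (e ▸ hx))]

theorem smat {t t' : ℕ} (ht : t ∉ s) (ht' : t' ∉ s) (htt : t ≠ t') (h : TT n (insert t s) T) :
    TT n (insert t' s) (fun p I z => ∑ k, Sh p {I t', k} z * T p (update I t k) z) := by
  refine (mul {t} {t'} s (by simpa using htt) (by simpa) (by simpa) (by simp) (by simp)
    (h.cast (Finset.insert_eq _ _).symm fun _ _ _ => rfl)).cast (Finset.insert_eq _ _)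
    fun p I z => ?_
  rw [so_singleton]
  refine Finset.sum_congr rfl fun k _ => ?_
  rw [map_pair htt, update_self, update_of_ne htt.symm]

theorem del_smat (c : Bool) {t : ℕ} (ht : t ∉ s) (h : TT n (insert t s) T) :
    TT (n + 1) s (fun p I z =>
      ∑ l, dl p.U c l (fun z => ∑ k, Sh p {l, k} z * T p (update I t k) z) z) := by
  obtain ⟨t', ht'⟩ := Infinite.exists_notMem_finset (insert t s)
  have h1 : t' ∉ s := fun e => ht' (by simp [e])
  have h2 : t ≠ t' := fun e => ht' (by simp [e])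
  refine (del c t' h1 (smat ht h1 h2 h)).cast rfl fun p I z => ?_
  refine Finset.sum_congr rfl fun l _ => ?_
  congr 1; funext z
  refine Finset.sum_congr rfl fun k _ => ?_
  rw [update_self, update_comm h2.symm, (h.dep p).update ht']

theorem base_grad (hs : s.Nonempty) (c : Bool) (i : ℕ) (hi : i ∉ s) :
    TT 0 (insert i s) (grad c i (fun p I => Sh p (s.val.map I))) := by
  have := hs.card_pos
  refine ((base (insert i s) (by rw [Finset.card_insert_of_notMem hi]; omega)).rho c).cast rfl
    fun p I z => ?_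
  simp only [grad, pd_Sh, map_insert hi]

theorem grad_mem (h : TT n s T) : ∀ c i, i ∉ s → TT n (insert i s) (grad c i T) := by
  induction h with
  | base s hs => exact fun c i hi => base_grad (Finset.card_pos.1 (by omega)) c i hi
  | @del n s T c' t ht h ih =>
    intro c
    obtain ⟨i, hi⟩ := Infinite.exists_notMem_finset (insert t s)
    have h1 : i ∉ s := fun e => hi (by simp [e])
    have h2 : t ≠ i := fun e => hi (by simp [e])
    refine grad_fresh (del c' t ht h).dep h1 ?_
    have a1 := del c' t (s := insert i s) (by simp [ht, h2])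
      ((ih c i hi).cast (Finset.insert_comm _ _ _) fun _ _ _ => rfl)
    have a2 := (((h.rename (Equiv.swap t i)).cast (map_swap_insert ht h1).symm
      fun _ _ _ => rfl).cmul (if c = c' then 1 else 0)).mono (Nat.le_succ n)
    have a3 := ((((smat ht h1 h2 h).vmul).rho c').rho c).mono (Nat.le_succ n)
    refine ((a1.add a2).add a3).cast rfl fun p I z => ?_
    simp only [grad]
    rw [pd_sum _ _ fun k _ => tg_diff (p.cx.tg_dl _ _ (h.tg p _))]
    simp only [p.cx.pd_dl _ _ _ _ (h.tg p _), Finset.sum_add_distrib, update_of_ne h2.symm,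
      SL_eq, Finset.mul_sum]
    congr 1
    · congr 1
      rw [h.dep p (I ∘ Equiv.swap t i) (update I t (I i))]
      · by_cases e : c = c' <;> simp [e]
      · intro x hx
        by_cases e : x = t
        · subst e; simp
        · rw [update_of_ne e, comp_apply, Equiv.swap_apply_of_ne_of_ne e (fun e' : x = i => hi (e' ▸ hx))]
    · exact Finset.sum_congr rfl fun k _ => by ring
  | @mul n T α β γ hαβ hαγ hβγ hα hβ h ih =>
    intro c
    obtain ⟨i, hi⟩ := Infinite.exists_notMem_finset (α ∪ β ∪ γ)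
    simp only [Finset.mem_union, not_or] at hi
    obtain ⟨⟨h1, h2⟩, h3⟩ := hi
    refine grad_fresh (i := i) (mul α β γ hαβ hαγ hβγ hα hβ h).dep (by simp [h2, h3]) ?_
    have a1 := mul α β (insert i γ) hαβ (by simp [h1, hαγ]) (by simp [h2, hβγ]) hα hβ
      ((ih c i (by simp [h1, h3])).cast (by simp) fun _ _ _ => rfl)
    have a2 := (mul α (insert i β) γ (by simp [h1, hαβ]) hαγ (by simp [h3, hβγ]) hα (by simp)
      h).rho c
    refine ((a1.cast (by simp) fun _ _ _ => rfl).add (a2.cast (by simp) fun _ _ _ => rfl)).cast rfl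
      fun p I z => ?_
    simp only [grad]
    rw [pd_eq_act, act_so _ _ fun I' => (tg_Sh p _).fun_mul (h.tg p I'), ← so_const_mul, ← so_add]
    refine so_congr fun y => ?_
    rw [← pd_eq_act, pd_mul _ (tg_diff (tg_Sh p _)) (tg_diff (h.tg p _)), upF_of_notMem _ _ h1]
    simp only [pd_Sh]
    rw [Finset.union_insert, map_insert (by simp [h1, h2]), upF_of_notMem _ _ h1]
    ring
  | bdd a M hc h ih =>
    intro c i hi
    refine ((ih c i hi).bdd a M hc).cast rfl fun p I z => ?_
    simp only [grad]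
    rw [pd_eq_act, act_cmul _ _ (tg_diff (h.tg p I))]; rfl
  | rmul h ih =>
    intro c i hi
    refine (ih c i hi).rmul.cast rfl fun p I z => ?_
    simp only [grad]
    rw [pd_mul _ (tg_diff p.cx.tg_r) (tg_diff (h.tg p I)), p.cx.pd_r]; simp
  | add h h' ih ih' =>
    intro c i hi
    refine ((ih c i hi).add (ih' c i hi)).cast rfl fun p I z => ?_
    simp only [grad]
    rw [pd_add _ (tg_diff (h.tg p I)) (tg_diff (h'.tg p I))]
  | zero n s =>
    intro c i hi
    exact (zero n _).cast rfl fun p I z => by simp only [grad]; rw [pd_const]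
  | @rename n s T π h ih =>
    intro c i hi
    have hi' : π.symm i ∉ s := by simpa using hi
    refine ((ih c _ hi').rename π).cast (by simp [Finset.map_insert]) fun p I z => ?_
    simp [grad]
  | mono h hn ih => exact fun c i hi => (ih c i hi).mono hn

theorem two_mul_core {α β γ A B : Finset ℕ} (hαβ : Disjoint α β) (hαγ : Disjoint α γ)
    (hβγ : Disjoint β γ) (hAB : Disjoint A B) (hU : A ∪ B = α ∪ β) (h1 : (α ∩ A).Nonempty)
    (h2 : (β ∩ B).Nonempty) (h : TT n (α ∪ γ) T) :
    TT n (β ∪ γ) (fun p I z => so α (fun I' =>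
      (∑ k, Sh p (k ::ₘ A.val.map I') z * Sh p (k ::ₘ B.val.map I') z) * T p I' z) I) := by
  obtain ⟨t, ht⟩ := Infinite.exists_notMem_finset (α ∪ β ∪ γ)
  have hU' : ∀ x, x ∈ A ∨ x ∈ B ↔ x ∈ α ∨ x ∈ β := fun x => by
    rw [← Finset.mem_union, hU, Finset.mem_union]
  simp only [Finset.mem_union, not_or] at ht
  obtain ⟨⟨t1, t2⟩, t3⟩ := ht
  have t4 : t ∉ A := fun e => by have := (hU' t).1 (Or.inl e); tauto
  have t5 : t ∉ B := fun e => by have := (hU' t).1 (Or.inr e); tauto
  have d1 : ∀ x, x ∈ α → x ∉ β := fun x hx => Finset.disjoint_left.1 hαβ hx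
  have d2 : ∀ x, x ∈ α → x ∉ γ := fun x hx => Finset.disjoint_left.1 hαγ hx
  have d3 : ∀ x, x ∈ β → x ∉ γ := fun x hx => Finset.disjoint_left.1 hβγ hx
  have d4 : ∀ x, x ∈ A → x ∉ B := fun x hx => Finset.disjoint_left.1 hAB hx
  have a1 := mul (α ∩ A) (insert t (β ∩ A)) ((α ∩ B) ∪ γ)
    (Finset.disjoint_left.2 fun x => by grind) (Finset.disjoint_left.2 fun x => by grind)
    (Finset.disjoint_left.2 fun x => by grind) h1 (by simp)
    (h.cast (by ext x; grind) fun _ _ _ => rfl)
  have a2 := mul (insert t (α ∩ B)) (β ∩ B) ((β ∩ A) ∪ γ)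
    (Finset.disjoint_left.2 fun x => by grind) (Finset.disjoint_left.2 fun x => by grind)
    (Finset.disjoint_left.2 fun x => by grind) (by simp) h2
    (a1.cast (by ext x; grind) fun _ _ _ => rfl)
  refine a2.cast (by ext x; grind) fun p I z => ?_
  have e1 : α ∩ A ∪ insert t (β ∩ A) = insert t A := by ext x; grind
  have e2 : insert t (α ∩ B) ∪ β ∩ B = insert t B := by ext x; grind
  have e3 : α = (α ∩ B) ∪ (α ∩ A) := by ext x; grind
  rw [e1, e2, so_insert' (by simp [t1])]
  conv_lhs => rw [e3]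
  rw [so_union (Finset.disjoint_left.2 fun x => by grind)]
  congr 1; funext J
  simp only [Finset.sum_mul]
  rw [so_sum]
  refine Finset.sum_congr rfl fun k _ => ?_
  rw [so_update (by simp [t1]), map_insert_update t5, ← so_const_mul]
  refine so_congr fun y => ?_
  rw [map_insert_update t4, (h.dep p).update (by simp [t1, t3]),
    map_upF (s := B) (Finset.disjoint_left.2 fun x => by grind)]
  ring

theorem two_mul {α β γ A : Finset ℕ} (hαβ : Disjoint α β) (hαγ : Disjoint α γ)
    (hβγ : Disjoint β γ) (hα : α.Nonempty) (hβ : β.Nonempty)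
    (hA : A ∈ ((α ∪ β).powerset.erase ∅).erase (α ∪ β)) (h : TT n (α ∪ γ) T) :
    TT n (β ∪ γ) (fun p I z => so α (fun I' => (∑ k, Sh p (k ::ₘ A.val.map I') z *
      Sh p (k ::ₘ ((α ∪ β) \ A).val.map I') z) * T p I' z) I) := by
  simp only [Finset.mem_erase, Finset.mem_powerset] at hA
  obtain ⟨hA1, hA2, hA3⟩ := hA
  obtain ⟨a, ha⟩ := Finset.nonempty_iff_ne_empty.2 hA2
  obtain ⟨b, hb⟩ : ((α ∪ β) \ A).Nonempty :=
    Finset.sdiff_nonempty.2 fun e => hA1 (Finset.Subset.antisymm hA3 e)
  obtain ⟨x, hx⟩ := hα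
  obtain ⟨y, hy⟩ := hβ
  have d1 : ∀ x, x ∈ α → x ∉ β := fun x hx => Finset.disjoint_left.1 hαβ hx
  have ha' := hA3 ha
  by_cases hc : (α ∩ A).Nonempty ∧ (β ∩ ((α ∪ β) \ A)).Nonempty
  · exact two_mul_core hαβ hαγ hβγ Finset.disjoint_sdiff (Finset.union_sdiff_of_subset hA3)
      hc.1 hc.2 h
  · have hc' : (α ∩ ((α ∪ β) \ A)).Nonempty ∧ (β ∩ A).Nonempty := by
      rw [not_and_or, Finset.not_nonempty_iff_eq_empty, Finset.not_nonempty_iff_eq_empty,
        Finset.eq_empty_iff_forall_notMem, Finset.eq_empty_iff_forall_notMem] at hc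
      rcases hc with hc | hc
      · exact ⟨⟨x, by have := hc x; grind⟩, ⟨a, by have := hc a; grind⟩⟩
      · exact ⟨⟨b, by have := hc b; grind⟩, ⟨y, by have := hc y; grind⟩⟩
    refine (two_mul_core hαβ hαγ hβγ Finset.sdiff_disjoint (Finset.sdiff_union_of_subset hA3)
      hc'.1 hc'.2 h).cast rfl fun p I z => ?_
    simp only [mul_comm (Sh p (_ ::ₘ A.val.map _) z)]

theorem base_D (hs : s.Nonempty) : TT 1 s (DD (fun p I => Sh p (s.val.map I))) := by
  obtain ⟨t, ht⟩ := Infinite.exists_notMem_finset s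
  have := hs.card_pos
  have a1 := del true t ht (base (insert t s) (by rw [Finset.card_insert_of_notMem ht]; omega))
  have a2 : TT 1 s (fun p I z => ∑ A ∈ (s.powerset.erase ∅).erase s,
      ∑ k, Sh p (k ::ₘ A.val.map I) z * Sh p (k ::ₘ (s \ A).val.map I) z) := by
    refine sum _ fun A hA => ?_
    simp only [Finset.mem_erase, Finset.mem_powerset] at hA
    obtain ⟨hA1, hA2, hA3⟩ := hA
    have hb : (s \ A).Nonempty := Finset.sdiff_nonempty.2 fun e => hA1 (Finset.Subset.antisymm hA3 e)
    have := hb.card_pos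
    have t1 : t ∉ A := fun e => ht (hA3 e)
    have t2 : t ∉ s \ A := by simp [ht]
    refine ((mul {t} A (s \ A) (by simpa) (by simpa using t2) Finset.disjoint_sdiff (by simp)
      (Finset.nonempty_iff_ne_empty.2 hA2) (base _ (by
        rw [← Finset.insert_eq, Finset.card_insert_of_notMem t2]; omega))).mono
      (Nat.zero_le 1)).cast (Finset.union_sdiff_of_subset hA3).symm fun p I z => ?_
    rw [so_singleton]
    simp only [← Finset.insert_eq, map_insert_update t1, map_insert_update t2]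
  refine (a1.add a2.vmul.rmul).cast rfl fun p I z => ?_
  simp only [DD, D_Sh p hs, map_insert_update ht]

theorem D_mem (h : TT n s T) : TT (n + 1) s (DD T) := by
  induction h with
  | base s hs => exact base_D (Finset.card_pos.1 (by omega))
  | @del n s T c t ht h ih =>
    refine ((del c t ht ih).add (((del_smat true ht h).vmul.rho c).mono (Nat.le_succ _))).cast rfl
      fun p I z => ?_
    simp only [DD]
    rw [act_sum _ _ fun k _ => tg_diff (p.cx.tg_dl _ _ (h.tg p _))]
    simp only [p.cx.D_dl _ _ (h.tg p _), Finset.sum_add_distrib, ← Finset.mul_sum,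
      p.cx.dl_sum true _ _ fun k _ => (tg_Sh p _).fun_mul (h.tg p _)]
    congr 2
    rw [Finset.sum_comm, Finset.mul_sum]
    refine Finset.sum_congr rfl fun l _ => ?_
    rw [Finset.mul_sum]
    refine Finset.sum_congr rfl fun k _ => ?_
    rw [← dl_cmul _ _ _ _ ((tg_Sh p _).fun_mul (h.tg p _))]
    simp only [SL_eq, mul_assoc]
  | @mul n T α β γ hαβ hαγ hβγ hα hβ h ih =>
    obtain ⟨t, ht⟩ := Infinite.exists_notMem_finset (α ∪ β ∪ γ)
    simp only [Finset.mem_union, not_or] at ht
    obtain ⟨⟨h1, h2⟩, h3⟩ := ht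
    have a1 := mul α β γ hαβ hαγ hβγ hα hβ ih
    have a2 := del true t (s := β ∪ γ) (by simp [h2, h3])
      ((mul α (insert t β) γ (by simp [h1, hαβ]) hαγ (by simp [h3, hβγ]) hα (by simp) h).cast
        (by simp) fun _ _ _ => rfl)
    have a3 := (mul (insert t α) β γ (by simp [h2, hαβ]) (by simp [h3, hαγ]) hβγ (by simp) hβ
      ((h.grad_mem true t (by simp [h1, h3])).cast (by simp) fun _ _ _ => rfl)).mono (Nat.le_succ n)
    have a4 := ((sum _ fun A hA => two_mul hαβ hαγ hβγ hα hβ hA h).vmul.rmul).mono (Nat.le_succ n)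
    refine (((a1.add a2).add a3).add a4).cast rfl fun p I z => ?_
    simp only [DD]
    rw [act_so _ _ fun I' => (tg_Sh p _).fun_mul (h.tg p I'), so_insert' h1]
    have e2 : ∀ k, dl p.U true k (fun z => so α
        (fun I' => Sh p ((α ∪ insert t β).val.map I') z * T p I' z) (update I t k)) z =
        so α (fun I' => dl p.U true k
          (fun z => Sh p (k ::ₘ (α ∪ β).val.map I') z * T p I' z) z) I := by
      intro k
      rw [dl_so p.cx _ _ _ fun I' => (tg_Sh p _).fun_mul (h.tg p I'), so_update h1]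
      refine so_congr fun y => ?_
      rw [Finset.union_insert, map_insert_update (by simp [h1, h2]),
        (h.dep p).update (by simp [h1, h3])]
    simp only [e2]
    rw [← so_sum, ← so_sum, ← so_const_mul, ← so_const_mul, ← so_add, ← so_add, ← so_add]
    refine so_congr fun y => ?_
    rw [act_mul _ (tg_diff (tg_Sh p _)) (tg_diff (h.tg p _))]
    simp only [D_Sh p (hα.mono Finset.subset_union_left), grad, update_self,
      p.cx.dl_mul true _ (tg_Sh p _) (h.tg p _), Finset.insert_union,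
      map_insert_update (show t ∉ α ∪ β by simp [h1, h2]),
      (h.dep p).update (show t ∉ α ∪ γ by simp [h1, h3]), Finset.sum_sub_distrib, ← Finset.sum_mul]
    ring
  | bdd a M hc h ih =>
    refine (ih.bdd a M hc).cast rfl fun p I z => ?_
    simp only [DD]
    rw [act_cmul _ _ (tg_diff (h.tg p I))]
  | rmul h ih =>
    refine (ih.rmul.add (h.mono (Nat.le_succ _))).cast rfl fun p I z => ?_
    simp only [DD]
    rw [act_mul _ (tg_diff p.cx.tg_r) (tg_diff (h.tg p I)), p.cx.D_r]; simp
  | add h h' ih ih' =>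
    refine (ih.add ih').cast rfl fun p I z => ?_
    simp only [DD]
    rw [act_add _ (tg_diff (h.tg p I)) (tg_diff (h'.tg p I))]
  | zero n s => exact (zero _ _).cast rfl fun p I z => by simp only [DD]; rw [act_const]
  | rename π h ih => exact (ih.rename π).cast rfl fun p I z => rfl
  | mono h hn ih => exact ih.mono (by omega)

end TT

end Crest.Agent.LCS
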